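import Claimed.Agent.R291.Defs.Lim
import Claimed.Agent.R291.Ht.Basic
import Claimed.Agent.R291.Geo.Region
import Claimed.Agent.R291.Geo.Lat

/-!
# Row 291 (S0539), Lim/Sm : THE SMEARING BOUNDS IN PHYSICAL FORM (A0, A1 at finite mesh)      (statements helper181, head of LIM; PROVER helper172; prefix `lim_sm_`)

TEX[eq:limit-fixed-moments] TEX[eq:limit-small-moments].   Input: `LimSM x` (lattice form, exit of MOM) + the geometry of FRZ (`Geo/*`).  Consumers: Lim/Ult (165: A0, A1), Lim/Dec (181).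
No partition of unity: a general test is split at the level of the FACE WEIGHTS (by the position of the face centre), power mean inequality.
* `lim_sm_w`      weights `|w u| ≤ M δ²` carried by the faces with centre in `wkBall z r`, `z ∈ K`, `r ≤ r0`:   `E (∑ w h)^(2m) ≤ C (M r²)^(2m) (1 + log 1/r)^m`, eventually, UNIFORMLY in `w`
* `lim_sm_small`  the same for `htSm` of a function `|g| ≤ M` vanishing off `wkBall z r`  (no regularity of `g` is needed: `|∫_face g| ≤ M vol`)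
* `lim_sm_fixed`  `|g| ≤ M`, `g = 0` off the compact `K ⊆ D`:   `E (htSm g)^(2m) ≤ C M^(2m)`, eventually, uniformly in `g`
PLAN of `lim_sm_w`: `u0` = a face containing `z`; `a = ⌈(2/√3)(r/δ + 2)⌉ ≤ 2 r/δ`; `N = ⌊c_K/δ⌋` (`latBall u0 N ⊆ F n`), `r0 = c0 c_K/4`; `N' = ⌈B/δ⌉`, `B` = a bound of `D` (a site of `F n` has its centre in `D`);
apply `LimSM` to `w/(M δ² a²)`; `LimCoConn (F n)` = `hg_compl_reach`; `1 + log (N'/a) ≤ C_B (1 + log 1/r)`.
-/

set_option autoImplicit false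

namespace Claimed.Agent.R291

open MeasureTheory Filter Topology Set
open Claims Claims.C0467

/-- numerical part of `lim_sm_w`: the three integer radii. -/
theorem lim_sm_radii {d c R r c0 : ℝ} (hd : 0 < d) (hc : 0 < c) (hR : 0 < R) (hr : 0 < r)
    (hc0 : 0 < c0) (hdr : d ≤ r) (hdc : d ≤ c / 2) (hdR : d ≤ R) (hrc : 10 * r ≤ c0 * c) :
    ∃ a N N' : ℕ, 1 ≤ a ∧ 2 * r + 2 * d ≤ a * d ∧ (a : ℝ) * d ≤ 5 * r ∧ (N : ℝ) * d ≤ c ∧
      (a : ℝ) ≤ c0 * N ∧ R ≤ (N' : ℝ) * d ∧ (N' : ℝ) * d ≤ 2 * R := by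
  refine ⟨⌈2 * r / d⌉₊ + 2, ⌊c / d⌋₊, ⌈R / d⌉₊, by omega, ?_, ?_, ?_, ?_, ?_, ?_⟩
  · have h1 := Nat.le_ceil (2 * r / d)
    rw [div_le_iff₀ hd] at h1
    push_cast
    nlinarith
  · have h1 := Nat.ceil_lt_add_one (a := 2 * r / d) (by positivity)
    have h2 : (⌈2 * r / d⌉₊ : ℝ) * d < (2 * r / d + 1) * d := mul_lt_mul_of_pos_right h1 hd
    have h3 : (2 * r / d + 1) * d = 2 * r + d := by field_simp
    push_cast
    nlinarith
  · have h1 := Nat.floor_le (a := c / d) (by positivity)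
    rwa [le_div_iff₀ hd] at h1
  · have h1 := Nat.ceil_lt_add_one (a := 2 * r / d) (by positivity)
    have h2 := Nat.lt_floor_add_one (c / d)
    have h3 : 2 ≤ c / d := by rw [le_div_iff₀ hd]; linarith
    have h4 : c / d / 2 ≤ (⌊c / d⌋₊ : ℝ) := by linarith
    have h5 : 1 ≤ r / d := by rw [le_div_iff₀ hd]; linarith
    have h6 : 2 * r / d = 2 * (r / d) := by ring
    have h7 : 10 * (r / d) ≤ c0 * (c / d) := by
      rw [← mul_div_assoc, ← mul_div_assoc]
      exact div_le_div_of_nonneg_right hrc hd.le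
    push_cast
    have h8 : c0 * (c / d / 2) ≤ c0 * (⌊c / d⌋₊ : ℝ) := mul_le_mul_of_nonneg_left h4 hc0.le
    nlinarith
  · have h1 := Nat.le_ceil (R / d)
    rwa [div_le_iff₀ hd] at h1
  · have h1 := Nat.ceil_lt_add_one (a := R / d) (by positivity)
    have h2 : (⌈R / d⌉₊ : ℝ) * d < (R / d + 1) * d := mul_lt_mul_of_pos_right h1 hd
    have h3 : (R / d + 1) * d = R + d := by field_simp
    nlinarith

/-- numerical part of `lim_sm_w`: the logarithm. -/
theorem lim_sm_log {d R r : ℝ} (hd : 0 < d) (hR : 0 < R) (hr : 0 < r) (hr1 : r ≤ 1) {a N' : ℕ}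
    (ha : 2 * r + 2 * d ≤ a * d) (hN' : (N' : ℝ) * d ≤ 2 * R) (haN : a < N') :
    0 ≤ 1 + Real.log (N' / a) ∧
      1 + Real.log (N' / a) ≤ (1 + |Real.log R|) * (1 + Real.log (1 / r)) := by
  have ha0 : (0 : ℝ) < a := by
    by_contra hc
    push Not at hc
    nlinarith
  have haN' : (a : ℝ) < N' := by exact_mod_cast haN
  have h1 : 1 ≤ (N' : ℝ) / a := by rw [le_div_iff₀ ha0]; linarith
  have h2 : 0 ≤ Real.log (N' / a) := Real.log_nonneg h1
  have h3 : (N' : ℝ) / a ≤ R / r := by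
    rw [div_le_div_iff₀ ha0 hr]
    have e1 : (N' : ℝ) * r * d ≤ R * a * d := by nlinarith
    exact le_of_mul_le_mul_right e1 hd
  have h4 : Real.log (N' / a) ≤ Real.log (R / r) := Real.log_le_log (by linarith) h3
  have h5 : Real.log (R / r) = Real.log R + Real.log (1 / r) := by
    rw [div_eq_mul_one_div, Real.log_mul hR.ne' (by positivity)]
  have h6 : 0 ≤ Real.log (1 / r) := Real.log_nonneg (by rw [le_div_iff₀ hr]; linarith)
  refine ⟨by linarith, ?_⟩
  have h7 := le_abs_self (Real.log R)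
  nlinarith [abs_nonneg (Real.log R), mul_nonneg (abs_nonneg (Real.log R)) h6]

/-- `lim_sm_w` at one mesh. -/
theorem lim_sm_w_core {x : ℝ} {m : ℕ} {C1 c0 : ℝ} (hC1 : 0 < C1) (hc0 : 0 < c0)
    (hSM : ∀ (F : Finset TV) (u0 : TV) (a N N' : ℕ) (w : TV → ℝ),
      LimCoConn F → 1 ≤ a → (a : ℝ) ≤ c0 * N → latBall u0 N ⊆ F → ¬ latBall u0 N' ⊆ F →
      (∀ u, |w u| ≤ 1 / (a : ℝ) ^ 2) →
      htFz x F (fun h => (∑ u ∈ latBall u0 a, w u * (h u : ℝ)) ^ (2 * m))
        ≤ C1 * (1 + Real.log (N' / a)) ^ m)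
    {F : Finset TV} (hco : LimCoConn F) {d c R r : ℝ} (hd : 0 < d) (hc : 0 < c) (hR : 0 < R)
    (hr : 0 < r) (hr1 : r ≤ 1) (hdr : d ≤ r) (hdc : d ≤ c / 2) (hdR : d ≤ R)
    (hrc : 10 * r ≤ c0 * c) (hrc' : 6 * r ≤ c) {u0 : TV} {z : ℝ × ℝ} (hz : z ∈ hexFace d u0)
    (hin : ∀ N : ℕ, (N : ℝ) * d ≤ c → latBall u0 N ⊆ F)
    (hout : ∀ N : ℕ, R ≤ (N : ℝ) * d → ¬ latBall u0 N ⊆ F)
    {M : ℝ} {w : TV → ℝ} (hw : ∀ u, |w u| ≤ M * d ^ 2)
    (hw0 : ∀ u, triPos d u ∉ wkBall z r → w u = 0) :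
    htFz x F (fun h => (∑ u ∈ latInt F, w u * (h u : ℝ)) ^ (2 * m)) ≤
      (C1 * 25 ^ (2 * m) * (1 + |Real.log R|) ^ m) * (M * r ^ 2) ^ (2 * m)
        * (1 + Real.log (1 / r)) ^ m := by
  obtain ⟨a, N, N', ha1, ha2, ha3, hN, haN, hN'1, hN'2⟩ :=
    lim_sm_radii hd hc hR hr hc0 hdr hdc hdR hrc
  have hd2 : 0 < d ^ 2 := by positivity
  have hM : 0 ≤ M := by
    have := (abs_nonneg _).trans (hw u0)
    by_contra hc
    push Not at hc
    nlinarith
  have ha0 : (0 : ℝ) < a := by exact_mod_cast ha1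
  have hsubF : latBall u0 (a + 1) ⊆ F := hin (a + 1) (by push_cast; nlinarith)
  have hsub : latBall u0 a ⊆ latInt F := hg_latBall_subset_latInt hsubF
  have haN' : a < N' := by
    by_contra hcon
    push Not at hcon
    exact hout N' hN'1 ((hg_latBall_mono u0 (hcon.trans (Nat.le_succ a))).trans hsubF)
  obtain ⟨hl0, hl1⟩ := lim_sm_log hd hR hr hr1 ha2 hN'2 haN'
  set s : ℝ := M * d ^ 2 * (a : ℝ) ^ 2 with hs
  have hs0 : 0 ≤ s := by positivity
  have hs25 : s ≤ 25 * (M * r ^ 2) := by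
    have e1 : ((a : ℝ) * d) ^ 2 ≤ (5 * r) ^ 2 := pow_le_pow_left₀ (by positivity) ha3 2
    have e2 : s = M * ((a : ℝ) * d) ^ 2 := by rw [hs]; ring
    rw [e2]
    nlinarith [mul_le_mul_of_nonneg_left e1 hM]
  have hws : ∀ u, w u = s * (w u / s) := by
    intro u
    rcases hs0.eq_or_lt with h0 | h0
    · have e1 : M * d ^ 2 = 0 := by
        have : M * d ^ 2 * (a : ℝ) ^ 2 = 0 := by rw [← hs]; exact h0.symm
        rcases mul_eq_zero.1 this with h | h
        · exact h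
        · exact absurd h (by positivity)
      have e2 : w u = 0 := by
        have := hw u
        rw [e1] at this
        exact abs_eq_zero.1 (le_antisymm this (abs_nonneg _))
      rw [e2]; simp
    · field_simp
  have hw' : ∀ u, |w u / s| ≤ 1 / (a : ℝ) ^ 2 := by
    intro u
    rcases hs0.eq_or_lt with h0 | h0
    · rw [← h0]; simp
    · rw [abs_div, abs_of_pos h0, div_le_div_iff₀ h0 (by positivity)]
      have := hw u
      rw [hs]
      nlinarith [mul_le_mul_of_nonneg_right this (by positivity : (0:ℝ) ≤ (a : ℝ) ^ 2)]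
  have hfun : (fun h : TV → ℤ => (∑ u ∈ latInt F, w u * (h u : ℝ)) ^ (2 * m)) =
      fun h => s ^ (2 * m) * (∑ u ∈ latBall u0 a, (w u / s) * (h u : ℝ)) ^ (2 * m) := by
    funext h
    rw [← mul_pow, Finset.mul_sum]
    congr 1
    rw [← Finset.sum_subset hsub]
    · refine Finset.sum_congr rfl fun u _ => ?_
      rw [← mul_assoc, ← hws u]
    · intro u _ hu
      have : w u = 0 := by
        apply hw0
        intro hmem
        apply hu
        rw [lat_mem_ball]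
        have h1 := hg_face_meets_disc hd hr.le hz (hg_center_mem d u) hmem
        have h2 : d * (latN (u - u0) : ℝ) ≤ d * a := by linarith
        have h3 : (latN (u - u0) : ℝ) ≤ a := le_of_mul_le_mul_left h2 hd
        exact_mod_cast h3
      rw [this, zero_mul]
  rw [hfun]
  unfold htFz
  rw [ht_E_smul]
  have h1 := hSM F u0 a N N' (fun u => w u / s) hco ha1 haN (hin N hN) (hout N' hN'1) hw'
  unfold htFz at h1
  have h2 : s ^ (2 * m) ≤ 25 ^ (2 * m) * (M * r ^ 2) ^ (2 * m) := by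
    rw [← mul_pow]; exact pow_le_pow_left₀ hs0 hs25 _
  have h3 : (1 + Real.log (N' / a)) ^ m ≤ (1 + |Real.log R|) ^ m * (1 + Real.log (1 / r)) ^ m := by
    rw [← mul_pow]; exact pow_le_pow_left₀ hl0 hl1 _
  have h4 : 0 ≤ (1 + Real.log (N' / a)) ^ m := pow_nonneg hl0 _
  calc s ^ (2 * m) * htE x (latInt F) 0
        (fun h => (∑ u ∈ latBall u0 a, w u / s * (h u : ℝ)) ^ (2 * m))
      ≤ s ^ (2 * m) * (C1 * (1 + Real.log (N' / a)) ^ m) :=
        mul_le_mul_of_nonneg_left h1 (by positivity)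
    _ ≤ (25 ^ (2 * m) * (M * r ^ 2) ^ (2 * m)) *
        (C1 * ((1 + |Real.log R|) ^ m * (1 + Real.log (1 / r)) ^ m)) := by
        apply mul_le_mul h2 (mul_le_mul_of_nonneg_left h3 hC1.le) (by positivity) (by positivity)
    _ = _ := by ring

theorem lim_sm_w {x : ℝ} (hx : 0 < x) (hSM : LimSM x) {D : Set (ℝ × ℝ)} (hD : IsOpen D) (hB : Bornology.IsBounded D)
    {δ : ℕ → ℝ} {F : ℕ → Finset TV} (hF : IsInsideApprox D δ F) {K : Set (ℝ × ℝ)} (hK : IsCompact K) (hKD : K ⊆ D) (m : ℕ) :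
    ∃ C r0 : ℝ, 0 < C ∧ 0 < r0 ∧ r0 ≤ 1 ∧ ∀ z ∈ K, ∀ r : ℝ, 0 < r → r ≤ r0 → ∀ᶠ n in atTop, ∀ (M : ℝ) (w : TV → ℝ),
      (∀ u, |w u| ≤ M * δ n ^ 2) → (∀ u, triPos (δ n) u ∉ wkBall z r → w u = 0) →
      htFz x (F n) (fun h => (∑ u ∈ latInt (F n), w u * (h u : ℝ)) ^ (2 * m)) ≤ C * (M * r ^ 2) ^ (2 * m) * (1 + Real.log (1 / r)) ^ m := by
  obtain ⟨C1, c0, hC1, hc0, hSM'⟩ := hSM m
  obtain ⟨c, hc, hin⟩ := hg_latBall_subset hD hF hK hKD
  obtain ⟨R, hR, hout⟩ := hg_latBall_not_subset hB hF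
  refine ⟨C1 * 25 ^ (2 * m) * (1 + |Real.log R|) ^ m, min 1 (min (c0 * c / 10) (c / 6)), by positivity,
    by positivity, min_le_left _ _, fun z hz r hr hr0 => ?_⟩
  have hr1 : r ≤ 1 := hr0.trans (min_le_left _ _)
  have hr2 : r ≤ c0 * c / 10 := hr0.trans ((min_le_right _ _).trans (min_le_left _ _))
  have hr3 : r ≤ c / 6 := hr0.trans ((min_le_right _ _).trans (min_le_right _ _))
  have e1 : ∀ᶠ n in atTop, δ n < min r (min (c / 2) R) :=
    hF.2.1.eventually (gt_mem_nhds (by positivity))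
  filter_upwards [hin, e1] with n hn1 hn2 M w hw hw0
  obtain ⟨u0, hu0⟩ := hg_cover (hF.1 n) z
  exact lim_sm_w_core hC1 hc0 hSM' (fun u v hu hv => hg_compl_reach hF n hu hv) (hF.1 n) hc hR hr hr1
    (hn2.le.trans (min_le_left _ _)) (hn2.le.trans ((min_le_right _ _).trans (min_le_left _ _)))
    (hn2.le.trans ((min_le_right _ _).trans (min_le_right _ _))) (by linarith) (by linarith) hu0
    (hn1 u0 ⟨z, hu0, hz⟩) (hout n u0) hw hw0

theorem lim_sm_small {x : ℝ} (hx : 0 < x) (hSM : LimSM x) {D : Set (ℝ × ℝ)} (hD : IsOpen D) (hB : Bornology.IsBounded D)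
    {δ : ℕ → ℝ} {F : ℕ → Finset TV} (hF : IsInsideApprox D δ F) {K : Set (ℝ × ℝ)} (hK : IsCompact K) (hKD : K ⊆ D) (m : ℕ) :
    ∃ C r0 : ℝ, 0 < C ∧ 0 < r0 ∧ r0 ≤ 1 ∧ ∀ z ∈ K, ∀ r : ℝ, 0 < r → r ≤ r0 → ∀ᶠ n in atTop, ∀ (M : ℝ) (g : ℝ × ℝ → ℝ),
      (∀ y, |g y| ≤ M) → (∀ y, y ∉ wkBall z r → g y = 0) →
      htFz x (F n) (fun h => htSm (δ n) (F n) g h ^ (2 * m)) ≤ C * (M * r ^ 2) ^ (2 * m) * (1 + Real.log (1 / r)) ^ m := by
  obtain ⟨C, r0, hC, hr0, hr01, H⟩ := lim_sm_w hx hSM hD hB hF hK hKD m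
  refine ⟨C * 4 ^ (2 * m), r0 / 2, by positivity, by positivity, by linarith, fun z hz r hr hrr => ?_⟩
  have e1 : ∀ᶠ n in atTop, δ n < r := hF.2.1.eventually (gt_mem_nhds hr)
  filter_upwards [H z hz (2 * r) (by positivity) (by linarith), e1] with n hn1 hn2 M g hg hg0
  have hδ := hF.1 n
  have hM : 0 ≤ M := (abs_nonneg _).trans (hg 0)
  have h1 := hn1 M (latW (δ n) g) (fun u => by
      refine (hg_abs_latW_le hδ u hg).trans ?_
      have : Real.sqrt 3 / 2 ≤ 1 := by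
        have : Real.sqrt 3 ≤ 2 := by
          rw [show (2 : ℝ) = Real.sqrt 4 by
            rw [show (4 : ℝ) = 2 ^ 2 by norm_num]; exact (Real.sqrt_sq (by norm_num)).symm]
          exact Real.sqrt_le_sqrt (by norm_num)
        linarith
      have h2 : Real.sqrt 3 / 2 * δ n ^ 2 ≤ 1 * δ n ^ 2 :=
        mul_le_mul_of_nonneg_right this (by positivity)
      nlinarith [mul_le_mul_of_nonneg_left h2 hM]) (fun u hu => by
      apply hg_latW_eq_zero
      intro y hy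
      apply hg0
      intro hy'
      apply hu
      have a1 : hgE (triPos (δ n) u) z ≤ 2 * r := by
        have t := hg_E_triangle (triPos (δ n) u) y z
        have t1 := hg_E_face_le hδ hy
        rw [hg_E_comm] at t1
        have t2 : hgE y z ≤ r := (hg_E_le_iff hr.le).2 hy'
        linarith
      exact (hg_E_le_iff (by positivity)).1 a1)
  have h2 : (fun h : TV → ℤ => htSm (δ n) (F n) g h ^ (2 * m)) =
      fun h => (∑ u ∈ latInt (F n), latW (δ n) g u * (h u : ℝ)) ^ (2 * m) := rfl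
  rw [h2]
  refine h1.trans ?_
  have l0 : 0 ≤ Real.log (1 / (2 * r)) :=
    Real.log_nonneg (by rw [le_div_iff₀ (by positivity)]; linarith)
  have l1 : Real.log (1 / (2 * r)) ≤ Real.log (1 / r) :=
    Real.log_le_log (by positivity) (by
      rw [div_le_div_iff₀ (by positivity) hr]; linarith)
  have l2 : (1 + Real.log (1 / (2 * r))) ^ m ≤ (1 + Real.log (1 / r)) ^ m :=
    pow_le_pow_left₀ (by linarith) (by linarith) _
  have l3 : (M * (2 * r) ^ 2) ^ (2 * m) = 4 ^ (2 * m) * (M * r ^ 2) ^ (2 * m) := by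
    rw [← mul_pow]; congr 1; ring
  rw [l3]
  calc C * (4 ^ (2 * m) * (M * r ^ 2) ^ (2 * m)) * (1 + Real.log (1 / (2 * r))) ^ m
      ≤ C * (4 ^ (2 * m) * (M * r ^ 2) ^ (2 * m)) * (1 + Real.log (1 / r)) ^ m :=
        mul_le_mul_of_nonneg_left l2 (by positivity)
    _ = _ := by ring

/-- power mean inequality in the crude form used below. -/
theorem lim_sm_power_mean {ι : Type*} (t : Finset ι) (ht : t.Nonempty) (Y : ι → ℝ) (m : ℕ) :
    (∑ i ∈ t, Y i) ^ (2 * m) ≤ (t.card : ℝ) ^ (2 * m) * ∑ i ∈ t, Y i ^ (2 * m) := by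
  have hk : (0 : ℝ) < t.card := by exact_mod_cast ht.card_pos
  have h1 := Real.pow_arith_mean_le_arith_mean_pow_of_even (s := t) (fun _ => 1 / (t.card : ℝ)) Y
    (fun _ _ => by positivity) (by rw [Finset.sum_const, nsmul_eq_mul]; field_simp)
    (n := 2 * m) (even_two_mul m)
  rw [← Finset.mul_sum, ← Finset.mul_sum] at h1
  have h2 : ∑ i ∈ t, Y i = (t.card : ℝ) * (1 / (t.card : ℝ) * ∑ i ∈ t, Y i) := by field_simp
  have h3 : 0 ≤ ∑ i ∈ t, Y i ^ (2 * m) :=
    Finset.sum_nonneg fun i _ => (even_two_mul m).pow_nonneg _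
  have h4 : 1 / (t.card : ℝ) ≤ 1 := by
    rw [div_le_one hk]; exact_mod_cast ht.card_pos
  have h5 : (1 / (t.card : ℝ) * ∑ i ∈ t, Y i) ^ (2 * m) ≤ ∑ i ∈ t, Y i ^ (2 * m) := by
    refine h1.trans ?_
    nlinarith [mul_le_mul_of_nonneg_right h4 h3]
  calc (∑ i ∈ t, Y i) ^ (2 * m) = ((t.card : ℝ) * (1 / (t.card : ℝ) * ∑ i ∈ t, Y i)) ^ (2 * m) :=
        congrArg (fun s => s ^ (2 * m)) h2
    _ = (t.card : ℝ) ^ (2 * m) * (1 / (t.card : ℝ) * ∑ i ∈ t, Y i) ^ (2 * m) := mul_pow _ _ _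
    _ ≤ (t.card : ℝ) ^ (2 * m) * ∑ i ∈ t, Y i ^ (2 * m) :=
        mul_le_mul_of_nonneg_left h5 (pow_nonneg hk.le _)

theorem lim_sm_fixed {x : ℝ} (hx : 0 < x) (hSM : LimSM x) {D : Set (ℝ × ℝ)} (hD : IsOpen D) (hB : Bornology.IsBounded D)
    {δ : ℕ → ℝ} {F : ℕ → Finset TV} (hF : IsInsideApprox D δ F) {K : Set (ℝ × ℝ)} (hK : IsCompact K) (hKD : K ⊆ D) (m : ℕ) :
    ∃ C : ℝ, 0 < C ∧ ∀ᶠ n in atTop, ∀ (M : ℝ) (g : ℝ × ℝ → ℝ), (∀ y, |g y| ≤ M) → (∀ y, y ∉ K → g y = 0) →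
      htFz x (F n) (fun h => htSm (δ n) (F n) g h ^ (2 * m)) ≤ C * M ^ (2 * m) := by
  classical
  obtain ⟨C, r, hC, hr, hr1, H⟩ := lim_sm_w hx hSM hD hB hF hK hKD m
  obtain ⟨t, htK, hcov⟩ := hK.elim_nhds_subcover (fun z => {y | sqDist y z < (r / 2) ^ 2})
    (fun z _ => (isOpen_lt (hg_continuous_sqDist_left z) continuous_const).mem_nhds
      (by show sqDist z z < (r / 2) ^ 2; rw [hg_sqDist_self]; positivity))
  have hl0 : 0 ≤ Real.log (1 / r) := Real.log_nonneg (by rw [le_div_iff₀ hr]; linarith)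
  refine ⟨(t.card : ℝ) ^ (2 * m) * ((t.card : ℝ) * (C * (r ^ 2) ^ (2 * m) * (1 + Real.log (1 / r)) ^ m)) + 1,
    by positivity, ?_⟩
  have e1 : ∀ᶠ n in atTop, δ n < r / 2 := hF.2.1.eventually (gt_mem_nhds (by positivity))
  have e2 : ∀ᶠ n in atTop, ∀ z ∈ t, ∀ (M : ℝ) (w : TV → ℝ),
      (∀ u, |w u| ≤ M * δ n ^ 2) → (∀ u, triPos (δ n) u ∉ wkBall z r → w u = 0) →
      htFz x (F n) (fun h => (∑ u ∈ latInt (F n), w u * (h u : ℝ)) ^ (2 * m))
        ≤ C * (M * r ^ 2) ^ (2 * m) * (1 + Real.log (1 / r)) ^ m :=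
    (Filter.eventually_all_finset t).2 fun z hz => H z (htK z hz) r hr le_rfl
  filter_upwards [e1, e2] with n hn1 hn2 M g hg hg0
  have hδ := hF.1 n
  have hM : 0 ≤ M := (abs_nonneg _).trans (hg 0)
  have hMp : 0 ≤ M ^ (2 * m) := by positivity
  set A : ℝ := (t.card : ℝ) ^ (2 * m) * ((t.card : ℝ) * (C * (r ^ 2) ^ (2 * m) * (1 + Real.log (1 / r)) ^ m))
    with hA
  have hA0 : 0 ≤ A := by positivity
  rcases t.eq_empty_or_nonempty with ht | ht
  · -- `K` is empty, `g = 0`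
    have hg' : ∀ y, g y = 0 := fun y => hg0 y (fun hy => by
      have := hcov hy
      rw [ht] at this
      simp at this)
    have hz : (fun h : TV → ℤ => htSm (δ n) (F n) g h ^ (2 * m)) = fun _ => (0 : ℝ) ^ (2 * m) := by
      funext h
      have : htSm (δ n) (F n) g h = 0 := by
        unfold htSm latPair
        apply Finset.sum_eq_zero
        intro u _
        rw [hg_latW_eq_zero (fun y _ => hg' y), zero_mul]
      rw [this]
    rw [hz]
    rcases Nat.eq_zero_or_pos m with rfl | hm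
    · simp only [mul_zero, pow_zero, mul_one]
      exact (ht_E_one_le hx _ _).trans (by linarith)
    · rw [zero_pow (by omega)]
      unfold htFz
      rw [ht_E_zero]
      positivity
  -- the selection of one disc for every face
  let P : TV → ℝ × ℝ → Prop := fun u z => z ∈ t ∧ triPos (δ n) u ∈ wkBall z r
  let sel : TV → ℝ × ℝ := fun u => if h : ∃ z, P u z then h.choose else 0
  let w : ℝ × ℝ → TV → ℝ := fun z u => if (∃ z', P u z') ∧ sel u = z then latW (δ n) g u else 0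
  have hsel : ∀ u, (∃ z, P u z) → P u (sel u) := by
    intro u hu
    simp only [sel, dif_pos hu]
    exact hu.choose_spec
  have hWb : ∀ u, |latW (δ n) g u| ≤ M * δ n ^ 2 := by
    intro u
    refine (hg_abs_latW_le hδ u hg).trans ?_
    have h3 : Real.sqrt 3 / 2 ≤ 1 := by
      have : Real.sqrt 3 ≤ 2 := by
        rw [show (2 : ℝ) = Real.sqrt 4 by
          rw [show (4 : ℝ) = 2 ^ 2 by norm_num]; exact (Real.sqrt_sq (by norm_num)).symm]
        exact Real.sqrt_le_sqrt (by norm_num)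
      linarith
    have h2 : Real.sqrt 3 / 2 * δ n ^ 2 ≤ 1 * δ n ^ 2 :=
      mul_le_mul_of_nonneg_right h3 (by positivity)
    nlinarith [mul_le_mul_of_nonneg_left h2 hM]
  have hw1 : ∀ z u, |w z u| ≤ M * δ n ^ 2 := by
    intro z u
    simp only [w]
    split_ifs
    · exact hWb u
    · rw [abs_zero]; positivity
  have hw2 : ∀ z u, triPos (δ n) u ∉ wkBall z r → w z u = 0 := by
    intro z u hu
    simp only [w]
    rw [if_neg]
    rintro ⟨h1, h2⟩
    exact hu (h2 ▸ (hsel u h1).2)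
  have hw3 : ∀ u, ∑ z ∈ t, w z u = latW (δ n) g u := by
    intro u
    by_cases hu : ∃ z, P u z
    · have : ∀ z, w z u = if sel u = z then latW (δ n) g u else 0 := by
        intro z; simp only [w, hu, true_and]
      simp_rw [this]
      rw [Finset.sum_ite_eq, if_pos (hsel u hu).1]
    · have h1 : ∀ z, w z u = 0 := by
        intro z; simp only [w, hu, false_and, if_false]
      simp_rw [h1]
      rw [Finset.sum_const_zero]
      symm
      apply hg_latW_eq_zero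
      intro y hy
      apply hg0
      intro hyK
      apply hu
      have := hcov hyK
      simp only [mem_iUnion] at this
      obtain ⟨z, hz, hyz⟩ := this
      refine ⟨z, hz, ?_⟩
      have hyz' : sqDist y z < (r / 2) ^ 2 := hyz
      have a1 : hgE (triPos (δ n) u) z ≤ r := by
        have tt := hg_E_triangle (triPos (δ n) u) y z
        have t1 := hg_E_face_le hδ hy
        rw [hg_E_comm] at t1
        have t2 : hgE y z ≤ r / 2 := (hg_E_le_iff (by positivity)).2 hyz'.le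
        linarith
      exact (hg_E_le_iff hr.le).1 a1
  have hsplit : ∀ h : TV → ℤ, htSm (δ n) (F n) g h =
      ∑ z ∈ t, ∑ u ∈ latInt (F n), w z u * (h u : ℝ) := by
    intro h
    unfold htSm latPair
    rw [Finset.sum_comm]
    refine Finset.sum_congr rfl fun u _ => ?_
    rw [← Finset.sum_mul, hw3]
  have step1 : htFz x (F n) (fun h => htSm (δ n) (F n) g h ^ (2 * m)) ≤
      htFz x (F n) (fun h => (t.card : ℝ) ^ (2 * m) *
        ∑ z ∈ t, (∑ u ∈ latInt (F n), w z u * (h u : ℝ)) ^ (2 * m)) := by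
    apply ht_E_mono hx
    intro h _
    rw [hsplit h]
    exact lim_sm_power_mean t ht _ m
  refine step1.trans ?_
  unfold htFz
  rw [ht_E_smul, ht_E_sum]
  have step2 : ∑ z ∈ t, htE x (latInt (F n)) 0
      (fun h => (∑ u ∈ latInt (F n), w z u * (h u : ℝ)) ^ (2 * m)) ≤
      ∑ _z ∈ t, C * (M * r ^ 2) ^ (2 * m) * (1 + Real.log (1 / r)) ^ m :=
    Finset.sum_le_sum fun z hz => hn2 z hz M (w z) (hw1 z) (hw2 z)
  rw [Finset.sum_const, nsmul_eq_mul] at step2
  calc (t.card : ℝ) ^ (2 * m) * ∑ z ∈ t, htE x (latInt (F n)) 0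
        (fun h => (∑ u ∈ latInt (F n), w z u * (h u : ℝ)) ^ (2 * m))
      ≤ (t.card : ℝ) ^ (2 * m) * ((t.card : ℝ) * (C * (M * r ^ 2) ^ (2 * m) * (1 + Real.log (1 / r)) ^ m)) :=
        mul_le_mul_of_nonneg_left step2 (by positivity)
    _ = A * M ^ (2 * m) := by rw [hA, mul_pow M]; ring
    _ ≤ (A + 1) * M ^ (2 * m) := by nlinarith

end Claimed.Agent.R291
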