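import Claimed.Agent.R291.Defs.Lim
import Claimed.Agent.R291.Defs.Cell
import Claimed.Agent.R291.Pl.Ball

/-!
# Row 291 (S0539), Lim/Gray : DECODING HEIGHT OBSERVABLES FROM THE GRAY SPINS      (statements helper165, head of the assembly of `exit_lim_pl0`; PROVED by helper265, 0 sorry; prefix `mix_`)

TEX[lem:spin-lift] (deterministic part) + 07-limit l.575-600 ("the entire discrete spectator product is measurable, as an absolute-height observation").   No law, no DIS exit.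
The Gray code `(htB V h, htW V h)` determines `h mod 4` on `V`; two 1-Lipschitz heights with the same code have the same increments along edges.
* `mix_ray`      from every site there is a lattice direction which increases the hexagonal distance to `z`
* `mix_loc`      (T1) a local GRADIENT observable of `latBall z r` is a function `Fp` of the spins in `latBall z r`
                 [`Fp ω := if ∃ h, 1-Lipschitz in the ball with the code of ω on the ball then Ψ (choose h) else 0`; ball connected: `plh_ball_conn`]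
* `mix_ext`      (T2) an observable of ALL THE ABSOLUTE HEIGHTS off `latBall z L` is a function `Fe` of the spins in `V \ latBall z L`, on the admissible heights of the zero boundary problem
                 [two admissible heights with the same code off the ball agree off the ball: backward induction along the ray of `mix_ray` from its first exit of `A`, where both vanish]
* `mix_loc_bdd`  an observable of finitely many spins is bounded
-/

set_option autoImplicit false

namespace Claimed.Agent.R291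

open Claims Claims.C0467

theorem mix_ray (z u : TV) : ∃ d ∈ latDirs, latN (u + d - z) = latN (u - z) + 1 := by
  obtain ⟨a, ha⟩ : ∃ a, a = u.1 - z.1 := ⟨_, rfl⟩
  obtain ⟨b, hb⟩ : ∃ b, b = u.2 - z.2 := ⟨_, rfl⟩
  have e0 : latN (u - z) = max (max a.natAbs b.natAbs) (a + b).natAbs := by
    simp only [latN, Prod.fst_sub, Prod.snd_sub, ha, hb]
  have e1 : ∀ p q : ℤ, latN (u + (p, q) - z) = max (max (a + p).natAbs (b + q).natAbs) (a + p + (b + q)).natAbs := by
    intro p q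
    simp only [latN, Prod.fst_sub, Prod.snd_sub, Prod.fst_add, Prod.snd_add, ha, hb]
    congr 2 <;> congr 1 <;> ring
  rcases le_total 0 a with h1 | h1 <;> rcases le_total 0 b with h2 | h2 <;> rcases le_total 0 (a + b) with h3 | h3
  · exact ⟨(1, 0), by decide, by rw [e0, e1]; omega⟩
  · exact ⟨(1, 0), by decide, by rw [e0, e1]; omega⟩
  · exact ⟨(1, 0), by decide, by rw [e0, e1]; omega⟩
  · exact ⟨(0, -1), by decide, by rw [e0, e1]; omega⟩
  · exact ⟨(0, 1), by decide, by rw [e0, e1]; omega⟩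
  · exact ⟨(-1, 0), by decide, by rw [e0, e1]; omega⟩
  · exact ⟨(-1, 0), by decide, by rw [e0, e1]; omega⟩
  · exact ⟨(-1, 0), by decide, by rw [e0, e1]; omega⟩

/-- the Gray code at a site determines the residue mod 4 -/
theorem mix_res {V T : Finset TV} (hT : T ⊆ V) {h h' : TV → ℤ} (hB : htB V h ∩ T = htB V h' ∩ T) (hW : htW V h ∩ T = htW V h' ∩ T)
    {u : TV} (hu : u ∈ T) : h u % 4 = h' u % 4 := by
  have b := Finset.ext_iff.1 hB u
  have w := Finset.ext_iff.1 hW u
  simp only [htB, htW, Finset.mem_inter, Finset.mem_filter, hu, hT hu, true_and, and_true] at b w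
  omega

theorem mix_code_inter {V T : Finset TV} (hT : T ⊆ V) (h : TV → ℤ) : htB V h ∩ T = htB T h ∧ htW V h ∩ T = htW T h := by
  constructor
  · ext u
    simp only [htB, Finset.mem_inter, Finset.mem_filter]
    constructor
    · rintro ⟨⟨_, h2⟩, h3⟩; exact ⟨h3, h2⟩
    · rintro ⟨h1, h2⟩; exact ⟨⟨hT h1, h2⟩, h1⟩
  · ext u
    simp only [htW, Finset.mem_inter, Finset.mem_filter]
    constructor
    · rintro ⟨⟨_, h2⟩, h3⟩; exact ⟨h3, h2⟩
    · rintro ⟨h1, h2⟩; exact ⟨⟨hT h1, h2⟩, h1⟩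

open Classical in
/-- decoding: the value of `Ψ` at ANY height of the class `P` with the code `(B, W)` on `T` -/
noncomputable def mixDec (P : (TV → ℤ) → Prop) (T : Finset TV) (Ψ : (TV → ℤ) → ℝ) (B W : Finset TV) : ℝ :=
  if hex : ∃ h, P h ∧ htB T h = B ∧ htW T h = W then Ψ (Classical.choose hex) else 0

theorem mix_dec_bdd (P : (TV → ℤ) → Prop) (T : Finset TV) (Ψ : (TV → ℤ) → ℝ) {b : ℝ} (hb : ∀ h, |Ψ h| ≤ b) (B W : Finset TV) :
    |mixDec P T Ψ B W| ≤ b := by
  unfold mixDec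
  split_ifs with hex
  · exact hb _
  · rw [abs_zero]; exact (abs_nonneg _).trans (hb 0)

theorem mix_dec_eq {P : (TV → ℤ) → Prop} {T : Finset TV} {Ψ : (TV → ℤ) → ℝ}
    (hwd : ∀ h h', P h → P h' → htB T h' = htB T h → htW T h' = htW T h → Ψ h' = Ψ h) {h : TV → ℤ} (hP : P h) :
    mixDec P T Ψ (htB T h) (htW T h) = Ψ h := by
  have hex : ∃ h', P h' ∧ htB T h' = htB T h ∧ htW T h' = htW T h := ⟨h, hP, rfl, rfl⟩
  unfold mixDec
  rw [dif_pos hex]
  obtain ⟨h1, h2, h3⟩ := Classical.choose_spec hex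
  exact hwd h _ hP h1 h2 h3

theorem mix_dec_loc (P : (TV → ℤ) → Prop) (T : Finset TV) (Ψ : (TV → ℤ) → ℝ) :
    ClLoc T (∅ : Finset TV) (fun ω : ClCfg TV TV => mixDec P T Ψ (ω.B ∩ T) (ω.W ∩ T)) := by
  intro ω ω' hB hW _
  show mixDec P T Ψ (ω.B ∩ T) (ω.W ∩ T) = mixDec P T Ψ (ω'.B ∩ T) (ω'.W ∩ T)
  rw [hB, hW]

/-- (T1) -/
theorem mix_loc (z : TV) (r : ℕ) (Ψ : (TV → ℤ) → ℝ) (hloc : HtLoc (latBall z r) Ψ) (hgr : HtGrad Ψ) :
    ∃ Fp : ClCfg TV TV → ℝ, ClLoc (latBall z r) ∅ Fp ∧ (∀ b : ℝ, (∀ h, |Ψ h| ≤ b) → ∀ ω, |Fp ω| ≤ b) ∧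
      ∀ (V : Finset TV) (h : TV → ℤ), latBall z r ⊆ V →
        (∀ u ∈ latBall z r, ∀ v ∈ latBall z r, triAdj u v → |h u - h v| ≤ 1) → Fp ⟨htB V h, htW V h, ∅⟩ = Ψ h := by
  set T := latBall z r with hT
  set P : (TV → ℤ) → Prop := fun h => ∀ u ∈ T, ∀ v ∈ T, triAdj u v → |h u - h v| ≤ 1 with hP
  refine ⟨fun ω => mixDec P T Ψ (ω.B ∩ T) (ω.W ∩ T), mix_dec_loc P T Ψ, fun b hb ω => mix_dec_bdd P T Ψ hb _ _,
    fun V h hV hh => ?_⟩
  show mixDec P T Ψ (htB V h ∩ T) (htW V h ∩ T) = Ψ h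
  rw [(mix_code_inter hV h).1, (mix_code_inter hV h).2]
  refine mix_dec_eq (fun h h' p p' eB eW => ?_) hh
  have hz : z ∈ T := lat_mem_ball.2 (by simp [latN])
  have res : ∀ u ∈ T, h' u % 4 = h u % 4 := fun u hu =>
    mix_res (V := T) (T := T) (Finset.Subset.refl _) (by rw [eB]) (by rw [eW]) hu
  have key : ∀ u, TscR tscG (↑T : Set TV) z u → h' u - h u = h' z - h z := by
    intro u hu
    induction hu with
    | refl => rfl
    | @tail a b _ hs ih =>
      obtain ⟨hadj, ha, hb⟩ := hs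
      have ha' : a ∈ T := ha
      have hb' : b ∈ T := hb
      have q1 := abs_le.1 (p a ha' b hb' hadj)
      have q2 := abs_le.1 (p' a ha' b hb' hadj)
      have r1 := res a ha'
      have r2 := res b hb'
      omega
  have hconn := plh_ball_conn z r
  have e : Ψ h' = Ψ (fun u => h u + (h' z - h z)) := by
    refine hloc _ _ fun u hu => ?_
    have := key u (hconn z hz u hu)
    show h' u = h u + (h' z - h z)
    omega
  rw [e, hgr]

/-- (T2) -/
theorem mix_ext (A V : Finset TV) (z : TV) (L : ℕ) (hAV : A ⊆ V) (G : (TV → ℤ) → ℝ) (hext : LimExt (latBall z L) G) :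
    ∃ Fe : ClCfg TV TV → ℝ, ClLoc (V \ latBall z L) ∅ Fe ∧ (∀ b : ℝ, (∀ h, |G h| ≤ b) → ∀ ω, |Fe ω| ≤ b) ∧
      ∀ h, HtAdm A 0 h → Fe ⟨htB V h, htW V h, ∅⟩ = G h := by
  set T := V \ latBall z L with hT
  have hTV : T ⊆ V := Finset.sdiff_subset
  refine ⟨fun ω => mixDec (HtAdm A 0) T G (ω.B ∩ T) (ω.W ∩ T), mix_dec_loc _ T G, fun b hb ω => mix_dec_bdd _ T G hb _ _,
    fun h hh => ?_⟩
  show mixDec (HtAdm A 0) T G (htB V h ∩ T) (htW V h ∩ T) = G h
  rw [(mix_code_inter hTV h).1, (mix_code_inter hTV h).2]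
  refine mix_dec_eq (fun h h' p p' eB eW => ?_) hh
  have res : ∀ u ∈ T, h' u % 4 = h u % 4 := fun u hu =>
    mix_res (V := T) (T := T) (Finset.Subset.refl _) (by rw [eB]) (by rw [eW]) hu
  set R : ℕ := A.sup (fun u => latN (u - z)) with hR
  have hAR : ∀ u ∈ A, latN (u - z) ≤ R := fun u hu => Finset.le_sup (f := fun u => latN (u - z)) hu
  have key : ∀ (n : ℕ) (u : TV), R + 1 ≤ latN (u - z) + n → u ∉ latBall z L → h' u = h u := by
    intro n
    induction n with
    | zero =>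
      intro u hu _
      have huA : u ∉ A := fun hA => by have := hAR u hA; omega
      rw [p.1 u huA, p'.1 u huA]
    | succ n ih =>
      intro u hu hb
      by_cases huA : u ∈ A
      · obtain ⟨d, hd, hN⟩ := mix_ray z u
        have hb' : u + d ∉ latBall z L := by
          rw [lat_mem_ball] at hb ⊢
          omega
        have e := ih (u + d) (by omega) hb'
        have q1 := abs_le.1 (p.2 u huA d hd)
        have q2 := abs_le.1 (p'.2 u huA d hd)
        have r1 := res u (Finset.mem_sdiff.2 ⟨hAV huA, hb⟩)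
        omega
      · rw [p.1 u huA, p'.1 u huA]
  exact hext _ _ fun u hu => key (R + 1) u (by omega) hu

theorem mix_loc_bdd (T : Finset TV) (G : ClCfg TV TV → ℝ) (hG : ClLoc T ∅ G) : ∃ b : ℝ, 0 < b ∧ ∀ ω, |G ω| ≤ b := by
  refine ⟨1 + ∑ P ∈ T.powerset, ∑ Q ∈ T.powerset, |G ⟨P, Q, ∅⟩|, ?_, fun ω => ?_⟩
  · have : 0 ≤ ∑ P ∈ T.powerset, ∑ Q ∈ T.powerset, |G ⟨P, Q, ∅⟩| :=
      Finset.sum_nonneg fun P _ => Finset.sum_nonneg fun Q _ => abs_nonneg _
    linarith
  · have e : G ω = G ⟨ω.B ∩ T, ω.W ∩ T, ∅⟩ := hG _ _ (by simp) (by simp) (by simp)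
    rw [e]
    have h1 : |G ⟨ω.B ∩ T, ω.W ∩ T, ∅⟩| ≤ ∑ Q ∈ T.powerset, |G ⟨ω.B ∩ T, Q, ∅⟩| :=
      Finset.single_le_sum (f := fun Q => |G ⟨ω.B ∩ T, Q, ∅⟩|) (fun Q _ => abs_nonneg _)
        (Finset.mem_powerset.2 Finset.inter_subset_right)
    have h2 : ∑ Q ∈ T.powerset, |G ⟨ω.B ∩ T, Q, ∅⟩| ≤ ∑ P ∈ T.powerset, ∑ Q ∈ T.powerset, |G ⟨P, Q, ∅⟩| :=
      Finset.single_le_sum (f := fun P => ∑ Q ∈ T.powerset, |G ⟨P, Q, ∅⟩|)
        (fun P _ => Finset.sum_nonneg fun Q _ => abs_nonneg _) (Finset.mem_powerset.2 Finset.inter_subset_right)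
    linarith

theorem mix_eqns_cite : True := by
  have := @mixDec.eq_1
  trivial

end Claimed.Agent.R291
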