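import Claimed.Agent.R291.Defs.Lim
import Claimed.Agent.R291.Pl.Ball
import Claimed.Agent.R291.Dis.StackHt
import Claimed.Agent.R291.Lim.Gray

/-!
# Row 291 (S0539), Lim/Pl : ASSEMBLY OF THE PLANE PACKAGE `LimPl0 x`      (owner helper165; prefix `lpl_`)

The part `LimPl0 x` = (`lim`, `mix`) of the plane package, in HEIGHT form, from the contracts of unit DIS (the fields `mom`, `cov` and the glue `exit_lim_pl`: helper265, Exit/LimPl.lean).
* `lpl_fin`      finite volume: LIFT (`dis_lift`) + label of the skeleton (`dis_lbl_one`, cost 2) + PM (`dis_pm`) + STACK (`dis_stack`); bookkeeping of helper50 (`Dis/StackHt`)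
* `lpl_core`     the same with the intermediate scale `M = √(r L) + 1`: error `C (r/L)^κ`
* `lpl_plane`    a decoded local gradient observable has the law `clPlane` in the limit of zero boundary hexagons
* **`lpl_lim`**, **`lpl_mix`**, **`lpl_pl0 : LimPl0 x`**      TEX[prop:local-mixing], TEX[cor:conditional-plane-matching] + 07-limit l.560-650, in HEIGHT form
-/

set_option autoImplicit false

namespace Claimed.Agent.R291

open MeasureTheory Filter Topology Set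
open Claims Claims.C0467

theorem lpl_ball_sub (u0 : TV) (r R : ℕ) (h : latN u0 + r ≤ R) : latBall u0 r ⊆ latBall 0 R := by
  intro u hu
  rw [lat_mem_ball] at hu ⊢
  have := plh_N_add u0 (u - u0)
  rw [add_sub_cancel] at this
  rw [sub_zero]
  omega

/-- the interior of a set with connected complement has connected complement (every site of the zero layer touches the complement) -/
theorem lpl_co {F : Finset TV} (hF : LimCoConn F) : MomCo (latInt F) := by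
  have hsub : ∀ u, u ∉ F → u ∈ ((latInt F : Finset TV) : Set TV)ᶜ := fun u hu h => hu (lat_int_sub F h)
  have h1 : ∀ u, u ∈ ((latInt F : Finset TV) : Set TV)ᶜ → ∃ u', u' ∉ F ∧ TscR tscG ((latInt F : Finset TV) : Set TV)ᶜ u u' := by
    intro u hu
    by_cases huF : u ∈ F
    · have : ¬ ∀ v, triAdj u v → v ∈ F := fun h => hu (lat_mem_int.2 ⟨huF, h⟩)
      rw [not_forall] at this
      obtain ⟨v, hv⟩ := this
      rw [Classical.not_imp] at hv
      exact ⟨v, hv.2, Relation.ReflTransGen.single ⟨hv.1, hu, hsub v hv.2⟩⟩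
    · exact ⟨u, huF, Relation.ReflTransGen.refl⟩
  have h2 : ∀ u v, u ∉ F → Relation.ReflTransGen (fun a b => triAdj a b ∧ b ∉ F) u v →
      v ∉ F ∧ TscR tscG ((latInt F : Finset TV) : Set TV)ᶜ u v := by
    intro u v hu h
    induction h with
    | refl => exact ⟨hu, Relation.ReflTransGen.refl⟩
    | tail _ hbc ih => exact ⟨hbc.2, ih.2.tail ⟨hbc.1, hsub _ ih.1, hsub _ hbc.2⟩⟩
  intro u hu v hv
  obtain ⟨u', hu', hr1⟩ := h1 u hu
  obtain ⟨v', hv', hr2⟩ := h1 v hv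
  exact (hr1.trans (h2 u' v' hu' (hF u' v' hu' hv')).2).trans (tsc_R_symm hr2)

/-- a ball well inside `F` lies in the interior -/
theorem lpl_ball_int {F : Finset TV} {u0 : TV} {r : ℕ} (hN : latBall u0 (r + 1) ⊆ F) : latBall u0 r ⊆ latInt F := by
  intro u hu
  refine lat_mem_int.2 ⟨hN (plh_ball_mono u0 (by omega) hu), fun v hv => hN ?_⟩
  rw [lat_mem_ball] at hu ⊢
  have := pnk_N_lip u0 hv
  omega

/-! ### the finite volume estimate: LIFT + label + PM + STACK -/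

theorem lpl_loc_mono {T : Finset TV} {G : ClCfg TV TV → ℝ} (h : ClLoc T ∅ G) (T' : Finset TV) : ClLoc T T' G :=
  fun ω ω' hB hW _ => h ω ω' hB hW (by simp)

theorem lpl_loc_pair {T : Finset TV} {G : ClCfg TV TV → ℝ} (h : ClLoc T ∅ G) : ClPair G :=
  fun ω ω' hb hw => h ω ω' (by rw [hb]) (by rw [hw]) (by simp)

/-- the history of the zero boundary problem WITH the label of the skeleton -/
noncomputable def lplK (V A : Finset TV) : ClCon TV TV := { dshK V A with Wp := (dshK V A).Wp ∪ (V \ A) }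

theorem lplK_eqns_cite : True := by
  have := @lplK.eq_1
  trivial

theorem lpl_K_free (x : ℝ) (V A D : Finset TV) (hD : D ⊆ A) : ClFreeL (clAmb x V) (lplK V A) D where
  bp := Finset.disjoint_left.2 fun v hv hvD => (Finset.mem_sdiff.1 hv).2 (hD hvD)
  bm := by simp [lplK, dshK]
  obs := by
    intro y _ hy
    simp [lplK, dshK] at hy
  eq := by
    intro e he
    obtain ⟨h1, h2, _⟩ := dsh_mem_Eq.1 he
    exact ⟨fun h => (Finset.mem_sdiff.1 h1).2 (hD h), fun h => (Finset.mem_sdiff.1 h2).2 (hD h)⟩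
  wp := by
    refine Finset.disjoint_left.2 fun v hv hvD => ?_
    rcases Finset.mem_union.1 hv with h | h
    · simp [dshK] at h
    · exact (Finset.mem_sdiff.1 h).2 (hD hvD)
  wm := by simp [lplK, dshK]

/-- FINITE VOLUME: in the zero boundary problem on a hole-free `A ⊇ latBall z (L+2)`, an observable of all the heights off `latBall z L` and a function of the spins in `latBall z r`
are independent up to (STACK at `M+2 : L`) + (PM at `r : M`), and the second one has the plane law -/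
theorem lpl_fin (x : ℝ) (hx0 : 0 < x) (hx1 : x ≤ 1) {bs bp : ℝ} (hbs : 0 ≤ bs) (A : Finset TV) (hA : MomCo A) (z : TV) (r M L : ℕ)
    (hB : latBall z (L + 2) ⊆ A)
    (Hs : ∀ K : ClCon TV TV, ClLegal (clAmb x (dshV A)) K → 0 < (clAmb x (dshV A)).Z (K.Holds (clAmb x (dshV A))) →
      ClClear (clAmb x (dshV A)) true K (latBall z (L + 2) \ latBall z (M + 2)) →
      (clAmb x (dshV A)).P (K.Holds (clAmb x (dshV A)))
        (fun ω => ¬ ClSep (clAmb x (dshV A)) true K.Eq ω (dshV A \ latBall z L) (latBall z (M + 2))) ≤ bs)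
    (Hp : ∀ K : ClCon TV TV, 0 < (clAmb x (dshV A)).Z (K.Holds (clAmb x (dshV A))) →
      ClFreeL (clAmb x (dshV A)) K (latBall z (L + 2)) → ∀ (G F : ClCfg TV TV → ℝ),
      ClLoc (dshV A \ latBall z L) ((clAmb x (dshV A)).cin (dshV A \ latBall z L)) G → (∀ ω, |G ω| ≤ 1) →
      ClLoc (latBall z r) (latCellsIn (latBall z r)) F → (∀ ω, |F ω| ≤ 1) →
      |(clAmb x (dshV A)).E (K.Holds (clAmb x (dshV A))) (fun ω => G ω * F ω)
          - (clAmb x (dshV A)).E (K.Holds (clAmb x (dshV A))) G * clPlane x F| ≤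
        2 * (clAmb x (dshV A)).P (K.Holds (clAmb x (dshV A)))
          (fun ω => ¬ ClSep (clAmb x (dshV A)) true K.Eq ω (dshV A \ latBall z L) (latBall z (M + 2))) + bp)
    (G : (TV → ℤ) → ℝ) (hG : LimExt (latBall z L) G) (hG1 : ∀ h, |G h| ≤ 1)
    (Fp : ClCfg TV TV → ℝ) (hFp : ClLoc (latBall z r) ∅ Fp) (hF1 : ∀ ω, |Fp ω| ≤ 1) :
    |htE x A 0 (fun h => G h * Fp ⟨htB (dshV A) h, htW (dshV A) h, ∅⟩) - htE x A 0 G * clPlane x Fp| ≤ 4 * bs + bp := by
  classical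
  set V := dshV A with hVdef
  have hV : DisAmb V := dis_amb_ball 0 _
  have hcl : latCl A ⊆ V := dsh_cl_sub A
  have hAV : A ⊆ V := dsh_F_sub A
  have hsk := dsh_sk_conn A hA
  have hne := dsh_sk_ne A
  have hD : ClDisk (clAmb x V) := dis_amb_disk x hx0 hx1 V hV
  have hOk : ClOk (clAmb x V) := hD.toClOk
  obtain ⟨Fe, hFe, hFeb, hFeq⟩ := mix_ext A V z L hAV G hG
  have hFe1 := hFeb 1 hG1
  -- LIFT
  have e2 : (fun ω : ClCfg TV TV => V \ A ⊆ ω.B ∧ V \ A ⊆ ω.W) = (lplK V A).Holds (clAmb x V) := by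
    funext ω
    exact propext (dsh_K_lab x V A ω).symm
  have hpair : ClPair fun ω => Fe ω * Fp ω := fun ω ω' hb hw => by
    show Fe ω * Fp ω = Fe ω' * Fp ω'
    rw [lpl_loc_pair hFe ω ω' hb hw, lpl_loc_pair hFp ω ω' hb hw]
  have l1 := dis_lift x hx0 hx1 V A hV hcl hsk hne (fun ω => Fe ω * Fp ω) hpair
  have l2 := dis_lift x hx0 hx1 V A hV hcl hsk hne Fe (lpl_loc_pair hFe)
  rw [e2] at l1 l2
  have c1 : htE x A 0 (fun h => G h * Fp ⟨htB V h, htW V h, ∅⟩)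
      = htE x A 0 (fun h => Fe ⟨htB V h, htW V h, ∅⟩ * Fp ⟨htB V h, htW V h, ∅⟩) :=
    ht_E_congr x A 0 fun h hh => by rw [hFeq h hh]
  have c2 : htE x A 0 G = htE x A 0 (fun h => Fe ⟨htB V h, htW V h, ∅⟩) :=
    ht_E_congr x A 0 fun h hh => by rw [hFeq h hh]
  rw [c1, c2, l1, l2]
  -- label
  have hZ0 : 0 < (clAmb x V).Z ((dshK V A).Holds (clAmb x V)) :=
    dis_feas _ hOk _ (dsh_K_legal x V A) (dsh_K_feas x V A)
  have hlab := dis_lbl_one (clAmb x V) hOk (dshK V A) (fun e he => by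
      obtain ⟨a1, a2, _⟩ := dsh_mem_Eq.1 he
      exact ⟨(Finset.mem_sdiff.1 a1).1, (Finset.mem_sdiff.1 a2).1⟩) (V \ A) Finset.sdiff_subset
      (dsh_K_conn hsk) rfl (fun _ => 1) (fun _ => zero_le_one) (fun _ _ _ _ => rfl)
  rw [← dis_Z_eq, ← dis_Z_eq] at hlab
  have hZ1 : 0 < (clAmb x V).Z ((lplK V A).Holds (clAmb x V)) := by
    have : (clAmb x V).Z ((dshK V A).Holds (clAmb x V)) ≤ 2 * (clAmb x V).Z ((lplK V A).Holds (clAmb x V)) := hlab
    linarith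
  have hKK' : ∀ ω, (lplK V A).Holds (clAmb x V) ω → (dshK V A).Holds (clAmb x V) ω := by
    intro ω h
    obtain ⟨a1, a2⟩ := (dsh_K_lab x V A ω).1 h
    refine ⟨a1, by simp [dshK], ?_, by simp [dshK], by simp [dshK], by simp [dshK],
      by simp [dshK], by simp [dshK]⟩
    intro e he
    obtain ⟨b1, b2, _⟩ := dsh_mem_Eq.1 he
    exact ⟨fun _ => a2 b2, fun _ => a2 b1⟩
  -- PM
  have pm := Hp (lplK V A) hZ1 (lpl_K_free x V A _ hB) Fe Fp (lpl_loc_mono hFe _) hFe1 (lpl_loc_mono hFp _) hF1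
  -- STACK
  have st := Hs (dshK V A) (dsh_K_legal x V A) hZ0 (dsh_K_clear x V A _ (Finset.sdiff_subset.trans hB))
  have hEq : (lplK V A).Eq = (dshK V A).Eq := rfl
  rw [hEq] at pm
  have hP : (clAmb x V).P ((lplK V A).Holds (clAmb x V))
      (fun ω => ¬ ClSep (clAmb x V) true (dshK V A).Eq ω (V \ latBall z L) (latBall z (M + 2))) ≤ 2 * bs := by
    have hN1 := dsh_N_mono (clAmb x V) hOk hKK'
      (G := fun ω => @ite ℝ (¬ ClSep (clAmb x V) true (dshK V A).Eq ω (V \ latBall z L) (latBall z (M + 2)))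
        (Classical.propDecidable _) 1 0)
      (fun ω _ => le_rfl) (fun ω => by split_ifs <;> norm_num)
    have hlab' : (clAmb x V).Z ((dshK V A).Holds (clAmb x V)) ≤ 2 * (clAmb x V).Z ((lplK V A).Holds (clAmb x V)) := hlab
    unfold ClSys.P at st ⊢
    rw [dis_E_eq, div_le_iff₀ hZ0] at st
    rw [dis_E_eq, div_le_iff₀ hZ1]
    refine hN1.trans (st.trans ?_)
    generalize (clAmb x V).Z ((dshK V A).Holds (clAmb x V)) = Z0 at *
    generalize (clAmb x V).Z ((lplK V A).Holds (clAmb x V)) = Z1 at *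
    nlinarith
  generalize (clAmb x V).P ((lplK V A).Holds (clAmb x V))
      (fun ω => ¬ ClSep (clAmb x V) true (dshK V A).Eq ω (V \ latBall z L) (latBall z (M + 2))) = PP at *
  linarith

/-! ### the choice of the intermediate scale -/

theorem lpl_rpow_half {a b α : ℝ} (ha : 0 ≤ a) (hα : 0 ≤ α) (h : a ^ 2 ≤ b) : a ^ α ≤ b ^ (α / 2) := by
  have e : a ^ α = (a ^ 2) ^ (α / 2) := by
    rw [← Real.rpow_natCast a 2, ← Real.rpow_mul ha]
    congr 1
    push_cast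
    ring
  rw [e]
  exact Real.rpow_le_rpow (by positivity) h (by positivity)

/-- arithmetic of `M = √(r L) + 1`, `L' = L - 2` -/
theorem lpl_scale {r L : ℕ} (hr : 1 ≤ r) (hL : 100 * r ≤ L) :
    r ≤ Nat.sqrt (r * L) + 1 ∧ Nat.sqrt (r * L) + 1 + 4 ≤ L - 2 ∧
      ((r : ℝ) / ((Nat.sqrt (r * L) + 1 : ℕ) : ℝ)) ^ 2 ≤ (r : ℝ) / L ∧
      (((Nat.sqrt (r * L) + 1 + 2 : ℕ) : ℝ) / ((L - 2 : ℕ) : ℝ)) ^ 2 ≤ 64 * ((r : ℝ) / L) := by
  set s := Nat.sqrt (r * L) with hs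
  have h1 : s * s ≤ r * L := Nat.sqrt_le (r * L)
  have h2 : r * L < (s + 1) * (s + 1) := Nat.lt_succ_sqrt (r * L)
  have h3 : r ≤ s := Nat.le_sqrt.2 (Nat.mul_le_mul_left r (by omega))
  have h4 : s < L / 10 + 1 := by
    rw [hs, Nat.sqrt_lt]
    have hq : L < 10 * (L / 10 + 1) := by omega
    nlinarith
  have hLr : (0 : ℝ) < L := by exact_mod_cast (by omega : 0 < L)
  have hrr : (1 : ℝ) ≤ r := by exact_mod_cast hr
  have hsr : (1 : ℝ) ≤ s := by exact_mod_cast hr.trans h3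
  have h1r : (s : ℝ) * s ≤ r * L := by exact_mod_cast h1
  have h2r : (r : ℝ) * L < ((s : ℝ) + 1) * (s + 1) := by exact_mod_cast h2
  have hL2 : ((L - 2 : ℕ) : ℝ) = (L : ℝ) - 2 := by
    rw [Nat.cast_sub (by omega)]; norm_num
  have hL100 : (100 : ℝ) ≤ L := by
    have : 100 ≤ L := by omega
    exact_mod_cast this
  refine ⟨by omega, by omega, ?_, ?_⟩
  · rw [div_pow, div_le_div_iff₀ (by positivity) hLr]
    push_cast
    nlinarith
  · rw [hL2, div_pow, ← mul_div_assoc, div_le_div_iff₀ (by nlinarith) hLr]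
    push_cast
    have a1 : ((s : ℝ) + 1 + 2) ^ 2 ≤ 16 * (r * L) := by nlinarith
    have a2 : (L : ℝ) ^ 2 ≤ 4 * ((L : ℝ) - 2) ^ 2 := by nlinarith
    calc ((s : ℝ) + 1 + 2) ^ 2 * L ≤ 16 * (r * L) * L := mul_le_mul_of_nonneg_right a1 hLr.le
      _ = 16 * r * (L : ℝ) ^ 2 := by ring
      _ ≤ 16 * r * (4 * ((L : ℝ) - 2) ^ 2) := mul_le_mul_of_nonneg_left a2 (by positivity)
      _ = 64 * r * ((L : ℝ) - 2) ^ 2 := by ring

theorem lpl_ext_mono {S S' : Finset TV} (h : S' ⊆ S) {G : (TV → ℤ) → ℝ} (hG : LimExt S G) : LimExt S' G :=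
  fun a b hab => hG a b fun u hu => hab u fun hu' => hu (h hu')

/-- THE CORE: approximate independence + plane law in every hole-free zero boundary problem -/
theorem lpl_core (x : ℝ) (hx1 : 1 / Real.sqrt 2 ≤ x) (hx2 : x ≤ 1) :
    ∃ C κ : ℝ, 0 < C ∧ 0 < κ ∧ ∀ (A : Finset TV) (z : TV) (r L : ℕ), MomCo A → 1 ≤ r → C * r ≤ L → latBall z L ⊆ A →
      ∀ (G : (TV → ℤ) → ℝ) (Fp : ClCfg TV TV → ℝ), LimExt (latBall z L) G → (∀ h, |G h| ≤ 1) →
        ClLoc (latBall z r) ∅ Fp → (∀ ω, |Fp ω| ≤ 1) →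
        |htE x A 0 (fun h => G h * Fp ⟨htB (dshV A) h, htW (dshV A) h, ∅⟩) - htE x A 0 G * clPlane x Fp|
          ≤ C * ((r : ℝ) / L) ^ κ := by
  have hx0 : 0 < x := lt_of_lt_of_le (by positivity) hx1
  have hT := exit_t23 x hx1 hx2
  obtain ⟨Cs, αs, hCs, hαs, Hs⟩ := dis_stack x hx0 hx2 true hT
  obtain ⟨Cp, αp, hCp, hαp, Hp⟩ := dis_pm x hx0 hx2 hT
  refine ⟨100 + 4 * (Cs * 64 ^ (αs / 2)) + Cp, min αs αp / 2, by positivity, by positivity, ?_⟩
  intro A z r L hA hr hCL hB G Fp hG hG1 hFp hF1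
  have hrr : (1 : ℝ) ≤ r := by exact_mod_cast hr
  have h100 : 100 * r ≤ L := by
    have h64 : 0 ≤ Cs * 64 ^ (αs / 2) := by positivity
    have : (100 : ℝ) * r ≤ L := by nlinarith
    exact_mod_cast this
  obtain ⟨s1, s2, s3, s4⟩ := lpl_scale hr h100
  set M := Nat.sqrt (r * L) + 1 with hM
  obtain ⟨L', rfl⟩ : ∃ L', L = L' + 2 := ⟨L - 2, by omega⟩
  rw [Nat.add_sub_cancel] at s2 s4
  have hV : DisAmb (dshV A) := dis_amb_ball 0 _
  have hsub : latBall z (L' + 2) ⊆ dshV A := hB.trans (dsh_F_sub A)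
  have hLr : (0 : ℝ) < ((L' + 2 : ℕ) : ℝ) := by positivity
  set t : ℝ := (r : ℝ) / ((L' + 2 : ℕ) : ℝ) with ht
  have ht0 : 0 < t := by positivity
  have ht1 : t ≤ 1 := by
    rw [ht, div_le_one hLr]
    exact_mod_cast (by omega : r ≤ L' + 2)
  have key := lpl_fin x hx0 hx2 (bs := Cs * (((M + 2 : ℕ) : ℝ) / L') ^ αs) (bp := Cp * ((r : ℝ) / M) ^ αp)
    (by positivity) A hA z r M L' hB
    (fun K hK hZ hc => Hs (dshV A) hV K hK hZ z (M + 2) L' (by omega) (by omega) hsub hc)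
    (fun K hZ hf G' F' h1 h2 h3 h4 => Hp (dshV A) hV K hZ z r M L' hr s1 s2 hsub hf true G' F' h1 h2 h3 h4)
    G (lpl_ext_mono (plh_ball_mono z (by omega)) hG) hG1 Fp hFp hF1
  refine key.trans ?_
  have b1 : (((M + 2 : ℕ) : ℝ) / L') ^ αs ≤ 64 ^ (αs / 2) * t ^ (min αs αp / 2) := by
    calc (((M + 2 : ℕ) : ℝ) / L') ^ αs ≤ (64 * t) ^ (αs / 2) := lpl_rpow_half (by positivity) hαs.le s4
      _ = 64 ^ (αs / 2) * t ^ (αs / 2) := Real.mul_rpow (by norm_num) ht0.le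
      _ ≤ 64 ^ (αs / 2) * t ^ (min αs αp / 2) := by
          refine mul_le_mul_of_nonneg_left ?_ (by positivity)
          exact Real.rpow_le_rpow_of_exponent_ge ht0 ht1 (by linarith [min_le_left αs αp])
  have b2 : ((r : ℝ) / M) ^ αp ≤ t ^ (min αs αp / 2) := by
    calc ((r : ℝ) / M) ^ αp ≤ t ^ (αp / 2) := lpl_rpow_half (by positivity) hαp.le s3
      _ ≤ t ^ (min αs αp / 2) :=
          Real.rpow_le_rpow_of_exponent_ge ht0 ht1 (by linarith [min_le_right αs αp])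
  have htk : 0 ≤ t ^ (min αs αp / 2) := by positivity
  have c1 := mul_le_mul_of_nonneg_left b1 hCs.le
  have c2 := mul_le_mul_of_nonneg_left b2 hCp.le
  nlinarith

/-! ### the plane law of the heights -/

/-- admissible heights are 1-Lipschitz inside the free set -/
theorem lpl_adm_lip {A : Finset TV} {h : TV → ℤ} (hh : HtAdm A 0 h) {S : Finset TV} (hS : S ⊆ A) :
    ∀ u ∈ S, ∀ v ∈ S, triAdj u v → |h u - h v| ≤ 1 := by
  intro u hu v _ huv
  have := hh.2 u (hS hu) (v - u) ((lat_adj_iff u v).1 huv)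
  rw [add_sub_cancel] at this
  rwa [abs_sub_comm]

/-- a decoded local gradient observable has the plane law `clPlane` in the limit of the zero boundary hexagons -/
theorem lpl_plane (x : ℝ) (hx1 : 1 / Real.sqrt 2 ≤ x) (hx2 : x ≤ 1) (z : TV) (r : ℕ) (hr : 1 ≤ r) (Ψ : (TV → ℤ) → ℝ)
    (Fp : ClCfg TV TV → ℝ) (hFp : ClLoc (latBall z r) ∅ Fp) (hF1 : ∀ ω, |Fp ω| ≤ 1)
    (hdec : ∀ (V : Finset TV) (h : TV → ℤ), latBall z r ⊆ V →
      (∀ u ∈ latBall z r, ∀ v ∈ latBall z r, triAdj u v → |h u - h v| ≤ 1) → Fp ⟨htB V h, htW V h, ∅⟩ = Ψ h) :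
    Tendsto (fun R : ℕ => htE x (latBall 0 R) 0 Ψ) atTop (𝓝 (clPlane x Fp)) := by
  have hx0 : 0 < x := lt_of_lt_of_le (by positivity) hx1
  obtain ⟨C, κ, hC, hκ, H⟩ := lpl_core x hx1 hx2
  have hlim : Tendsto (fun R : ℕ => C * ((r : ℝ) / ((R - latN z : ℕ) : ℝ)) ^ κ) atTop (𝓝 0) := by
    have h1 : Tendsto (fun R : ℕ => (r : ℝ) / ((R - latN z : ℕ) : ℝ)) atTop (𝓝 0) :=
      (tendsto_const_div_atTop_nhds_zero_nat (r : ℝ)).comp (tendsto_sub_atTop_nat (latN z))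
    have h2 := (h1.rpow_const (p := κ) (Or.inr hκ.le)).const_mul C
    rwa [Real.zero_rpow hκ.ne', mul_zero] at h2
  rw [tendsto_iff_dist_tendsto_zero]
  refine squeeze_zero' (Eventually.of_forall fun R => dist_nonneg) ?_ hlim
  filter_upwards [eventually_ge_atTop (latN z + (⌈C * r⌉₊ + r))] with R hR
  set L := R - latN z with hL
  have hCL : C * r ≤ L := by
    have : ⌈C * r⌉₊ ≤ L := by omega
    exact (Nat.le_ceil _).trans (by exact_mod_cast this)
  have hsub : latBall z L ⊆ latBall 0 R := lpl_ball_sub z L R (by omega)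
  have key := H (latBall 0 R) z r L (plh_ball_compl_conn 0 R) hr hCL hsub (fun _ => 1) Fp (fun _ _ _ => rfl)
    (fun _ => by simp) hFp hF1
  rw [ht_E_const hx0 (ht_adm_zero _), one_mul] at key
  have e : htE x (latBall 0 R) 0 (fun h => 1 * Fp ⟨htB (dshV (latBall 0 R)) h, htW (dshV (latBall 0 R)) h, ∅⟩)
      = htE x (latBall 0 R) 0 Ψ := by
    refine ht_E_congr x _ 0 fun h hh => ?_
    have hrs : latBall z r ⊆ latBall 0 R := (plh_ball_mono z (by omega)).trans hsub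
    rw [one_mul, hdec _ h (hrs.trans (dsh_F_sub _)) (lpl_adm_lip hh hrs)]
  rw [e] at key
  rw [Real.dist_eq]
  exact key

theorem lpl_loc_mono' {S S' : Finset TV} (h : S ⊆ S') {G : (TV → ℤ) → ℝ} (hG : HtLoc S G) : HtLoc S' G :=
  fun a b hab => hG a b fun u hu => hab u (h hu)

/-- **the field `lim`** TEX[prop:local-mixing] for the heights -/
theorem lpl_lim (x : ℝ) (hx1 : 1 / Real.sqrt 2 ≤ x) (hx2 : x ≤ 1) (S : Finset TV) (G : (TV → ℤ) → ℝ) (hloc : HtLoc S G)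
    (hgr : HtGrad G) : Tendsto (fun R : ℕ => htE x (latBall 0 R) 0 G) atTop (𝓝 (htPl x G)) := by
  set r := max 1 (S.sup latN) with hr
  have hS : S ⊆ latBall 0 r := by
    intro u hu
    rw [lat_mem_ball, sub_zero]
    exact (Finset.le_sup (f := latN) hu).trans (le_max_right _ _)
  obtain ⟨Fp, hFp, -, hdec⟩ := mix_loc 0 r G (lpl_loc_mono' hS hloc) hgr
  obtain ⟨b, hb, hFb⟩ := mix_loc_bdd _ Fp hFp
  have h1 := lpl_plane x hx1 hx2 0 r (le_max_left _ _) (fun h => b⁻¹ * G h) (fun ω => b⁻¹ * Fp ω)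
    (fun ω ω' a1 a2 a3 => by
      show b⁻¹ * Fp ω = b⁻¹ * Fp ω'
      rw [hFp ω ω' a1 a2 a3])
    (fun ω => by
      rw [abs_mul, abs_of_pos (inv_pos.2 hb), inv_mul_le_iff₀ hb, mul_one]
      exact hFb ω)
    (fun V h a1 a2 => by
      show b⁻¹ * Fp _ = b⁻¹ * G h
      rw [hdec V h a1 a2])
  have h2 := h1.const_mul b
  have e : (fun R : ℕ => b * htE x (latBall 0 R) 0 (fun h => b⁻¹ * G h)) = fun R : ℕ => htE x (latBall 0 R) 0 G := by
    funext R
    rw [ht_E_smul, ← mul_assoc, mul_inv_cancel₀ hb.ne', one_mul]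
  rw [e] at h2
  exact tendsto_nhds_limUnder ⟨_, h2⟩

/-- **the field `mix`** TEX[cor:conditional-plane-matching] + 07-limit l.560-650 -/
theorem lpl_mix (x : ℝ) (hx1 : 1 / Real.sqrt 2 ≤ x) (hx2 : x ≤ 1) :
    ∃ C κ : ℝ, 0 < C ∧ 0 < κ ∧ ∀ (F : Finset TV) (u0 : TV) (r L : ℕ), LimCoConn F → 1 ≤ r → C * r ≤ L → latBall u0 L ⊆ F →
    ∀ G Ψ : (TV → ℤ) → ℝ, LimExt (latBall u0 L) G → (∀ h, |G h| ≤ 1) → HtLoc (latBall u0 r) Ψ → HtGrad Ψ → (∀ h, |Ψ h| ≤ 1) →
      |htFz x F (fun h => G h * Ψ h) - htFz x F G * htPl x Ψ| ≤ C * ((r : ℝ) / L) ^ κ := by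
  obtain ⟨C, κ, hC, hκ, H⟩ := lpl_core x hx1 hx2
  have h2κ : (1 : ℝ) ≤ 2 ^ κ := Real.one_le_rpow (by norm_num) hκ.le
  refine ⟨(C + 2) * 2 ^ κ, κ, by positivity, hκ, ?_⟩
  intro F u0 r L hF hr hCL hB G Ψ hG hG1 hloc hgr hΨ1
  have hrr : (1 : ℝ) ≤ r := by exact_mod_cast hr
  have hCL' : (C + 2) * r ≤ L := by
    refine le_trans ?_ hCL
    have : 0 ≤ (C + 2) * r := by positivity
    nlinarith
  have hL2 : 2 ≤ L := by
    have : (2 : ℝ) ≤ L := by nlinarith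
    exact_mod_cast this
  obtain ⟨L1, rfl⟩ : ∃ L1, L = L1 + 1 := ⟨L - 1, by omega⟩
  have hL1 : 1 ≤ L1 := by omega
  have hC1 : C * r ≤ L1 := by
    push_cast at hCL'
    nlinarith
  have hrL : r ≤ L1 := by
    have : (r : ℝ) ≤ L1 := by
      push_cast at hCL'
      nlinarith
    exact_mod_cast this
  have hBi : latBall u0 L1 ⊆ latInt F := lpl_ball_int hB
  obtain ⟨Fp, hFp, hFb, hdec⟩ := mix_loc u0 r Ψ hloc hgr
  have hF1 := hFb 1 hΨ1
  have hpl : htPl x Ψ = clPlane x Fp := (lpl_plane x hx1 hx2 u0 r hr Ψ Fp hFp hF1 hdec).limUnder_eq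
  have key := H (latInt F) u0 r L1 (lpl_co hF) hr hC1 hBi G Fp (lpl_ext_mono (plh_ball_mono u0 (by omega)) hG) hG1 hFp hF1
  have e : htE x (latInt F) 0 (fun h => G h * Fp ⟨htB (dshV (latInt F)) h, htW (dshV (latInt F)) h, ∅⟩)
      = htFz x F (fun h => G h * Ψ h) := by
    refine ht_E_congr x _ 0 fun h hh => ?_
    have hrs : latBall u0 r ⊆ latInt F := (plh_ball_mono u0 hrL).trans hBi
    rw [hdec _ h (hrs.trans (dsh_F_sub _)) (lpl_adm_lip hh hrs)]
  rw [e, ← hpl] at key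
  refine key.trans ?_
  have hL1r : (0 : ℝ) < L1 := by exact_mod_cast hL1
  have hle : (r : ℝ) / L1 ≤ 2 * ((r : ℝ) / ((L1 + 1 : ℕ) : ℝ)) := by
    rw [← mul_div_assoc, div_le_div_iff₀ hL1r (by positivity)]
    push_cast
    have : (1 : ℝ) ≤ L1 := by exact_mod_cast hL1
    nlinarith
  calc C * ((r : ℝ) / L1) ^ κ ≤ C * (2 * ((r : ℝ) / ((L1 + 1 : ℕ) : ℝ))) ^ κ :=
        mul_le_mul_of_nonneg_left (Real.rpow_le_rpow (by positivity) hle hκ.le) hC.le
    _ = C * 2 ^ κ * ((r : ℝ) / ((L1 + 1 : ℕ) : ℝ)) ^ κ := by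
        rw [Real.mul_rpow (by norm_num) (by positivity)]; ring
    _ ≤ (C + 2) * 2 ^ κ * ((r : ℝ) / ((L1 + 1 : ℕ) : ℝ)) ^ κ := by
        refine mul_le_mul_of_nonneg_right ?_ (by positivity)
        nlinarith

/-- **`LimPl0 x`** from `exit_t23`, `dis_lift`, `dis_stack`, `dis_pm`, `dis_lbl_one` and the Gray decoding -/
theorem lpl_pl0 (x : ℝ) (hx1 : 1 / Real.sqrt 2 ≤ x) (hx2 : x ≤ 1) : LimPl0 x :=
  ⟨lpl_lim x hx1 hx2, lpl_mix x hx1 hx2⟩

end Claimed.Agent.R291
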