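import Claimed.Agent.R291.Lim.Kit

/-!
# Row 291 (S0539), Lim/DecA : THE DECOUPLING INEQUALITY, MODEL FREE PART      (owner helper181; prefix `lim_pl_`, `lim_dec_`)

TEX[eq:limit-coupling-error] without coupling.  Input: `LimPl0 x` (fields `lim`, `mix`).
* `lim_pl_*`       `htPl x` is linear, monotone, normalised on local gradient observables (from the field `lim`)
* `lim_dec_abs`    truncation algebra:  `|E(ΦG) - E(Φ) p| ≤ M² ε + K/M`
* `lim_dec_mix`    the field `mix` applied to the truncations of unbounded observables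
* **`lim_dec_core`**  `Φ` exterior, `G` local gradient, both unbounded:   `|E(ΦG) - E(Φ) htPl(G)| ≤ M² C (r/L)^κ + (a + b + a(1+c)/2 + (1+a)c/2)/M` for every `M > 0`
-/

set_option autoImplicit false

namespace Claimed.Agent.R291

open Filter Topology Set
open Claims Claims.C0467

/-! ### closure properties of the classes of observables -/

theorem lim_loc_comp {S : Finset TV} {G : (TV → ℤ) → ℝ} (h : HtLoc S G) (φ : ℝ → ℝ) : HtLoc S fun H => φ (G H) :=
  fun H H' hh => by show φ (G H) = φ (G H'); rw [h H H' hh]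

theorem lim_grad_comp {G : (TV → ℤ) → ℝ} (h : HtGrad G) (φ : ℝ → ℝ) : HtGrad fun H => φ (G H) :=
  fun H c => by show φ (G fun u => H u + c) = φ (G H); rw [h H c]

theorem lim_loc_comp2 {S : Finset TV} {G G' : (TV → ℤ) → ℝ} (h : HtLoc S G) (h' : HtLoc S G') (φ : ℝ → ℝ → ℝ) :
    HtLoc S fun H => φ (G H) (G' H) := fun H H' hh => by
  show φ (G H) (G' H) = φ (G H') (G' H'); rw [h H H' hh, h' H H' hh]

theorem lim_grad_comp2 {G G' : (TV → ℤ) → ℝ} (h : HtGrad G) (h' : HtGrad G') (φ : ℝ → ℝ → ℝ) :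
    HtGrad fun H => φ (G H) (G' H) := fun H c => by
  show φ (G fun u => H u + c) (G' fun u => H u + c) = φ (G H) (G' H); rw [h H c, h' H c]

theorem lim_loc_const (S : Finset TV) (c : ℝ) : HtLoc S fun _ => c := fun _ _ _ => rfl

theorem lim_grad_const (c : ℝ) : HtGrad fun _ => c := fun _ _ => rfl

theorem lim_ext_comp {S : Finset TV} {G : (TV → ℤ) → ℝ} (h : LimExt S G) (φ : ℝ → ℝ) : LimExt S fun H => φ (G H) :=
  fun H H' hh => by show φ (G H) = φ (G H'); rw [h H H' hh]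

/-! ### the plane functional -/

section plane

variable {x : ℝ}

theorem lim_pl_mono (hx : 0 < x) (hP : LimPl0 x) {S : Finset TV} {G1 G2 : (TV → ℤ) → ℝ} (l1 : HtLoc S G1) (g1 : HtGrad G1)
    (l2 : HtLoc S G2) (g2 : HtGrad G2) (h : ∀ H, G1 H ≤ G2 H) : htPl x G1 ≤ htPl x G2 :=
  le_of_tendsto_of_tendsto' (hP.lim S G1 l1 g1) (hP.lim S G2 l2 g2) fun R => ht_E_mono hx _ _ fun H _ => h H

theorem lim_pl_add (hP : LimPl0 x) {S : Finset TV} {G1 G2 : (TV → ℤ) → ℝ} (l1 : HtLoc S G1) (g1 : HtGrad G1)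
    (l2 : HtLoc S G2) (g2 : HtGrad G2) : htPl x (fun H => G1 H + G2 H) = htPl x G1 + htPl x G2 := by
  refine tendsto_nhds_unique (hP.lim S _ (lim_loc_comp2 l1 l2 (· + ·)) (lim_grad_comp2 g1 g2 (· + ·))) ?_
  have := (hP.lim S G1 l1 g1).add (hP.lim S G2 l2 g2)
  refine this.congr fun R => ?_
  rw [ht_E_add]

theorem lim_pl_smul (hP : LimPl0 x) {S : Finset TV} {G : (TV → ℤ) → ℝ} (l : HtLoc S G) (g : HtGrad G) (c : ℝ) :
    htPl x (fun H => c * G H) = c * htPl x G := by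
  refine tendsto_nhds_unique (hP.lim S _ (lim_loc_comp l (c * ·)) (lim_grad_comp g (c * ·))) ?_
  have := (hP.lim S G l g).const_mul c
  refine this.congr fun R => ?_
  rw [ht_E_smul]

theorem lim_pl_const (hx : 0 < x) (hP : LimPl0 x) (c : ℝ) : htPl x (fun _ => c) = c := by
  refine tendsto_nhds_unique (hP.lim ∅ _ (lim_loc_const ∅ c) (lim_grad_const c)) ?_
  refine tendsto_const_nhds.congr fun R => ?_
  rw [ht_E_const hx (ht_adm_zero _)]

theorem lim_pl_sub (hP : LimPl0 x) {S : Finset TV} {G1 G2 : (TV → ℤ) → ℝ} (l1 : HtLoc S G1) (g1 : HtGrad G1)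
    (l2 : HtLoc S G2) (g2 : HtGrad G2) : htPl x (fun H => G1 H - G2 H) = htPl x G1 - htPl x G2 := by
  refine tendsto_nhds_unique (hP.lim S _ (lim_loc_comp2 l1 l2 (· - ·)) (lim_grad_comp2 g1 g2 (· - ·))) ?_
  have := (hP.lim S G1 l1 g1).sub (hP.lim S G2 l2 g2)
  refine this.congr fun R => ?_
  rw [ht_E_sub]

/-- comparison `|P G1 - P G2| ≤ P G3` from `|G1 - G2| ≤ G3` -/
theorem lim_pl_abs_sub_le (hx : 0 < x) (hP : LimPl0 x) {S : Finset TV} {G1 G2 G3 : (TV → ℤ) → ℝ} (l1 : HtLoc S G1) (g1 : HtGrad G1)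
    (l2 : HtLoc S G2) (g2 : HtGrad G2) (l3 : HtLoc S G3) (g3 : HtGrad G3) (h : ∀ H, |G1 H - G2 H| ≤ G3 H) :
    |htPl x G1 - htPl x G2| ≤ htPl x G3 := by
  have a1 := lim_pl_mono hx hP l1 g1 (lim_loc_comp2 l2 l3 (· + ·)) (lim_grad_comp2 g2 g3 (· + ·))
    fun H => by have := (abs_le.1 (h H)).2; show G1 H ≤ G2 H + G3 H; linarith
  have a2 := lim_pl_mono hx hP l2 g2 (lim_loc_comp2 l1 l3 (· + ·)) (lim_grad_comp2 g1 g3 (· + ·))
    fun H => by have := (abs_le.1 (h H)).1; show G2 H ≤ G1 H + G3 H; linarith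
  rw [lim_pl_add hP l2 g2 l3 g3] at a1
  rw [lim_pl_add hP l1 g1 l3 g3] at a2
  rw [abs_le]
  constructor <;> linarith

end plane

/-! ### truncation algebra -/

/-- pointwise: replacing both factors by their truncations -/
theorem lim_dec_pt {M : ℝ} (hM : 0 < M) (p g : ℝ) :
    |p * g - limTr M p * limTr M g| ≤ (p ^ 4 + g ^ 2 + p ^ 2 + g ^ 4) / (2 * M) := by
  have h1 : |p - limTr M p| ≤ p ^ 2 / M := by simpa using lim_tr_err hM p (m := 1) le_rfl
  have h2 : |g - limTr M g| ≤ g ^ 2 / M := by simpa using lim_tr_err hM g (m := 1) le_rfl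
  have h3 : |limTr M p| ≤ |p| := lim_tr_abs_le_abs hM.le p
  have e : p * g - limTr M p * limTr M g = (p - limTr M p) * g + limTr M p * (g - limTr M g) := by ring
  have a1 : |(p - limTr M p) * g| ≤ p ^ 2 / M * |g| := by
    rw [abs_mul]; exact mul_le_mul_of_nonneg_right h1 (abs_nonneg _)
  have a2 : |limTr M p * (g - limTr M g)| ≤ |p| * (g ^ 2 / M) := by
    rw [abs_mul]; exact mul_le_mul h3 h2 (abs_nonneg _) (abs_nonneg _)
  have b1 : p ^ 2 * |g| ≤ (p ^ 4 + g ^ 2) / 2 := by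
    have := sq_nonneg (p ^ 2 - |g|)
    have e2 : |g| ^ 2 = g ^ 2 := sq_abs g
    nlinarith
  have b2 : |p| * g ^ 2 ≤ (p ^ 2 + g ^ 4) / 2 := by
    have := sq_nonneg (|p| - g ^ 2)
    have e2 : |p| ^ 2 = p ^ 2 := sq_abs p
    nlinarith
  rw [e]
  refine (abs_add_le _ _).trans ((add_le_add a1 a2).trans ?_)
  have c1 : p ^ 2 / M * |g| = p ^ 2 * |g| / M := by ring
  have c2 : |p| * (g ^ 2 / M) = |p| * g ^ 2 / M := by ring
  rw [c1, c2, ← add_div, div_le_div_iff₀ hM (by positivity)]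
  nlinarith

theorem lim_dec_abs {x : ℝ} (hx : 0 < x) (A : Finset TV) (b : TV → ℤ) (Φ G : (TV → ℤ) → ℝ) {M ε a bb c pG pGM : ℝ} (hM : 0 < M)
    (hmix : |htE x A b (fun H => limTr M (Φ H) * limTr M (G H)) - htE x A b (fun H => limTr M (Φ H)) * pGM| ≤ M ^ 2 * ε)
    (hΦ2 : htE x A b (fun H => Φ H ^ 2) ≤ a) (hΦ4 : htE x A b (fun H => Φ H ^ 4) ≤ a)
    (hG2 : htE x A b (fun H => G H ^ 2) ≤ bb) (hG4 : htE x A b (fun H => G H ^ 4) ≤ bb)
    (hp1 : |pGM| ≤ (1 + c) / 2) (hp2 : |pG - pGM| ≤ c / M) :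
    |htE x A b (fun H => Φ H * G H) - htE x A b Φ * pG| ≤ M ^ 2 * ε + (a + bb + a * ((1 + c) / 2) + (1 + a) / 2 * c) / M := by
  have ha : 0 ≤ a := (ht_E_nonneg hx A b fun H _ => by positivity).trans hΦ2
  -- step 1
  have s1 : |htE x A b (fun H => Φ H * G H) - htE x A b (fun H => limTr M (Φ H) * limTr M (G H))| ≤ (a + bb) / M := by
    rw [← ht_E_sub]
    refine (ht_E_abs_le hx A b _).trans ?_
    refine (ht_E_mono hx A b fun H _ => lim_dec_pt hM (Φ H) (G H)).trans ?_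
    have e : (fun H => (Φ H ^ 4 + G H ^ 2 + Φ H ^ 2 + G H ^ 4) / (2 * M))
        = fun H => (2 * M)⁻¹ * (((Φ H ^ 4 + G H ^ 2) + Φ H ^ 2) + G H ^ 4) := by
      funext H; rw [div_eq_mul_inv, mul_comm]
    rw [e, ht_E_smul, ht_E_add, ht_E_add, ht_E_add]
    have : (a + bb) / M = (2 * M)⁻¹ * (a + bb + a + bb) := by field_simp; ring
    rw [this]
    refine mul_le_mul_of_nonneg_left ?_ (by positivity)
    linarith
  -- step 3
  have s3 : |htE x A b (fun H => limTr M (Φ H)) - htE x A b Φ| ≤ a / M := by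
    rw [← ht_E_sub]
    refine (ht_E_abs_le hx A b _).trans ?_
    have : ∀ H, |limTr M (Φ H) - Φ H| ≤ M⁻¹ * Φ H ^ 2 := fun H => by
      have := lim_tr_err hM (Φ H) (m := 1) le_rfl
      rw [abs_sub_comm]
      simpa [div_eq_mul_inv, mul_comm] using this
    refine (ht_E_mono hx A b fun H _ => this H).trans ?_
    rw [ht_E_smul, div_eq_mul_inv, mul_comm]
    exact mul_le_mul_of_nonneg_right hΦ2 (by positivity)
  have s4 : |htE x A b Φ| ≤ (1 + a) / 2 := by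
    refine (ht_E_abs_le hx A b _).trans ?_
    have : ∀ H, |Φ H| ≤ 2⁻¹ * (1 + Φ H ^ 2) := fun H => by
      have := sq_nonneg (|Φ H| - 1)
      have e2 : |Φ H| ^ 2 = Φ H ^ 2 := sq_abs _
      nlinarith
    refine (ht_E_mono hx A b fun H _ => this H).trans ?_
    rw [ht_E_smul, ht_E_add]
    have := ht_E_one_le hx A b
    linarith
  have e : htE x A b (fun H => Φ H * G H) - htE x A b Φ * pG
      = (htE x A b (fun H => Φ H * G H) - htE x A b (fun H => limTr M (Φ H) * limTr M (G H)))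
        + (htE x A b (fun H => limTr M (Φ H) * limTr M (G H)) - htE x A b (fun H => limTr M (Φ H)) * pGM)
        + (htE x A b (fun H => limTr M (Φ H)) - htE x A b Φ) * pGM + htE x A b Φ * (pGM - pG) := by ring
  have t3 : |(htE x A b (fun H => limTr M (Φ H)) - htE x A b Φ) * pGM| ≤ a / M * ((1 + c) / 2) := by
    rw [abs_mul]; exact mul_le_mul s3 hp1 (abs_nonneg _) (by positivity)
  have t4 : |htE x A b Φ * (pGM - pG)| ≤ (1 + a) / 2 * (c / M) := by
    rw [abs_mul, abs_sub_comm]; exact mul_le_mul s4 hp2 (abs_nonneg _) (by positivity)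
  rw [e]
  refine (abs_add_le _ _).trans ((add_le_add ((abs_add_le _ _).trans (add_le_add ((abs_add_le _ _).trans (add_le_add s1 hmix)) t3)) t4).trans
    (le_of_eq ?_))
  field_simp
  ring

/-! ### the mixing input on unbounded observables -/

theorem lim_dec_mix {x : ℝ} (hP : LimPl0 x) :
    ∃ C κ : ℝ, 0 < C ∧ 0 < κ ∧ ∀ (F : Finset TV) (u0 : TV) (r L : ℕ), LimCoConn F → 1 ≤ r → C * r ≤ L → latBall u0 L ⊆ F →
      ∀ Φ G : (TV → ℤ) → ℝ, LimExt (latBall u0 L) Φ → HtLoc (latBall u0 r) G → HtGrad G → ∀ M : ℝ, 0 < M →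
        |htFz x F (fun H => limTr M (Φ H) * limTr M (G H)) - htFz x F (fun H => limTr M (Φ H)) * htPl x (fun H => limTr M (G H))|
          ≤ M ^ 2 * (C * ((r : ℝ) / L) ^ κ) := by
  obtain ⟨C, κ, hC, hκ, H⟩ := hP.mix
  refine ⟨C, κ, hC, hκ, fun F u0 r L hF hr hL hsub Φ G hΦ hG1 hG2 M hM => ?_⟩
  have hb : ∀ t : ℝ, |M⁻¹ * limTr M t| ≤ 1 := fun t => by
    rw [abs_mul, abs_of_pos (inv_pos.2 hM), inv_mul_le_iff₀ hM, mul_one]
    exact lim_tr_abs_le hM.le t
  have key := H F u0 r L hF hr hL hsub (fun H => M⁻¹ * limTr M (Φ H)) (fun H => M⁻¹ * limTr M (G H))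
    (lim_ext_comp hΦ fun t => M⁻¹ * limTr M t) (fun H => hb _) (lim_loc_comp hG1 fun t => M⁻¹ * limTr M t)
    (lim_grad_comp hG2 fun t => M⁻¹ * limTr M t) fun H => hb _
  have e1 : (fun H => M⁻¹ * limTr M (Φ H) * (M⁻¹ * limTr M (G H))) = fun H => (M⁻¹ * M⁻¹) * (limTr M (Φ H) * limTr M (G H)) := by
    funext H; ring
  have e2 : htPl x (fun H => M⁻¹ * limTr M (G H)) = M⁻¹ * htPl x (fun H => limTr M (G H)) :=
    lim_pl_smul hP (lim_loc_comp hG1 (limTr M)) (lim_grad_comp hG2 (limTr M)) M⁻¹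
  unfold htFz at key ⊢
  rw [e1, e2, ht_E_smul, ht_E_smul] at key
  have e3 : M⁻¹ * M⁻¹ * htE x (latInt F) 0 (fun H => limTr M (Φ H) * limTr M (G H))
      - M⁻¹ * htE x (latInt F) 0 (fun H => limTr M (Φ H)) * (M⁻¹ * htPl x fun H => limTr M (G H))
      = (M ^ 2)⁻¹ * (htE x (latInt F) 0 (fun H => limTr M (Φ H) * limTr M (G H))
        - htE x (latInt F) 0 (fun H => limTr M (Φ H)) * htPl x fun H => limTr M (G H)) := by
    field_simp
  rw [e3, abs_mul, abs_of_pos (by positivity), inv_mul_le_iff₀ (by positivity)] at key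
  exact key

/-- **the decoupling inequality**: `Φ` depends on the heights off `latBall u0 L`, `G` is a gradient observable in `latBall u0 r`; no bound on `Φ`, `G` -/
theorem lim_dec_core {x : ℝ} (hx : 0 < x) (hP : LimPl0 x) :
    ∃ C κ : ℝ, 0 < C ∧ 0 < κ ∧ ∀ (F : Finset TV) (u0 : TV) (r L : ℕ), LimCoConn F → 1 ≤ r → C * r ≤ L → latBall u0 L ⊆ F →
      ∀ Φ G : (TV → ℤ) → ℝ, LimExt (latBall u0 L) Φ → HtLoc (latBall u0 r) G → HtGrad G → ∀ a b c : ℝ,
        htFz x F (fun H => Φ H ^ 2) ≤ a → htFz x F (fun H => Φ H ^ 4) ≤ a → htFz x F (fun H => G H ^ 2) ≤ b → htFz x F (fun H => G H ^ 4) ≤ b →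
        htPl x (fun H => G H ^ 2) ≤ c → ∀ M : ℝ, 0 < M →
        |htFz x F (fun H => Φ H * G H) - htFz x F Φ * htPl x G|
          ≤ M ^ 2 * (C * ((r : ℝ) / L) ^ κ) + (a + b + a * ((1 + c) / 2) + (1 + a) / 2 * c) / M := by
  obtain ⟨C, κ, hC, hκ, H⟩ := lim_dec_mix hP
  refine ⟨C, κ, hC, hκ, fun F u0 r L hF hr hL hsub Φ G hΦ hG1 hG2 a b c h1 h2 h3 h4 h5 M hM => ?_⟩
  have lT := lim_loc_comp hG1 (limTr M)
  have gT := lim_grad_comp hG2 (limTr M)
  have lS := lim_loc_comp hG1 (· ^ 2)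
  have gS := lim_grad_comp hG2 (· ^ 2)
  -- `|P(G_M)| ≤ (1 + c)/2`
  have p1 : |htPl x (fun H => limTr M (G H))| ≤ (1 + c) / 2 := by
    have l0 := lim_loc_const (latBall u0 r) 0
    have g0 := lim_grad_const 0
    have l3 := lim_loc_comp hG1 fun t => 2⁻¹ * (1 + t ^ 2)
    have g3 := lim_grad_comp hG2 fun t => 2⁻¹ * (1 + t ^ 2)
    have := lim_pl_abs_sub_le hx hP lT gT l0 g0 l3 g3 fun H => by
      rw [sub_zero]
      refine (lim_tr_abs_le_abs hM.le _).trans ?_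
      have := sq_nonneg (|G H| - 1)
      have e2 : |G H| ^ 2 = G H ^ 2 := sq_abs _
      nlinarith
    rw [lim_pl_const hx hP, sub_zero] at this
    refine this.trans ?_
    have e : htPl x (fun H => 2⁻¹ * (1 + G H ^ 2)) = 2⁻¹ * (1 + htPl x fun H => G H ^ 2) := by
      rw [lim_pl_smul hP (lim_loc_comp hG1 fun t => 1 + t ^ 2) (lim_grad_comp hG2 fun t => 1 + t ^ 2),
        lim_pl_add hP (lim_loc_const (latBall u0 r) 1) (lim_grad_const 1) lS gS, lim_pl_const hx hP]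
    rw [e]
    linarith
  -- `|P(G) - P(G_M)| ≤ c/M`
  have p2 : |htPl x G - htPl x (fun H => limTr M (G H))| ≤ c / M := by
    have l3 := lim_loc_comp hG1 fun t => M⁻¹ * t ^ 2
    have g3 := lim_grad_comp hG2 fun t => M⁻¹ * t ^ 2
    have := lim_pl_abs_sub_le hx hP hG1 hG2 lT gT l3 g3 fun H => by
      have := lim_tr_err hM (G H) (m := 1) le_rfl
      simpa [div_eq_mul_inv, mul_comm] using this
    refine this.trans ?_
    rw [lim_pl_smul hP lS gS, div_eq_mul_inv, mul_comm]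
    exact mul_le_mul_of_nonneg_right h5 (by positivity)
  exact lim_dec_abs hx (latInt F) 0 Φ G hM (H F u0 r L hF hr hL hsub Φ G hΦ hG1 hG2 M hM) h1 h2 h3 h4 p1 p2

end Claimed.Agent.R291
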