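import Claimed.Agent.R291.Lim.DecA
import Claimed.Agent.R291.Lim.Sm
import Claimed.Agent.R291.Geo.Lat
import Claimed.Agent.R291.Wick.Green

/-!
# Row 291 (S0539), Lim/DecB : THE COLLISION DECOUPLING `LimDec`, PHYSICAL PART      (owner helper181; prefix `lim_dec_`, `lim_sc_`)

TEX[prop:collision], eq:limit-plane-factorization, at the discrete level: mesh first, then `r → 0`, uniformly in the centre.
Inputs: `LimPlane x v` (through `lim_dec_core` of DecA, + `mom`, `cov`), the physical smearing bounds of Lim/Sm, the geometry of Geo/Lat (helper172), the `lap2` calculus of Wick/Green (helper86).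
* `lim_int_sc`, `lim_sc_*`    rescaled tests `limSc η y0 r = η((· - y0)/r)`
* `lim_dec_geo`               the two hexagons `latBall u0 ρ ⊆ latBall u0 L` around the face of `y0`:  `2s + 2δ ≤ ρ δ ≤ 3 s`,  `c_L ≤ L δ`, faces of the big one inside `wkBall y0 R0`
* `LimLocT y0 s B α`          zero total function of size `B/(9 s²)` carried by the disc of radius `s`
* `lim_dec_obs`, `lim_dec_ext`   its smeared field is a local gradient observable; the spectators are exterior observables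
* `lim_dec_momP`, `lim_dec_momPhi`   plane moments, moments of the spectator product
* `lim_dec_loc`               `|E(Φ X₁ X₂) - E(Φ) htPl(X₁ X₂)| ≤ K (M² s^κ + (1 + log 1/s)⁴ / M)`
* **`lim_dec`**               `LimDec x v D δ F`
-/

set_option autoImplicit false

namespace Claimed.Agent.R291

open MeasureTheory Filter Topology Set
open scoped ContDiff
open Claims Claims.C0467

/-! ### rescaled tests -/

theorem lim_int_sc (g : ℝ × ℝ → ℝ) (y0 : ℝ × ℝ) {r : ℝ} (hr : 0 < r) : ∫ y, g (r⁻¹ • (y - y0)) = r ^ 2 * ∫ y, g y := by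
  rw [integral_sub_right_eq_self (fun y => g (r⁻¹ • y)) y0, Measure.integral_comp_smul volume g r⁻¹]
  have : Module.finrank ℝ (ℝ × ℝ) = 2 := by simp
  rw [this, inv_pow, inv_inv, abs_of_pos (by positivity), smul_eq_mul]

theorem lim_sc_sq (y y0 : ℝ × ℝ) (r : ℝ) : sqDist (r⁻¹ • (y - y0)) 0 = (r⁻¹) ^ 2 * sqDist y y0 := by
  rw [wk_sq_smul, wk_sq_sub]

theorem lim_sc_zero {η : ℝ × ℝ → ℝ} {C0 : ℝ} (hη : ∀ y, y ∉ wkBall 0 C0 → η y = 0) (y0 : ℝ × ℝ) {r : ℝ} (hr : 0 < r) {y : ℝ × ℝ}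
    (hy : (C0 * r) ^ 2 < sqDist y y0) : limSc η y0 r y = 0 := by
  apply hη
  intro hmem
  have h1 : sqDist (r⁻¹ • (y - y0)) 0 ≤ C0 ^ 2 := hmem
  rw [lim_sc_sq, inv_pow, inv_mul_le_iff₀ (by positivity)] at h1
  nlinarith

theorem lim_sc_contDiff {η : ℝ × ℝ → ℝ} (hη : ContDiff ℝ ∞ η) (y0 : ℝ × ℝ) (r : ℝ) : ContDiff ℝ ∞ (limSc η y0 r) := by
  unfold limSc
  exact hη.comp (by fun_prop)

theorem lim_sc_compact {η : ℝ × ℝ → ℝ} {C0 : ℝ} (hC0 : 0 ≤ C0) (hη : ∀ y, y ∉ wkBall 0 C0 → η y = 0) (y0 : ℝ × ℝ) {r : ℝ} (hr : 0 < r) :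
    HasCompactSupport (limSc η y0 r) :=
  HasCompactSupport.intro (wk_ball_compact y0 (h := C0 * r) (by positivity)) fun y hy =>
    lim_sc_zero hη y0 hr (not_le.1 hy)

theorem lim_sc_lap (η : ℝ × ℝ → ℝ) (y0 : ℝ × ℝ) (r : ℝ) (y : ℝ × ℝ) :
    lap2 (limSc η y0 r) y = (r ^ 2)⁻¹ * limSc (lap2 η) y0 r y := by
  have := wkg_lap_affine r⁻¹ y0 η y
  unfold limSc
  rw [this, inv_pow]

/-- a compactly supported function vanishes off a Euclidean disc -/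
theorem lim_exists_disc {η : ℝ × ℝ → ℝ} (hη : HasCompactSupport η) : ∃ C0 : ℝ, 1 ≤ C0 ∧ ∀ y, y ∉ wkBall 0 C0 → η y = 0 := by
  obtain ⟨R, hR⟩ := hη.isCompact.isBounded.subset_closedBall 0
  refine ⟨max 1 (2 * R), le_max_left _ _, fun y hy => ?_⟩
  by_contra hne
  have h1 : y ∈ Metric.closedBall (0 : ℝ × ℝ) R := hR (subset_tsupport η hne)
  have h2 := wk_sq_le_of_dist (Metric.mem_closedBall.1 h1)
  apply hy
  have hR0 : 0 ≤ R := dist_nonneg.trans (Metric.mem_closedBall.1 h1)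
  show sqDist y 0 ≤ (max 1 (2 * R)) ^ 2
  exact h2.trans (pow_le_pow_left₀ (by positivity) (le_max_right _ _) 2)

theorem lim_int_lap {φ : ℝ × ℝ → ℝ} (hφ : ContDiff ℝ ∞ φ) (hc : HasCompactSupport φ) : ∫ y, lap2 φ y = 0 := by
  have := wkg_green (D := univ) isOpen_univ (u := fun _ => 1) contDiffOn_const (hφ.of_le (by norm_cast)) hc (subset_univ _)
  have e : lap2 (fun _ : ℝ × ℝ => (1 : ℝ)) = fun _ => 0 := by
    funext z; simp [lap2]
  simpa [e] using this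

theorem lim_dec_geo {D : Set (ℝ × ℝ)} (hD : IsOpen D) {δ : ℕ → ℝ} {F : ℕ → Finset TV} (hF : IsInsideApprox D δ F)
    {K0 : Set (ℝ × ℝ)} (hK0 : IsCompact K0) (hK0D : K0 ⊆ D) {R0 : ℝ} (hR0 : 0 < R0) :
    ∃ cL : ℝ, 0 < cL ∧ ∀ y0 ∈ K0, ∀ s : ℝ, 0 < s → ∀ᶠ n in atTop, ∃ (u0 : TV) (ρ L : ℕ),
      y0 ∈ hexFace (δ n) u0 ∧ 1 ≤ ρ ∧ 2 * s + 2 * δ n ≤ ρ * δ n ∧ (ρ : ℝ) * δ n ≤ 3 * s ∧ cL ≤ L * δ n ∧ latBall u0 L ⊆ latInt (F n) ∧
      ∀ u ∈ latBall u0 L, hexFace (δ n) u ⊆ wkBall y0 R0 := by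
  obtain ⟨c, hc, h1⟩ := hg_latBall_subset_int hD hF hK0 hK0D
  set c' := min c R0 with hc'
  have hc'0 : 0 < c' := lt_min hc hR0
  refine ⟨c' / 2, by positivity, fun y0 hy0 s hs => ?_⟩
  have e1 : ∀ᶠ n in atTop, δ n < s / 3 := hF.2.1.eventually (gt_mem_nhds (by positivity))
  have e2 : ∀ᶠ n in atTop, δ n < c' / 6 := hF.2.1.eventually (gt_mem_nhds (by positivity))
  filter_upwards [h1, e1, e2] with n hn hn1 hn2
  have hδ : 0 < δ n := hF.1 n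
  obtain ⟨u0, hu0⟩ := hg_cover hδ y0
  have hq : 0 < (2 * s + 2 * δ n) / δ n := by positivity
  have hfl : (6 : ℝ) ≤ c' / δ n := by rw [le_div_iff₀ hδ]; linarith
  have hfl1 : (⌊c' / δ n⌋₊ : ℝ) ≤ c' / δ n := Nat.floor_le (by positivity)
  have hfl2 : c' / δ n < (⌊c' / δ n⌋₊ : ℝ) + 1 := Nat.lt_floor_add_one _
  have hfl3 : 2 ≤ ⌊c' / δ n⌋₊ := by
    have : (5 : ℝ) < (⌊c' / δ n⌋₊ : ℝ) := by linarith
    have : 5 < ⌊c' / δ n⌋₊ := by exact_mod_cast this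
    omega
  have hLc : ((⌊c' / δ n⌋₊ - 2 : ℕ) : ℝ) = (⌊c' / δ n⌋₊ : ℝ) - 2 := by
    rw [Nat.cast_sub hfl3]; norm_num
  have hfd : (⌊c' / δ n⌋₊ : ℝ) * δ n ≤ c' := by rwa [← le_div_iff₀ hδ]
  have hfd2 : c' < ((⌊c' / δ n⌋₊ : ℝ) + 1) * δ n := by rwa [← div_lt_iff₀ hδ]
  refine ⟨u0, ⌈(2 * s + 2 * δ n) / δ n⌉₊, ⌊c' / δ n⌋₊ - 2, hu0, Nat.ceil_pos.2 hq, ?_, ?_, ?_, ?_, ?_⟩
  · rw [← div_le_iff₀ hδ]; exact Nat.le_ceil _
  · have := Nat.ceil_lt_add_one hq.le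
    have h2 : (⌈(2 * s + 2 * δ n) / δ n⌉₊ : ℝ) * δ n < ((2 * s + 2 * δ n) / δ n + 1) * δ n := mul_lt_mul_of_pos_right this hδ
    have h3 : ((2 * s + 2 * δ n) / δ n + 1) * δ n = 2 * s + 3 * δ n := by field_simp; ring
    linarith
  · rw [hLc]; nlinarith
  · apply hn u0 ⟨y0, hu0, hy0⟩
    rw [hLc]
    have : c' ≤ c := min_le_left _ _
    nlinarith
  · intro u hu z hz
    rw [lat_mem_ball] at hu
    have a1 := hg_E_face_le hδ hz
    have a2 := hg_E_le_latN hδ u u0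
    have a3 := hg_E_face_le hδ hu0
    have a4 := hg_E_triangle z (triPos (δ n) u) y0
    have a5 := hg_E_triangle (triPos (δ n) u) (triPos (δ n) u0) y0
    rw [hg_E_comm y0] at a3
    have a6 : (latN (u - u0) : ℝ) ≤ (⌊c' / δ n⌋₊ : ℝ) - 2 := by rw [← hLc]; exact_mod_cast hu
    have a7 : δ n * (latN (u - u0) : ℝ) ≤ δ n * ((⌊c' / δ n⌋₊ : ℝ) - 2) := mul_le_mul_of_nonneg_left a6 hδ.le
    have a8 : c' ≤ R0 := min_le_right _ _
    show sqDist z y0 ≤ R0 ^ 2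
    rw [← hg_E_le_iff hR0.le]
    nlinarith

/-- a zero total function of size `B/(9 s²)` carried by the disc of radius `s` around `y0` -/
structure LimLocT (y0 : ℝ × ℝ) (s B : ℝ) (α : ℝ × ℝ → ℝ) : Prop where
  int : Integrable α
  tot : ∫ y, α y = 0
  supp : ∀ y, s ^ 2 < sqDist y y0 → α y = 0
  bd : ∀ y, |α y| ≤ B / (9 * s ^ 2)

theorem lim_dec_obs {δ : ℝ} (hδ : 0 < δ) {F : Finset TV} {α : ℝ × ℝ → ℝ} {y0 : ℝ × ℝ} {s B : ℝ} (hs : 0 ≤ s) (hα : LimLocT y0 s B α)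
    {u0 : TV} (hu0 : y0 ∈ hexFace δ u0) {ρ : ℕ} (hρ : 2 * s + 2 * δ ≤ ρ * δ) (hsub : latBall u0 ρ ⊆ latInt F) :
    (∀ H, htSm δ F α H = ∑ u ∈ latBall u0 ρ, latW δ α u * (H u : ℝ)) ∧ HtLoc (latBall u0 ρ) (htSm δ F α) ∧ HtGrad (htSm δ F α) := by
  have h1 : ∀ H, htSm δ F α H = ∑ u ∈ latBall u0 ρ, latW δ α u * (H u : ℝ) := fun H =>
    hg_latPair_eq hδ hs hα.supp hu0 hρ hsub H
  refine ⟨h1, fun H H' hh => ?_, fun H c => ?_⟩
  · rw [h1, h1]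
    exact Finset.sum_congr rfl fun u hu => by rw [hh u hu]
  · rw [h1, h1]
    have h2 := hg_sum_latW_eq hδ hα.int hs hα.supp hu0 hρ
    rw [hα.tot] at h2
    have : ∀ u ∈ latBall u0 ρ, latW δ α u * ((H u + c : ℤ) : ℝ) = latW δ α u * (H u : ℝ) + latW δ α u * (c : ℝ) := fun u _ => by
      push_cast; ring
    rw [Finset.sum_congr rfl this, Finset.sum_add_distrib, ← Finset.sum_mul, h2, zero_mul, add_zero]

theorem lim_dec_ext {δ : ℝ} {F : Finset TV} {f : ℝ × ℝ → ℝ} {S : Finset TV} (h : ∀ u ∈ S, ∀ y ∈ hexFace δ u, f y = 0) :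
    LimExt S (htSm δ F f) := by
  intro H H' hh
  unfold htSm latPair
  refine Finset.sum_congr rfl fun u _ => ?_
  by_cases hu : u ∈ S
  · rw [hg_latW_eq_zero (h u hu), zero_mul, zero_mul]
  · rw [hh u hu]

theorem lim_ext_prod {S : Finset TV} {k : ℕ} {Y : Fin k → (TV → ℤ) → ℝ} (h : ∀ i, LimExt S (Y i)) : LimExt S fun H => ∏ i, Y i H :=
  fun H H' hh => Finset.prod_congr rfl fun i _ => h i H H' hh

/-- plane moments of a local zero total smeared field -/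
theorem lim_dec_momP {x v : ℝ} (hP : LimPlane x v) (m : ℕ) :
    ∃ C : ℝ, ∀ (δ : ℝ) (F : Finset TV) (α : ℝ × ℝ → ℝ) (y0 : ℝ × ℝ) (s B : ℝ) (u0 : TV) (ρ : ℕ), 0 < δ → 0 < s → 0 < B → LimLocT y0 s B α →
      y0 ∈ hexFace δ u0 → 1 ≤ ρ → 2 * s + 2 * δ ≤ ρ * δ → (ρ : ℝ) * δ ≤ 3 * s → latBall u0 ρ ⊆ latInt F →
      htPl x (fun H => htSm δ F α H ^ (2 * m)) ≤ C * B ^ (2 * m) := by
  obtain ⟨C, hC⟩ := hP.mom m
  refine ⟨C, fun δ F α y0 s B u0 ρ hδ hs hB hα hu0 hρ1 hρ hρ2 hsub => ?_⟩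
  obtain ⟨h1, -, -⟩ := lim_dec_obs hδ hs.le hα hu0 hρ hsub
  have hρ0 : (0 : ℝ) < ρ := by exact_mod_cast hρ1
  have hw : ∀ u, |latW δ α u / B| ≤ 1 / (ρ : ℝ) ^ 2 := by
    intro u
    have a1 := hg_abs_latW_le hδ u hα.bd
    have a2 : Real.sqrt 3 / 2 ≤ 1 := by
      have : Real.sqrt 3 ≤ 2 := by
        rw [show (2 : ℝ) = Real.sqrt 4 by rw [show (4 : ℝ) = 2 ^ 2 by norm_num, Real.sqrt_sq (by norm_num)]]
        exact Real.sqrt_le_sqrt (by norm_num)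
      linarith
    have a3 : B / (9 * s ^ 2) * (Real.sqrt 3 / 2 * δ ^ 2) ≤ B / (9 * s ^ 2) * δ ^ 2 := by
      refine mul_le_mul_of_nonneg_left ?_ (by positivity)
      nlinarith [sq_nonneg δ]
    have a4 : ((ρ : ℝ) * δ) ^ 2 ≤ (3 * s) ^ 2 := pow_le_pow_left₀ (by positivity) hρ2 2
    rw [abs_div, abs_of_pos hB, div_le_div_iff₀ hB (by positivity), one_mul]
    have a5 : B / (9 * s ^ 2) * δ ^ 2 * (ρ : ℝ) ^ 2 ≤ B := by
      rw [div_mul_eq_mul_div, div_mul_eq_mul_div, div_le_iff₀ (by positivity)]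
      nlinarith
    have a6 : |latW δ α u| * (ρ : ℝ) ^ 2 ≤ B / (9 * s ^ 2) * δ ^ 2 * (ρ : ℝ) ^ 2 :=
      mul_le_mul_of_nonneg_right (a1.trans a3) (by positivity)
    linarith
  have hz : ∑ u ∈ latBall u0 ρ, latW δ α u / B = 0 := by
    rw [← Finset.sum_div, hg_sum_latW_eq hδ hα.int hs.le hα.supp hu0 hρ, hα.tot, zero_div]
  have key := hC u0 ρ (fun u => latW δ α u / B) hρ1 hw hz
  have lG : HtLoc (latBall u0 ρ) fun H : TV → ℤ => ∑ u ∈ latBall u0 ρ, latW δ α u / B * (H u : ℝ) := fun H H' hh =>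
    Finset.sum_congr rfl fun u hu => by rw [hh u hu]
  have gG : HtGrad fun H : TV → ℤ => ∑ u ∈ latBall u0 ρ, latW δ α u / B * (H u : ℝ) := fun H c => by
    have : ∀ u ∈ latBall u0 ρ, latW δ α u / B * ((H u + c : ℤ) : ℝ) = latW δ α u / B * (H u : ℝ) + latW δ α u / B * (c : ℝ) := fun u _ => by
      push_cast; ring
    show ∑ u ∈ latBall u0 ρ, latW δ α u / B * ((H u + c : ℤ) : ℝ) = ∑ u ∈ latBall u0 ρ, latW δ α u / B * (H u : ℝ)
    rw [Finset.sum_congr rfl this, Finset.sum_add_distrib, ← Finset.sum_mul, hz, zero_mul, add_zero]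
  have e : (fun H => htSm δ F α H ^ (2 * m)) = fun H => B ^ (2 * m) * (∑ u ∈ latBall u0 ρ, latW δ α u / B * (H u : ℝ)) ^ (2 * m) := by
    funext H
    rw [h1, ← mul_pow, Finset.mul_sum]
    congr 1
    refine Finset.sum_congr rfl fun u _ => ?_
    field_simp
  rw [e, lim_pl_smul hP.toLimPl0 (lim_loc_comp lG (· ^ (2 * m))) (lim_grad_comp gG (· ^ (2 * m))), mul_comm]
  exact mul_le_mul_of_nonneg_right key (by positivity)

/-- even moments of a product of fixed smeared fields are bounded, eventually -/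
theorem lim_dec_momPhi {x : ℝ} (hx : 0 < x) (hSM : LimSM x) {D : Set (ℝ × ℝ)} (hD : IsOpen D) (hB : Bornology.IsBounded D)
    {δ : ℕ → ℝ} {F : ℕ → Finset TV} (hF : IsInsideApprox D δ F) {k : ℕ} (f : Fin k → ℝ × ℝ → ℝ) (hf : ∀ i, WkTest D (f i)) (p : ℕ) :
    ∃ a : ℝ, ∀ᶠ n in atTop, htFz x (F n) (fun H => (∏ i, htSm (δ n) (F n) (f i) H) ^ (2 * p)) ≤ a := by
  have hK : IsCompact (⋃ i, tsupport (f i)) := isCompact_iUnion fun i => (hf i).comp.isCompact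
  have hKD : (⋃ i, tsupport (f i)) ⊆ D := iUnion_subset fun i => (hf i).sub
  choose Cf hCf using fun i => (hf i).cont.bounded_above_of_compact_support (hf i).comp
  set Mf : ℝ := 1 + ∑ i, |Cf i| with hMf
  have hS : 0 ≤ ∑ i, |Cf i| := Finset.sum_nonneg fun i _ => abs_nonneg _
  have hMf0 : 0 < Mf := by linarith
  have hbd : ∀ i y, |f i y| ≤ Mf := fun i y => by
    have h1 := hCf i y
    rw [Real.norm_eq_abs] at h1
    have h2 : |Cf i| ≤ ∑ i, |Cf i| := Finset.single_le_sum (f := fun i => |Cf i|) (fun i _ => abs_nonneg _) (Finset.mem_univ i)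
    have h3 := le_abs_self (Cf i)
    linarith
  obtain ⟨C, hC, hev⟩ := lim_sm_fixed hx hSM hD hB hF hK hKD (2 * p * k)
  refine ⟨(1 + k * C) * ∏ _i : Fin k, Mf ^ (2 * p), ?_⟩
  filter_upwards [hev] with n hn
  have h1 : ∀ i, htE x (latInt (F n)) 0 (fun H => (htSm (δ n) (F n) (f i) H ^ (2 * p)) ^ (2 * k)) ≤ C * (Mf ^ (2 * p)) ^ (2 * k) := by
    intro i
    have := hn Mf (f i) (hbd i) fun y hy => by
      by_contra hne
      exact hy (mem_iUnion.2 ⟨i, subset_tsupport _ hne⟩)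
    have e1 : ∀ t : ℝ, (t ^ (2 * p)) ^ (2 * k) = t ^ (2 * (2 * p * k)) := fun t => by
      rw [← pow_mul]; congr 1; ring
    simp only [e1]
    exact this
  have h2 := lim_E_prod_le hx (latInt (F n)) 0 (fun i H => htSm (δ n) (F n) (f i) H ^ (2 * p)) (fun _ => Mf ^ (2 * p))
    (fun _ => by positivity) h1
  refine le_trans (le_of_eq ?_) h2
  unfold htFz
  congr 1
  funext H
  rw [Finset.prod_pow, abs_of_nonneg]
  rw [pow_mul]; positivity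

theorem lim_mul_pow_le (p q : ℝ) (m : ℕ) : (p * q) ^ m ≤ 2⁻¹ * (p ^ (2 * m) + q ^ (2 * m)) := by
  have h := sq_nonneg (p ^ m - q ^ m)
  rw [mul_pow, pow_mul' p 2 m, pow_mul' q 2 m]
  nlinarith

/-- moments of a product of two fields from the moments of the factors -/
theorem lim_dec_momG {x : ℝ} (hx : 0 < x) (A : Finset TV) (b : TV → ℤ) (X1 X2 : (TV → ℤ) → ℝ) (m : ℕ) {c : ℝ}
    (h1 : htE x A b (fun H => X1 H ^ (2 * m)) ≤ c) (h2 : htE x A b (fun H => X2 H ^ (2 * m)) ≤ c) :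
    htE x A b (fun H => (X1 H * X2 H) ^ m) ≤ c := by
  refine (ht_E_mono hx _ _ fun H _ => lim_mul_pow_le (X1 H) (X2 H) m).trans ?_
  rw [ht_E_smul, ht_E_add]
  linarith

theorem lim_dec_momGP {x v : ℝ} (hx : 0 < x) (hP : LimPlane x v) {S : Finset TV} {X1 X2 : (TV → ℤ) → ℝ} (l1 : HtLoc S X1) (g1 : HtGrad X1)
    (l2 : HtLoc S X2) (g2 : HtGrad X2) (m : ℕ) {c : ℝ}
    (h1 : htPl x (fun H => X1 H ^ (2 * m)) ≤ c) (h2 : htPl x (fun H => X2 H ^ (2 * m)) ≤ c) :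
    htPl x (fun H => (X1 H * X2 H) ^ m) ≤ c := by
  refine (lim_pl_mono hx hP.toLimPl0 (lim_loc_comp2 l1 l2 fun t t' => (t * t') ^ m) (lim_grad_comp2 g1 g2 fun t t' => (t * t') ^ m)
    (lim_loc_comp2 l1 l2 fun t t' => 2⁻¹ * (t ^ (2 * m) + t' ^ (2 * m))) (lim_grad_comp2 g1 g2 fun t t' => 2⁻¹ * (t ^ (2 * m) + t' ^ (2 * m)))
    fun H => lim_mul_pow_le (X1 H) (X2 H) m).trans ?_
  rw [lim_pl_smul hP.toLimPl0 (lim_loc_comp2 l1 l2 fun t t' => t ^ (2 * m) + t' ^ (2 * m)) (lim_grad_comp2 g1 g2 fun t t' => t ^ (2 * m) + t' ^ (2 * m)),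
    lim_pl_add hP.toLimPl0 (lim_loc_comp l1 (· ^ (2 * m))) (lim_grad_comp g1 (· ^ (2 * m))) (lim_loc_comp l2 (· ^ (2 * m))) (lim_grad_comp g2 (· ^ (2 * m)))]
  linarith

theorem lim_dec_arith {C κ cL s M ℓ4 q : ℝ} (hC : 0 < C) (hκ : 0 < κ) (hcL : 0 < cL) (hs : 0 < s) (hM : 0 < M) (hl4 : 1 ≤ ℓ4)
    (hq0 : 0 ≤ q) (hq : q ≤ 3 / cL * s) (a b0 c : ℝ) :
    M ^ 2 * (C * q ^ κ) + (a + b0 * ℓ4 + a * ((1 + c) / 2) + (1 + a) / 2 * c) / M
      ≤ max (C * (3 / cL) ^ κ) (|a| + b0 + |a * ((1 + c) / 2)| + |(1 + a) / 2 * c|) * (M ^ 2 * s ^ κ + ℓ4 / M) := by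
  have hpow : q ^ κ ≤ (3 / cL) ^ κ * s ^ κ := by
    rw [← Real.mul_rpow (by positivity) hs.le]
    exact Real.rpow_le_rpow hq0 hq hκ.le
  have hsk : 0 < s ^ κ := Real.rpow_pos_of_pos hs κ
  have t1 : M ^ 2 * (C * q ^ κ) ≤ max (C * (3 / cL) ^ κ) (|a| + b0 + |a * ((1 + c) / 2)| + |(1 + a) / 2 * c|) * (M ^ 2 * s ^ κ) := by
    have h1 : M ^ 2 * (C * q ^ κ) ≤ M ^ 2 * (C * ((3 / cL) ^ κ * s ^ κ)) :=
      mul_le_mul_of_nonneg_left (mul_le_mul_of_nonneg_left hpow hC.le) (by positivity)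
    have h2 : M ^ 2 * (C * ((3 / cL) ^ κ * s ^ κ)) = C * (3 / cL) ^ κ * (M ^ 2 * s ^ κ) := by ring
    rw [h2] at h1
    exact h1.trans (mul_le_mul_of_nonneg_right (le_max_left _ _) (by positivity))
  have t2 : (a + b0 * ℓ4 + a * ((1 + c) / 2) + (1 + a) / 2 * c) / M
      ≤ max (C * (3 / cL) ^ κ) (|a| + b0 + |a * ((1 + c) / 2)| + |(1 + a) / 2 * c|) * (ℓ4 / M) := by
    have h1 : a + b0 * ℓ4 + a * ((1 + c) / 2) + (1 + a) / 2 * c ≤ (|a| + b0 + |a * ((1 + c) / 2)| + |(1 + a) / 2 * c|) * ℓ4 := by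
      have e1 := le_abs_self a
      have e2 := le_abs_self (a * ((1 + c) / 2))
      have e3 := le_abs_self ((1 + a) / 2 * c)
      have e4 : |a| ≤ |a| * ℓ4 := le_mul_of_one_le_right (abs_nonneg _) hl4
      have e5 : |a * ((1 + c) / 2)| ≤ |a * ((1 + c) / 2)| * ℓ4 := le_mul_of_one_le_right (abs_nonneg _) hl4
      have e6 : |(1 + a) / 2 * c| ≤ |(1 + a) / 2 * c| * ℓ4 := le_mul_of_one_le_right (abs_nonneg _) hl4
      rw [add_mul, add_mul, add_mul]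
      linarith
    have h2 : (|a| + b0 + |a * ((1 + c) / 2)| + |(1 + a) / 2 * c|) * ℓ4
        ≤ max (C * (3 / cL) ^ κ) (|a| + b0 + |a * ((1 + c) / 2)| + |(1 + a) / 2 * c|) * ℓ4 :=
      mul_le_mul_of_nonneg_right (le_max_right _ _) (by linarith)
    refine (div_le_div_of_nonneg_right (h1.trans h2) hM.le).trans (le_of_eq ?_)
    exact mul_div_assoc _ _ _
  rw [mul_add]
  exact add_le_add t1 t2

/-- the local decoupling estimate -/
theorem lim_dec_loc {x v : ℝ} (hx : 0 < x) (hP : LimPlane x v) (hSM : LimSM x) {D : Set (ℝ × ℝ)} (hD : IsOpen D) (hB : Bornology.IsBounded D)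
    {δ : ℕ → ℝ} {F : ℕ → Finset TV} (hF : IsInsideApprox D δ F) {K0 : Set (ℝ × ℝ)} (hK0 : IsCompact K0) {R0 : ℝ} (hR0 : 0 < R0)
    (hsub : ∀ y0 ∈ K0, wkBall y0 R0 ⊆ D) {k : ℕ} (f : Fin k → ℝ × ℝ → ℝ) (hf : ∀ i, WkTest D (f i))
    (hf0 : ∀ i, ∀ y0 ∈ K0, ∀ y ∈ wkBall y0 R0, f i y = 0) {B : ℝ} (hB0 : 0 < B) :
    ∃ K1 κ s0 : ℝ, 0 < K1 ∧ 0 < κ ∧ 0 < s0 ∧ s0 ≤ 1 ∧ ∀ y0 ∈ K0, ∀ s : ℝ, 0 < s → s ≤ s0 → ∀ᶠ n in atTop, ∀ α1 α2 : ℝ × ℝ → ℝ,
      LimLocT y0 s B α1 → LimLocT y0 s B α2 → ∀ M : ℝ, 0 < M →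
      |htFz x (F n) (fun H => (∏ i, htSm (δ n) (F n) (f i) H) * (htSm (δ n) (F n) α1 H * htSm (δ n) (F n) α2 H))
        - limM x (δ n) (F n) f * htPl x (fun H => htSm (δ n) (F n) α1 H * htSm (δ n) (F n) α2 H)|
        ≤ K1 * (M ^ 2 * s ^ κ + (1 + Real.log (1 / s)) ^ 4 / M) := by
  obtain ⟨C, κ, hC, hκ, Hcore⟩ := lim_dec_core hx hP.toLimPl0
  have hK0D : K0 ⊆ D := fun y hy => hsub y hy (by
    show sqDist y y ≤ R0 ^ 2
    rw [hg_sqDist_self]; positivity)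
  obtain ⟨cL, hcL, Hgeo⟩ := lim_dec_geo hD hF hK0 hK0D hR0
  obtain ⟨a2, ha2⟩ := lim_dec_momPhi hx hSM hD hB hF f hf 1
  obtain ⟨a4, ha4⟩ := lim_dec_momPhi hx hSM hD hB hF f hf 2
  obtain ⟨C2, r2, hC2, hr2, -, H2⟩ := lim_sm_small hx hSM hD hB hF hK0 hK0D 2
  obtain ⟨C4, r4, hC4, hr4, -, H4⟩ := lim_sm_small hx hSM hD hB hF hK0 hK0D 4
  obtain ⟨Cp, HCp⟩ := lim_dec_momP hP 2
  set a : ℝ := max a2 a4 with ha
  set b0 : ℝ := C2 * (B / 9) ^ 4 + C4 * (B / 9) ^ 8 with hb0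
  set c : ℝ := Cp * B ^ 4 with hc
  set K' : ℝ := |a| + b0 + |a * ((1 + c) / 2)| + |(1 + a) / 2 * c| with hK'
  have hb0' : 0 < b0 := by positivity
  have hK'0 : 0 < K' := by positivity
  have hq : 0 < C * (3 / cL) ^ κ := by positivity
  refine ⟨max (C * (3 / cL) ^ κ) K', κ, min (min r2 r4) (min 1 (min (cL / 3) (cL / (3 * C)))), lt_max_of_lt_left hq, hκ,
    by positivity, (min_le_right _ _).trans (min_le_left _ _), fun y0 hy0 s hs hs0 => ?_⟩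
  have hsr2 : s ≤ r2 := hs0.trans ((min_le_left _ _).trans (min_le_left _ _))
  have hsr4 : s ≤ r4 := hs0.trans ((min_le_left _ _).trans (min_le_right _ _))
  have hs1 : s ≤ 1 := hs0.trans ((min_le_right _ _).trans (min_le_left _ _))
  have hs3 : s ≤ cL / 3 := hs0.trans ((min_le_right _ _).trans ((min_le_right _ _).trans (min_le_left _ _)))
  have hs4 : s ≤ cL / (3 * C) := hs0.trans ((min_le_right _ _).trans ((min_le_right _ _).trans (min_le_right _ _)))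
  have hl : 1 ≤ 1 + Real.log (1 / s) := by
    have : 0 ≤ Real.log (1 / s) := Real.log_nonneg (by rw [le_div_iff₀ hs]; linarith)
    linarith
  set ℓ : ℝ := 1 + Real.log (1 / s) with hℓ
  have hl2 : ℓ ^ 2 ≤ ℓ ^ 4 := pow_le_pow_right₀ hl (by norm_num)
  have hl4 : 1 ≤ ℓ ^ 4 := one_le_pow₀ hl
  filter_upwards [Hgeo y0 hy0 s hs, ha2, ha4, H2 y0 hy0 s hs hsr2, H4 y0 hy0 s hs hsr4] with n hgeo h2 h4 hs2 hs4' α1 α2 hα1 hα2 M hM
  obtain ⟨u0, ρ, L, hu0, hρ1, hρ, hρ2, hL, hLsub, hLface⟩ := hgeo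
  have hδ : 0 < δ n := hF.1 n
  have hρL : ρ ≤ L := by
    have : (ρ : ℝ) * δ n ≤ L * δ n := by linarith
    exact_mod_cast le_of_mul_le_mul_right this hδ
  have hCρ : C * ρ ≤ L := by
    have h1 : C * ρ * δ n ≤ L * δ n := by
      have : C * (3 * s) ≤ cL := by
        rw [le_div_iff₀ (by positivity)] at hs4
        linarith
      have h3 : C * (ρ * δ n) ≤ C * (3 * s) := mul_le_mul_of_nonneg_left hρ2 hC.le
      linarith
    exact le_of_mul_le_mul_right h1 hδ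
  have hρsub : latBall u0 ρ ⊆ latInt (F n) := (hg_latBall_mono u0 hρL).trans hLsub
  obtain ⟨-, l1, g1⟩ := lim_dec_obs hδ hs.le hα1 hu0 hρ hρsub
  obtain ⟨-, l2, g2⟩ := lim_dec_obs hδ hs.le hα2 hu0 hρ hρsub
  have hΦ : LimExt (latBall u0 L) fun H => ∏ i, htSm (δ n) (F n) (f i) H :=
    lim_ext_prod fun i => lim_dec_ext fun u hu y hy => hf0 i y0 hy0 y (hLface u hu hy)
  have lG := lim_loc_comp2 l1 l2 (· * ·)
  have gG := lim_grad_comp2 g1 g2 (· * ·)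
  have hMs : B / (9 * s ^ 2) * s ^ 2 = B / 9 := by field_simp
  have hoff : ∀ {α : ℝ × ℝ → ℝ}, LimLocT y0 s B α → ∀ y, y ∉ wkBall y0 s → α y = 0 := fun hα y hy => hα.supp y (not_le.1 hy)
  -- moments of the two local fields
  have m41 := hs2 _ α1 hα1.bd (hoff hα1)
  have m42 := hs2 _ α2 hα2.bd (hoff hα2)
  have m81 := hs4' _ α1 hα1.bd (hoff hα1)
  have m82 := hs4' _ α2 hα2.bd (hoff hα2)
  rw [hMs] at m41 m42 m81 m82
  have hG2 : htFz x (F n) (fun H => (htSm (δ n) (F n) α1 H * htSm (δ n) (F n) α2 H) ^ 2) ≤ b0 * ℓ ^ 4 := by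
    have e1 : C2 * (B / 9) ^ (2 * 2) * ℓ ^ 2 ≤ b0 * ℓ ^ 4 := by
      have e0 : C2 * (B / 9) ^ (2 * 2) * ℓ ^ 2 ≤ C2 * (B / 9) ^ 4 * ℓ ^ 4 := mul_le_mul_of_nonneg_left hl2 (by positivity)
      have e2 : 0 ≤ C4 * (B / 9) ^ 8 * ℓ ^ 4 := by positivity
      rw [hb0, add_mul]
      linarith
    exact lim_dec_momG hx _ _ _ _ 2 (m41.trans e1) (m42.trans e1)
  have hG4 : htFz x (F n) (fun H => (htSm (δ n) (F n) α1 H * htSm (δ n) (F n) α2 H) ^ 4) ≤ b0 * ℓ ^ 4 := by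
    have e1 : C4 * (B / 9) ^ (2 * 4) * ℓ ^ 4 ≤ b0 * ℓ ^ 4 := by
      have e2 : 0 ≤ C2 * (B / 9) ^ 4 * ℓ ^ 4 := by positivity
      have e3 : C4 * (B / 9) ^ (2 * 4) * ℓ ^ 4 = C4 * (B / 9) ^ 8 * ℓ ^ 4 := by norm_num
      rw [hb0, add_mul]
      linarith
    exact lim_dec_momG hx _ _ _ _ 4 (m81.trans e1) (m82.trans e1)
  have hPG : htPl x (fun H => (htSm (δ n) (F n) α1 H * htSm (δ n) (F n) α2 H) ^ 2) ≤ c :=
    lim_dec_momGP hx hP l1 g1 l2 g2 2 (HCp (δ n) (F n) α1 y0 s B u0 ρ hδ hs hB0 hα1 hu0 hρ1 hρ hρ2 hρsub)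
      (HCp (δ n) (F n) α2 y0 s B u0 ρ hδ hs hB0 hα2 hu0 hρ1 hρ hρ2 hρsub)
  have hΦ2 : htFz x (F n) (fun H => (∏ i, htSm (δ n) (F n) (f i) H) ^ 2) ≤ a := by
    have : htFz x (F n) (fun H => (∏ i, htSm (δ n) (F n) (f i) H) ^ 2) ≤ a2 := by simpa using h2
    exact this.trans (le_max_left _ _)
  have hΦ4 : htFz x (F n) (fun H => (∏ i, htSm (δ n) (F n) (f i) H) ^ 4) ≤ a := by
    have : htFz x (F n) (fun H => (∏ i, htSm (δ n) (F n) (f i) H) ^ 4) ≤ a4 := by simpa using h4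
    exact this.trans (le_max_right _ _)
  have key := Hcore (F n) u0 ρ L (fun u w hu hw => hg_compl_reach hF n hu hw) hρ1 hCρ (hLsub.trans (lat_int_sub _)) _ _ hΦ lG gG a (b0 * ℓ ^ 4) c
    hΦ2 hΦ4 hG2 hG4 hPG M hM
  refine key.trans ?_
  -- arithmetic
  have hL0 : (0 : ℝ) < L := by
    have : 0 < (L : ℝ) * δ n := lt_of_lt_of_le hcL hL
    by_contra h
    have h' : (L : ℝ) ≤ 0 := not_lt.1 h
    have h'' : (L : ℝ) * δ n ≤ 0 := mul_nonpos_of_nonpos_of_nonneg h' hδ.le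
    linarith
  have hratio : (ρ : ℝ) / L ≤ 3 / cL * s := by
    rw [div_le_iff₀ hL0]
    have h1 : (ρ : ℝ) * δ n * cL ≤ 3 * s * (L * δ n) := by
      calc (ρ : ℝ) * δ n * cL ≤ 3 * s * cL := mul_le_mul_of_nonneg_right hρ2 hcL.le
        _ ≤ 3 * s * (L * δ n) := mul_le_mul_of_nonneg_left hL (by positivity)
    have h2 : (ρ : ℝ) * cL ≤ 3 * s * L := by
      have : (ρ : ℝ) * cL * δ n ≤ 3 * s * L * δ n := by linarith
      exact le_of_mul_le_mul_right this hδ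
    rw [div_mul_eq_mul_div, div_mul_eq_mul_div, le_div_iff₀ hcL]
    linarith
  exact lim_dec_arith hC hκ hcL hs hM hl4 (by positivity) hratio a b0 c

/-! ### the rate -/

theorem lim_dec_rate {κ : ℝ} (hκ : 0 < κ) :
    Tendsto (fun s : ℝ => (s ^ (-(κ / 3))) ^ 2 * s ^ κ + (1 + Real.log (1 / s)) ^ 4 / s ^ (-(κ / 3))) (𝓝[>] 0) (𝓝 0) := by
  have ht : 0 < κ / 12 := by positivity
  have h1 : Tendsto (fun s : ℝ => s ^ (κ / 12)) (𝓝[>] 0) (𝓝 0) := by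
    have := (Real.continuous_rpow_const ht.le).tendsto 0
    rw [Real.zero_rpow ht.ne'] at this
    exact this.mono_left nhdsWithin_le_nhds
  have h2 := tendsto_log_mul_rpow_nhdsGT_zero ht
  have h3 : Tendsto (fun s : ℝ => s ^ (κ / 12) - Real.log s * s ^ (κ / 12)) (𝓝[>] 0) (𝓝 0) := by
    simpa using h1.sub h2
  have h4 : Tendsto (fun s : ℝ => (s ^ (κ / 12)) ^ 4 + (s ^ (κ / 12) - Real.log s * s ^ (κ / 12)) ^ 4) (𝓝[>] 0) (𝓝 0) := by
    simpa using (h1.pow 4).add (h3.pow 4)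
  refine h4.congr' ?_
  filter_upwards [self_mem_nhdsWithin] with s hs
  have hs' : 0 < s := hs
  have e1 : (s ^ (κ / 12)) ^ 4 = s ^ (κ / 3) := by
    rw [← Real.rpow_natCast, ← Real.rpow_mul hs'.le]; congr 1; push_cast; ring
  have e2 : (s ^ (-(κ / 3))) ^ 2 * s ^ κ = s ^ (κ / 3) := by
    rw [← Real.rpow_natCast, ← Real.rpow_mul hs'.le, ← Real.rpow_add hs']; congr 1; push_cast; ring
  have e3 : (1 + Real.log (1 / s)) ^ 4 / s ^ (-(κ / 3)) = (1 + Real.log (1 / s)) ^ 4 * s ^ (κ / 3) := by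
    rw [Real.rpow_neg hs'.le, div_inv_eq_mul]
  have e4 : Real.log (1 / s) = -Real.log s := by rw [one_div, Real.log_inv]
  rw [e2, e3, e4, ← e1]
  ring

/-! ### the two tests -/

theorem lim_zero_off_lap {η : ℝ × ℝ → ℝ} {C0 : ℝ} (hη : ∀ y, y ∉ wkBall 0 C0 → η y = 0) : ∀ y, y ∉ wkBall 0 C0 → lap2 η y = 0 := by
  intro y hy
  apply image_eq_zero_of_notMem_tsupport
  intro h
  have h1 : tsupport η ⊆ wkBall 0 C0 := closure_minimal (fun z hz => by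
    by_contra hn
    exact hz (hη z hn)) (wk_ball_closed 0 C0)
  exact hy (h1 (wkg_lap_tsupport η h))

theorem lim_dec_testV {β : ℝ × ℝ → ℝ} (hβ : Continuous β) {C0 A B : ℝ} (hC0 : 0 < C0) (hβ0 : ∀ y, y ∉ wkBall 0 C0 → β y = 0)
    (hA : ∀ y, |β y| ≤ A) (hB : 9 * C0 ^ 2 * A ≤ B) (hint : ∫ y, β y = 0) (y0 : ℝ × ℝ) {r : ℝ} (hr : 0 < r) :
    LimLocT y0 (C0 * r) B fun y => (r ^ 2)⁻¹ * limSc β y0 r y := by
  have hc : Continuous (limSc β y0 r) := by unfold limSc; fun_prop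
  have hcs := lim_sc_compact hC0.le hβ0 y0 hr
  refine ⟨(hc.integrable_of_hasCompactSupport hcs).const_mul _, ?_, fun y hy => ?_, fun y => ?_⟩
  · rw [integral_const_mul]
    have := lim_int_sc β y0 hr
    unfold limSc
    rw [this, hint]; simp
  · rw [lim_sc_zero hβ0 y0 hr hy, mul_zero]
  · rw [abs_mul, abs_of_pos (by positivity : 0 < (r ^ 2)⁻¹)]
    have h1 : |limSc β y0 r y| ≤ A := hA _
    have h2 : (r ^ 2)⁻¹ * |limSc β y0 r y| ≤ (r ^ 2)⁻¹ * A := mul_le_mul_of_nonneg_left h1 (by positivity)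
    refine h2.trans ?_
    rw [le_div_iff₀ (by positivity)]
    have : (r ^ 2)⁻¹ * A * (9 * (C0 * r) ^ 2) = 9 * C0 ^ 2 * A := by field_simp
    rw [this]; exact hB

theorem lim_dec_testU {η : ℝ × ℝ → ℝ} (hη : ContDiff ℝ ∞ η) {C0 A B : ℝ} (hC0 : 0 < C0) (hη0 : ∀ y, y ∉ wkBall 0 C0 → η y = 0)
    (hA : ∀ y, |lap2 η y| ≤ A) (hB : 9 * C0 ^ 2 * A ≤ B) (y0 : ℝ × ℝ) {r : ℝ} (hr : 0 < r) :
    LimLocT y0 (C0 * r) B fun y => -lap2 (limSc η y0 r) y := by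
  have hcs : HasCompactSupport η := HasCompactSupport.intro (wk_ball_compact 0 hC0.le) hη0
  have h := lim_dec_testV (β := fun y => -lap2 η y) (wkg_lap_smooth hη).continuous.neg hC0
    (fun y hy => by rw [lim_zero_off_lap hη0 y hy, neg_zero]) (fun y => by rw [abs_neg]; exact hA y) hB
    (by rw [integral_neg, lim_int_lap hη hcs, neg_zero]) y0 hr
  have e : (fun y => -lap2 (limSc η y0 r) y) = fun y => (r ^ 2)⁻¹ * limSc (fun y => -lap2 η y) y0 r y := by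
    funext y
    rw [lim_sc_lap]
    unfold limSc
    ring
  rw [e]
  exact h

theorem lim_tsupport_sub {α : ℝ × ℝ → ℝ} {y0 : ℝ × ℝ} {s : ℝ} (h : ∀ y, s ^ 2 < sqDist y y0 → α y = 0) : tsupport α ⊆ wkBall y0 s :=
  closure_minimal (fun z hz => by
    by_contra hn
    exact hz (h z (not_le.1 hn))) (wk_ball_closed y0 s)

/-- the pairing over a larger finite set of faces -/
theorem lim_pair_eq {δ : ℝ} {α : ℝ × ℝ → ℝ} {y0 : ℝ × ℝ} {s : ℝ} (h : ∀ y, s ^ 2 < sqDist y y0 → α y = 0) {A S : Finset TV} (hAS : A ⊆ S)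
    (hA : ∀ u, (hexFace δ u ∩ wkBall y0 s).Nonempty → u ∈ A) (H : TV → ℤ) : latPair δ α S H = latPair δ α A H := by
  unfold latPair
  symm
  refine Finset.sum_subset hAS fun u _ hu => ?_
  rw [hg_latW_eq_zero, zero_mul]
  intro y hy
  apply h
  by_contra hn
  exact hu (hA u ⟨y, hy, not_lt.1 hn⟩)

theorem lim_dec_cov {x v : ℝ} (hP : LimPlane x v) {D : Set (ℝ × ℝ)} (hD : IsOpen D) {δ : ℕ → ℝ} {F : ℕ → Finset TV} (hF : IsInsideApprox D δ F)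
    {η β : ℝ × ℝ → ℝ} (hη : ContDiff ℝ ∞ η) (hβ : ContDiff ℝ ∞ β) {C0 : ℝ} (hC0 : 0 < C0) (hη0 : ∀ y, y ∉ wkBall 0 C0 → η y = 0)
    (hβ0 : ∀ y, y ∉ wkBall 0 C0 → β y = 0) (hint : ∫ y, β y = 0) {y0 : ℝ × ℝ} {r : ℝ} (hr : 0 < r) (hsub : wkBall y0 (C0 * r) ⊆ D) :
    Tendsto (fun n => htPl x fun H => htSm (δ n) (F n) (fun y => -lap2 (limSc η y0 r) y) H * htSm (δ n) (F n) (fun y => (r ^ 2)⁻¹ * limSc β y0 r y) H)
      atTop (𝓝 (v * ∫ y, η y * β y)) := by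
  have hs : 0 < C0 * r := by positivity
  set s := C0 * r with hsdef
  have zU : ∀ y, s ^ 2 < sqDist y y0 → -lap2 (limSc η y0 r) y = 0 := fun y hy => by
    rw [lim_sc_lap, lim_sc_zero (lim_zero_off_lap hη0) y0 hr hy, mul_zero, neg_zero]
  have zE : ∀ y, s ^ 2 < sqDist y y0 → limSc η y0 r y = 0 := fun y hy => lim_sc_zero hη0 y0 hr hy
  have zV : ∀ y, s ^ 2 < sqDist y y0 → (r ^ 2)⁻¹ * limSc β y0 r y = 0 := fun y hy => by
    rw [lim_sc_zero hβ0 y0 hr hy, mul_zero]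
  set S : ℕ → Finset TV := fun n => latInt (F n) ∪ (hg_finite_near (hF.1 n) y0 ((s + δ n) ^ 2)).toFinset with hS
  have hmeet : ∀ n w, (hexFace (δ n) w ∩ wkBall y0 s).Nonempty → w ∈ S n := by
    rintro n w ⟨z, hz1, hz2⟩
    refine Finset.mem_union_right _ ?_
    rw [Set.Finite.mem_toFinset]
    show sqDist y0 (triPos (δ n) w) ≤ (s + δ n) ^ 2
    have hδ := hF.1 n
    rw [← hg_E_le_iff (by positivity)]
    have a1 := hg_E_triangle y0 z (triPos (δ n) w)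
    have a2 := hg_E_face_le hδ hz1
    have a3 : hgE y0 z ≤ s := by rw [hg_E_comm, hg_E_le_iff hs.le]; exact hz2
    linarith
  have hcov := hP.cov (limSc η y0 r) (fun y => (r ^ 2)⁻¹ * limSc β y0 r y) (lim_sc_contDiff hη y0 r) (lim_sc_compact hC0.le hη0 y0 hr)
    (contDiff_const.mul (lim_sc_contDiff hβ y0 r)) ((lim_sc_compact hC0.le hβ0 y0 hr).mul_left)
    (by
      rw [integral_const_mul]
      have := lim_int_sc β y0 hr
      unfold limSc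
      rw [this, hint]; simp) δ S hF.1 hF.2.1
    (by
      rintro n w ⟨z, hz1, hz2⟩
      refine hmeet n w ⟨z, hz1, ?_⟩
      rcases hz2 with h | h
      · exact lim_tsupport_sub zE h
      · exact lim_tsupport_sub zV h)
  have eI : ∫ y, limSc η y0 r y * ((r ^ 2)⁻¹ * limSc β y0 r y) = ∫ y, η y * β y := by
    have h1 := lim_int_sc (fun y => η y * β y) y0 hr
    have h2 : (fun y => limSc η y0 r y * ((r ^ 2)⁻¹ * limSc β y0 r y)) = fun y => (r ^ 2)⁻¹ * (η (r⁻¹ • (y - y0)) * β (r⁻¹ • (y - y0))) := by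
      funext y; unfold limSc; ring
    rw [h2, integral_const_mul, h1, ← mul_assoc, inv_mul_cancel₀ (by positivity), one_mul]
  rw [eI] at hcov
  refine hcov.congr' ?_
  filter_upwards [hg_faces_meeting_compact hD hF (wk_ball_compact y0 hs.le) hsub] with n hn
  have hA : ∀ u, (hexFace (δ n) u ∩ wkBall y0 s).Nonempty → u ∈ latInt (F n) := fun u hu => lat_mem_int.2 (hn u hu)
  congr 1
  funext H
  rw [lim_pair_eq zU Finset.subset_union_left hA, lim_pair_eq zV Finset.subset_union_left hA]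
  rfl

theorem lim_E_abs_le_sq {x : ℝ} (hx : 0 < x) (A : Finset TV) (b : TV → ℤ) (Φ : (TV → ℤ) → ℝ) :
    |htE x A b Φ| ≤ (1 + htE x A b fun H => Φ H ^ 2) / 2 := by
  refine (ht_E_abs_le hx A b _).trans ?_
  have : ∀ H, |Φ H| ≤ 2⁻¹ * (1 + Φ H ^ 2) := fun H => by
    have := sq_nonneg (|Φ H| - 1)
    have e2 : |Φ H| ^ 2 = Φ H ^ 2 := sq_abs _
    nlinarith
  refine (ht_E_mono hx A b fun H _ => this H).trans ?_
  rw [ht_E_smul, ht_E_add]
  have := ht_E_one_le hx A b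
  linarith

/-- **the collision decoupling** TEX[eq:limit-plane-factorization] -/
theorem lim_dec {x v : ℝ} (hx : 0 < x) (hP : LimPlane x v) (hSM : LimSM x) {D : Set (ℝ × ℝ)} (hD : IsOpen D) (hB : Bornology.IsBounded D)
    {δ : ℕ → ℝ} {F : ℕ → Finset TV} (hF : IsInsideApprox D δ F) : LimDec x v D δ F := by
  intro K0 R0 hK0 hR0 hsub k f hf hf0 η β hη hηc hβ hβc hint ε hε
  obtain ⟨C1, hC1, hη1⟩ := lim_exists_disc hηc
  obtain ⟨C2, hC2, hβ1⟩ := lim_exists_disc hβc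
  set C0 : ℝ := max C1 C2 with hC0def
  have hC0 : 0 < C0 := lt_of_lt_of_le one_pos (hC1.trans (le_max_left _ _))
  have hη0 : ∀ y, y ∉ wkBall 0 C0 → η y = 0 := fun y hy => hη1 y fun h => hy (wk_ball_mono 0 (by linarith) (le_max_left _ _) h)
  have hβ0 : ∀ y, y ∉ wkBall 0 C0 → β y = 0 := fun y hy => hβ1 y fun h => hy (wk_ball_mono 0 (by linarith) (le_max_right _ _) h)
  obtain ⟨Aη, hAη⟩ := (wkg_lap_smooth hη).continuous.bounded_above_of_compact_support (wkg_lap_compact hηc)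
  obtain ⟨Aβ, hAβ⟩ := hβ.continuous.bounded_above_of_compact_support hβc
  set A : ℝ := max Aη Aβ with hAdef
  have hA1 : ∀ y, |lap2 η y| ≤ A := fun y => (hAη y).trans (le_max_left _ _)
  have hA2 : ∀ y, |β y| ≤ A := fun y => (hAβ y).trans (le_max_right _ _)
  have hA0 : 0 ≤ A := (abs_nonneg _).trans (hA2 0)
  set B : ℝ := 9 * C0 ^ 2 * A + 1 with hBdef
  have hB0 : 0 < B := by positivity
  have hBle : 9 * C0 ^ 2 * A ≤ B := by linarith
  obtain ⟨K1, κ, s0, hK1, hκ, hs0, -, Hloc⟩ := lim_dec_loc hx hP hSM hD hB hF hK0 hR0 hsub f hf hf0 hB0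
  obtain ⟨a2, ha2⟩ := lim_dec_momPhi hx hSM hD hB hF f hf 1
  have hrate : ∀ᶠ s in 𝓝[>] (0 : ℝ), K1 * ((s ^ (-(κ / 3))) ^ 2 * s ^ κ + (1 + Real.log (1 / s)) ^ 4 / s ^ (-(κ / 3))) < ε / 2 := by
    have := (lim_dec_rate hκ).const_mul K1
    rw [mul_zero] at this
    exact this.eventually (gt_mem_nhds (by positivity))
  obtain ⟨s1, hs1, Hs1⟩ := mem_nhdsGT_iff_exists_Ioo_subset.1 hrate
  have hs1' : 0 < s1 := hs1
  refine ⟨min (min s0 s1) R0 / C0, by positivity, fun y0 hy0 r hr hr0 => ?_⟩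
  have hs : 0 < C0 * r := by positivity
  have hsm : C0 * r < min (min s0 s1) R0 := by
    rw [lt_div_iff₀ hC0] at hr0; linarith
  have hss0 : C0 * r ≤ s0 := (hsm.trans_le ((min_le_left _ _).trans (min_le_left _ _))).le
  have hss1 : C0 * r < s1 := hsm.trans_le ((min_le_left _ _).trans (min_le_right _ _))
  have hsR : C0 * r ≤ R0 := (hsm.trans_le (min_le_right _ _)).le
  have hsubs : wkBall y0 (C0 * r) ⊆ D := (wk_ball_mono y0 hs.le hsR).trans (hsub y0 hy0)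
  have hcov := lim_dec_cov hP hD hF hη hβ hC0 hη0 hβ0 hint hr hsubs
  have hcov' := (Metric.tendsto_atTop.1 hcov) (ε / (1 + |a2|)) (by positivity)
  have hcov'' : ∀ᶠ n in atTop, dist (htPl x fun H => htSm (δ n) (F n) (fun y => -lap2 (limSc η y0 r) y) H *
      htSm (δ n) (F n) (fun y => (r ^ 2)⁻¹ * limSc β y0 r y) H) (v * ∫ y, η y * β y) < ε / (1 + |a2|) := by
    obtain ⟨N, hN⟩ := hcov'
    exact eventually_atTop.2 ⟨N, hN⟩
  have hr1 := Hs1 (show C0 * r ∈ Ioo 0 s1 from ⟨hs, hss1⟩)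
  filter_upwards [Hloc y0 hy0 (C0 * r) hs hss0, ha2, hcov''] with n h1 h2 h3
  have key := h1 _ _ (lim_dec_testU hη hC0 hη0 hA1 hBle y0 hr) (lim_dec_testV hβ.continuous hC0 hβ0 hA2 hBle hint y0 hr)
    ((C0 * r) ^ (-(κ / 3))) (Real.rpow_pos_of_pos hs _)
  have key2 := key.trans hr1.le
  set P : ℝ := htPl x fun H => htSm (δ n) (F n) (fun y => -lap2 (limSc η y0 r) y) H * htSm (δ n) (F n) (fun y => (r ^ 2)⁻¹ * limSc β y0 r y) H with hPdef
  set I : ℝ := ∫ y, η y * β y with hI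
  have hΦ : |limM x (δ n) (F n) f| ≤ (1 + |a2|) / 2 := by
    have h4 := lim_E_abs_le_sq hx (latInt (F n)) 0 fun H => ∏ i, htSm (δ n) (F n) (f i) H
    have h5 : htE x (latInt (F n)) 0 (fun H => (∏ i, htSm (δ n) (F n) (f i) H) ^ 2) ≤ a2 := by simpa [htFz] using h2
    have h6 := le_abs_self a2
    unfold limM htFz
    linarith
  have e : (fun h => htSm (δ n) (F n) (fun y => -lap2 (limSc η y0 r) y) h * htSm (δ n) (F n) (fun y => (r ^ 2)⁻¹ * limSc β y0 r y) h *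
      ∏ i, htSm (δ n) (F n) (f i) h) = fun H => (∏ i, htSm (δ n) (F n) (f i) H) *
        (htSm (δ n) (F n) (fun y => -lap2 (limSc η y0 r) y) H * htSm (δ n) (F n) (fun y => (r ^ 2)⁻¹ * limSc β y0 r y) H) := by
    funext H; ring
  rw [e]
  rw [Real.dist_eq] at h3
  have t2 : |limM x (δ n) (F n) f * (P - v * I)| ≤ ε / 2 := by
    rw [abs_mul]
    have : |limM x (δ n) (F n) f| * |P - v * I| ≤ (1 + |a2|) / 2 * (ε / (1 + |a2|)) :=
      mul_le_mul hΦ h3.le (abs_nonneg _) (by positivity)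
    refine this.trans (le_of_eq ?_)
    field_simp
  have e2 : ∀ E0 : ℝ, E0 - v * I * limM x (δ n) (F n) f = (E0 - limM x (δ n) (F n) f * P) + limM x (δ n) (F n) f * (P - v * I) := fun E0 => by ring
  rw [e2]
  refine (abs_add_le _ _).trans ?_
  linarith

end Claimed.Agent.R291
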