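import Claimed.Agent.R291.Lim.Bind
import Claimed.Agent.R291.Lim.DecB
import Claimed.Agent.R291.Wick.Diag
import Claimed.Agent.R291.Exit.LimSm
import Claimed.Agent.R291.Exit.LimBd
import Claimed.Agent.R291.Exit.LimBrk
import Claimed.Agent.R291.Exit.LimPl

/-!
# Row 291, Lim/Main : THE ASSEMBLY OF UNIT LIM      (helper181, head of LIM)

`lim_out : ∃ v > 0, LimOut x v`  =  `lmb_out` (165: ultrafilter limits + `WkData` instance)  on
* `exit_lim_sm`  (A1, moments of smeared heights; filled from MOM),
* `exit_lim_bd`  (A2', boundary layer; filled from BDY),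
* `exit_lim_brk` (A3, the upper bracket; PIN),
* `lim_dec`      (A4, local collision; PROVED in Lim/DecB from `LimPlane`), `exit_lim_pl` (the plane law),
* `lim_wick`     (the abstract Wick recursion `wk_main`, unit WICK: PROVED, Wick/Diag).

0 sorry in this file.  `Exit/LimMom.lean` = `lim_out` read through `ht_bridge_pow`.
-/

set_option autoImplicit false

namespace Claimed.Agent.R291

open MeasureTheory Filter Topology
open Claims Claims.C0467

/-- the abstract Wick recursion (`wk_main`, 175/108) in the form consumed by `lmb_out` -/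
theorem lim_wick (v : ℝ) : LmbWick v := by
  intro D T hD hb hT f hf hfc hfs u hu huc hu0 hlap j
  exact wk_main hT hD hb hf.continuous hfc hfs hu huc hu0 hlap j

/-- **Theorem 1.1 in moment form, HT vocabulary** -/
theorem lim_out (x : ℝ) (hx1 : 1 / Real.sqrt 2 ≤ x) (hx2 : x ≤ 1) : ∃ v : ℝ, 0 < v ∧ LimOut x v := by
  have hx : 0 < x := lt_of_lt_of_le (by positivity) hx1
  obtain ⟨v, hv, hP⟩ := exit_lim_pl x hx1 hx2
  have hSM := exit_lim_sm x hx1 hx2
  exact ⟨v, hv, lmb_out hx hSM (fun D δ F hD hF => exit_lim_bd x hx1 hx2 D hD δ F hF)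
    (fun D δ F hD hF => exit_lim_brk x hx1 hx2 D hD δ F hF)
    (fun D δ F hD hF => lim_dec hx hP hSM hD.1 hD.2.1 hF) (lim_wick v)⟩

end Claimed.Agent.R291
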