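import Claimed.Agent.R291.Defs.Lim
import Claimed.Agent.R291.Ht.Basic

/-!
# Row 291 (S0539), Lim/Kit : ELEMENTARY INEQUALITIES OF UNIT LIM      (owner helper181; prefix `lim_`)

No real exponents, no Hoelder, no coupling.
* `lim_abs_prod_le`     `|∏_{i<j} y_i| ≤ 1 + ∑ y_i^(2j)`      (replaces Hoelder: normalise every factor by its own bound)
* `lim_prod_sub_le`     `|∏ a_i - ∏ b_i| ≤ M^(k-1) ∑ |a_i - b_i|` in the form `M^k`-free: `≤ ∑_i |a_i - b_i| * M^(k-1)` for `|a_i|, |b_i| ≤ M`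
* `limTr`               bounded, monotone, 1-Lipschitz, `|t - limTr M t| ≤ t^(2m) / M^(2m-1)`
* `lim_E_prod_le`       `E Y_i^(2j) ≤ c B_i^(2j)`  ⟹  `E |∏ Y_i| ≤ (1 + j c) ∏ B_i`
* `lim_dom_lip`         stochastic domination + `Λ ± Ψ` monotone  ⟹  `|π Ψ - E Ψ| ≤ π Λ - E Λ`      (the coupling-free transfer)
-/

set_option autoImplicit false

namespace Claimed.Agent.R291

open Filter Topology Set
open Claims Claims.C0467

/-! ### products -/

theorem lim_abs_prod_le {j : ℕ} (y : Fin j → ℝ) : |∏ i, y i| ≤ 1 + ∑ i, y i ^ (2 * j) := by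
  have hs : ∀ i, 0 ≤ y i ^ (2 * j) := fun i => by rw [pow_mul]; positivity
  have hS : 0 ≤ ∑ i, y i ^ (2 * j) := Finset.sum_nonneg fun i _ => hs i
  rw [Finset.abs_prod]
  by_cases h : ∀ i, |y i| ≤ 1
  · have : ∏ i, |y i| ≤ 1 := Finset.prod_le_one (fun i _ => abs_nonneg _) fun i _ => h i
    linarith
  · obtain ⟨i1, hi1'⟩ := not_forall.1 h
    have hi1 : 1 < |y i1| := not_le.1 hi1'
    obtain ⟨i0, -, hmax⟩ := Finset.exists_max_image Finset.univ (fun i => |y i|) ⟨i1, Finset.mem_univ _⟩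
    have ht : 1 ≤ |y i0| := hi1.le.trans (hmax i1 (Finset.mem_univ _))
    have h1 : ∏ i, |y i| ≤ |y i0| ^ j := by
      have := Finset.prod_le_prod (s := Finset.univ) (f := fun i => |y i|) (g := fun _ => |y i0|) (fun i _ => abs_nonneg _) fun i hi => hmax i hi
      simpa using this
    have h2 : |y i0| ^ j ≤ |y i0| ^ (2 * j) := pow_le_pow_right₀ ht (by omega)
    have h3 : |y i0| ^ (2 * j) = y i0 ^ (2 * j) := by rw [pow_mul, pow_mul, sq_abs]
    have h4 : y i0 ^ (2 * j) ≤ ∑ i, y i ^ (2 * j) := Finset.single_le_sum (fun i _ => hs i) (Finset.mem_univ i0)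
    linarith

theorem lim_prod_sub_le {k : ℕ} (a b : Fin k → ℝ) {M : ℝ} (ha : ∀ i, |a i| ≤ M) (hb : ∀ i, |b i| ≤ M) :
    |∏ i, a i - ∏ i, b i| ≤ M ^ (k - 1) * ∑ i, |a i - b i| := by
  induction k with
  | zero => simp
  | succ k ih =>
    have hM : 0 ≤ M := (abs_nonneg _).trans (ha 0)
    rw [Fin.prod_univ_succ, Fin.prod_univ_succ, Fin.sum_univ_succ]
    have e : a 0 * ∏ i : Fin k, a i.succ - b 0 * ∏ i : Fin k, b i.succ
        = (a 0 - b 0) * ∏ i : Fin k, a i.succ + b 0 * (∏ i : Fin k, a i.succ - ∏ i : Fin k, b i.succ) := by ring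
    have h1 : |∏ i : Fin k, a i.succ| ≤ M ^ k := by
      rw [Finset.abs_prod]
      have := Finset.prod_le_prod (s := Finset.univ) (f := fun i : Fin k => |a i.succ|) (g := fun _ => M) (fun i _ => abs_nonneg _) fun i _ => ha i.succ
      simpa using this
    have h2 := ih (fun i => a i.succ) (fun i => b i.succ) (fun i => ha _) fun i => hb _
    have hS : 0 ≤ ∑ i : Fin k, |a i.succ - b i.succ| := Finset.sum_nonneg fun i _ => abs_nonneg _
    have h3 : |b 0 * (∏ i : Fin k, a i.succ - ∏ i : Fin k, b i.succ)| ≤ M ^ k * ∑ i : Fin k, |a i.succ - b i.succ| := by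
      rw [abs_mul]
      rcases Nat.eq_zero_or_pos k with rfl | hk
      · simp
      · calc |b 0| * |∏ i : Fin k, a i.succ - ∏ i : Fin k, b i.succ|
            ≤ M * (M ^ (k - 1) * ∑ i : Fin k, |a i.succ - b i.succ|) :=
              mul_le_mul (hb 0) h2 (abs_nonneg _) hM
          _ = M ^ k * ∑ i : Fin k, |a i.succ - b i.succ| := by
              rw [← mul_assoc, ← pow_succ']
              congr 2
              omega
    have h4 : |(a 0 - b 0) * ∏ i : Fin k, a i.succ| ≤ M ^ k * |a 0 - b 0| := by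
      rw [abs_mul, mul_comm]
      exact mul_le_mul_of_nonneg_right h1 (abs_nonneg _)
    rw [e, Nat.add_sub_cancel, mul_add]
    exact (abs_add_le _ _).trans (add_le_add h4 h3)

/-! ### truncation -/

theorem lim_tr_abs_le {M : ℝ} (hM : 0 ≤ M) (t : ℝ) : |limTr M t| ≤ M := by
  unfold limTr
  rw [abs_le]
  exact ⟨le_max_left _ _, max_le (by linarith) (min_le_right _ _)⟩

theorem lim_tr_mono (M : ℝ) : Monotone (limTr M) := fun _ _ h =>
  max_le_max le_rfl (min_le_min h le_rfl)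

theorem lim_tr_of_abs_le {M t : ℝ} (h : |t| ≤ M) : limTr M t = t := by
  unfold limTr
  obtain ⟨h1, h2⟩ := abs_le.1 h
  rw [min_eq_left h2, max_eq_right h1]

theorem lim_tr_lip (M t s : ℝ) : |limTr M t - limTr M s| ≤ |t - s| := by
  unfold limTr
  have h1 : |max (-M) (min t M) - max (-M) (min s M)| ≤ |min t M - min s M| := by
    have := abs_max_sub_max_le_max (-M) (min t M) (-M) (min s M)
    simpa using this
  have h2 : |min t M - min s M| ≤ |t - s| := by
    have := abs_min_sub_min_le_max t M s M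
    simpa using this
  exact h1.trans h2

theorem lim_tr_abs_le_abs {M : ℝ} (hM : 0 ≤ M) (t : ℝ) : |limTr M t| ≤ |t| := by
  by_cases h : |t| ≤ M
  · rw [lim_tr_of_abs_le h]
  · exact (lim_tr_abs_le hM t).trans (not_le.1 h).le

theorem lim_tr_err {M : ℝ} (hM : 0 < M) (t : ℝ) {m : ℕ} (hm : 1 ≤ m) : |t - limTr M t| ≤ t ^ (2 * m) / M ^ (2 * m - 1) := by
  have hp : 0 ≤ t ^ (2 * m) / M ^ (2 * m - 1) := by
    have : 0 ≤ t ^ (2 * m) := by rw [pow_mul]; positivity
    positivity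
  by_cases h : |t| ≤ M
  · rw [lim_tr_of_abs_le h, sub_self, abs_zero]; exact hp
  · have h' : M < |t| := not_le.1 h
    have h1 : |t - limTr M t| ≤ |t| := by
      unfold limTr
      rcases le_total 0 t with ht | ht
      · rw [abs_of_nonneg ht] at h' ⊢
        rw [min_eq_right h'.le, max_eq_right (by linarith), abs_of_nonneg (by linarith)]
        linarith
      · rw [abs_of_nonpos ht] at h' ⊢
        rw [min_eq_left (by linarith), max_eq_left (by linarith), abs_of_nonpos (by linarith)]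
        linarith
    refine h1.trans ?_
    rw [le_div_iff₀ (by positivity)]
    have e : t ^ (2 * m) = |t| * |t| ^ (2 * m - 1) := by
      rw [← pow_succ', show 2 * m - 1 + 1 = 2 * m by omega, pow_mul, pow_mul, sq_abs]
    rw [e]
    exact mul_le_mul_of_nonneg_left (pow_le_pow_left₀ hM.le h'.le _) (abs_nonneg _)

/-! ### expectations of products -/

theorem lim_E_prod_le {x : ℝ} (hx : 0 < x) (A : Finset TV) (b : TV → ℤ) {j : ℕ} (Y : Fin j → (TV → ℤ) → ℝ) (B : Fin j → ℝ)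
    (hB : ∀ i, 0 < B i) {c : ℝ} (h : ∀ i, htE x A b (fun H => Y i H ^ (2 * j)) ≤ c * B i ^ (2 * j)) :
    htE x A b (fun H => |∏ i, Y i H|) ≤ (1 + j * c) * ∏ i, B i := by
  have hP : 0 < ∏ i, B i := Finset.prod_pos fun i _ => hB i
  have h1 : ∀ H, |∏ i, Y i H| ≤ (∏ i, B i) * (1 + ∑ i, (B i ^ (2 * j))⁻¹ * Y i H ^ (2 * j)) := by
    intro H
    have := lim_abs_prod_le fun i => Y i H / B i
    rw [Finset.prod_div_distrib, abs_div, abs_of_pos hP, div_le_iff₀ hP] at this
    refine this.trans (le_of_eq ?_)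
    rw [mul_comm]
    congr 2
    refine Finset.sum_congr rfl fun i _ => ?_
    rw [div_pow, div_eq_mul_inv, mul_comm]
  refine (ht_E_mono hx A b fun H _ => h1 H).trans ?_
  rw [ht_E_smul, mul_comm]
  refine mul_le_mul_of_nonneg_right ?_ hP.le
  rw [ht_E_add, ht_E_sum]
  have h2 : ∀ i, htE x A b (fun H => (B i ^ (2 * j))⁻¹ * Y i H ^ (2 * j)) ≤ c := by
    intro i
    rw [ht_E_smul, inv_mul_le_iff₀ (pow_pos (hB i) _)]
    have := h i
    linarith
  have h3 : ∑ i : Fin j, htE x A b (fun H => (B i ^ (2 * j))⁻¹ * Y i H ^ (2 * j)) ≤ j * c := by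
    have := Finset.sum_le_card_nsmul Finset.univ (fun i : Fin j => htE x A b (fun H => (B i ^ (2 * j))⁻¹ * Y i H ^ (2 * j))) c fun i _ => h2 i
    simpa using this
  exact add_le_add (ht_E_one_le hx A b) h3

/-! ### the coupling-free transfer -/

theorem lim_dom_lip {x : ℝ} {F : Finset TV} {S : Finset (TV → ℤ)} {π : (TV → ℤ) → ℝ}
    (dom : ∀ G : (TV → ℤ) → ℝ, HtMono G → htFz x F G ≤ ∑ h ∈ S, π h * G h) (Ψ Λ : (TV → ℤ) → ℝ)
    (h1 : HtMono fun h => Λ h + Ψ h) (h2 : HtMono fun h => Λ h - Ψ h) :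
    |∑ h ∈ S, π h * Ψ h - htFz x F Ψ| ≤ ∑ h ∈ S, π h * Λ h - htFz x F Λ := by
  have d1 := dom _ h1
  have d2 := dom _ h2
  unfold htFz at *
  rw [ht_E_add] at d1
  rw [ht_E_sub] at d2
  simp only [mul_add, mul_sub, Finset.sum_add_distrib, Finset.sum_sub_distrib] at d1 d2
  rw [abs_le]
  constructor <;> linarith

end Claimed.Agent.R291
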