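import Claimed.Agent.R291.Defs.Wick

/-!
# Row 291 (S0539), Lim/Chain : (I) + (A3) ⟹ A2loc, ABSTRACT FORM      (owner helper86; prefix `lch_`, defs `Lch*`)      complete, 0 sorry

TEX 07-limit (Lemma limit:references + chains), in the form of sec.4 "A2loc" of `origin/helper181:notes/R291/sec7_181.md`.
No model: `Tq` is ANY functional of `q` spectators which is additive and homogeneous in each slot on the tests of `D`.
* `LchZ D z0 ρ q g` : a zero total spectator admissible in `LimArr` (disc of radius `< ρ/(1000(q+1))` inside `D`, off the open disc of radius `ρ` at `z0`)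
* `LchG D z0 ρ q g` : an ARBITRARY continuous spectator in a disc of radius `< ρ/(4000(q+1))` inside `D` with centre at distance `≥ 2ρ` of `z0`
* `lch_slot`  : ONE slot: `Λ` linear on tests, `Λ = 0` on `LchZ`, `Λ (wkRho z (θ dep z)) → 0` at the boundary  ⟹  `Λ = 0` on `LchG`
      (straight ray away from `z0`, chain of bumps, no connectedness of `D`)
* **`lch_main`** : `Tq = 0` on `LimArr`, (A3) in each slot ⟹ `Tq f = 0` for all `f` with `LchG` in every slot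
* **`lch_harm`** : multiset adapter: for `T : Multiset (ℝ × ℝ → ℝ) → ℝ` with the fields `add`, `smul`, `bdry` of `WkData` (verbatim) and the insertion identity (I)
      `LimArr D z0 ρ q φ g → T (lap2 φ ::ₘ univ.val.map g) = 0` (= `LimIns` read along the ultrafilter), the field `harm` of `WkData` holds (verbatim)
-/

set_option autoImplicit false

namespace Claimed.Agent.R291

open MeasureTheory Filter Topology Set
open scoped ContDiff
open Claims Claims.C0467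

/-- zero total spectator admissible in `LimArr` -/
def LchZ (D : Set (ℝ × ℝ)) (z0 : ℝ × ℝ) (ρ : ℝ) (q : ℕ) (g : ℝ × ℝ → ℝ) : Prop :=
  Continuous g ∧ ∫ y, g y = 0 ∧ ∃ (c : ℝ × ℝ) (s : ℝ), 0 < s ∧ s < ρ / (1000 * (q + 1)) ∧ wkBall c s ⊆ D ∧
    (∀ y ∈ wkBall c s, ρ ^ 2 ≤ sqDist y z0) ∧ ∀ y, y ∉ wkBall c s → g y = 0

/-- arbitrary spectator in a small disc far from `z0` -/
def LchG (D : Set (ℝ × ℝ)) (z0 : ℝ × ℝ) (ρ : ℝ) (q : ℕ) (g : ℝ × ℝ → ℝ) : Prop :=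
  Continuous g ∧ ∃ (c : ℝ × ℝ) (s : ℝ), 0 < s ∧ s < ρ / (4000 * (q + 1)) ∧ wkBall c s ⊆ D ∧
    (2 * ρ) ^ 2 ≤ sqDist c z0 ∧ ∀ y, y ∉ wkBall c s → g y = 0

theorem LchZ_eqns_cite (D : Set (ℝ × ℝ)) (z0 : ℝ × ℝ) (ρ : ℝ) (q : ℕ) (g : ℝ × ℝ → ℝ) :
    LchZ D z0 ρ q g ↔ (Continuous g ∧ ∫ y, g y = 0 ∧ ∃ (c : ℝ × ℝ) (s : ℝ), 0 < s ∧ s < ρ / (1000 * (q + 1)) ∧
      wkBall c s ⊆ D ∧ (∀ y ∈ wkBall c s, ρ ^ 2 ≤ sqDist y z0) ∧ ∀ y, y ∉ wkBall c s → g y = 0) := Iff.rfl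

theorem LchG_eqns_cite (D : Set (ℝ × ℝ)) (z0 : ℝ × ℝ) (ρ : ℝ) (q : ℕ) (g : ℝ × ℝ → ℝ) :
    LchG D z0 ρ q g ↔ (Continuous g ∧ ∃ (c : ℝ × ℝ) (s : ℝ), 0 < s ∧ s < ρ / (4000 * (q + 1)) ∧ wkBall c s ⊆ D ∧
      (2 * ρ) ^ 2 ≤ sqDist c z0 ∧ ∀ y, y ∉ wkBall c s → g y = 0) := Iff.rfl

/-! ### tests supported in a disc -/

theorem lch_test_of_ball {D : Set (ℝ × ℝ)} {g : ℝ × ℝ → ℝ} {c : ℝ × ℝ} {s : ℝ} (hs : 0 ≤ s) (hg : Continuous g)
    (hb : wkBall c s ⊆ D) (h0 : ∀ y, y ∉ wkBall c s → g y = 0) : WkTest D g := by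
  have h1 : tsupport g ⊆ wkBall c s := by
    refine closure_minimal (fun y hy => ?_) (wk_ball_closed c s)
    by_contra hn
    exact hy (h0 y hn)
  exact ⟨hg, (wk_ball_compact c hs).of_isClosed_subset (isClosed_tsupport g) h1, h1.trans hb⟩

theorem LchZ.test {D : Set (ℝ × ℝ)} {z0 : ℝ × ℝ} {ρ : ℝ} {q : ℕ} {g : ℝ × ℝ → ℝ} (h : LchZ D z0 ρ q g) :
    WkTest D g := by
  obtain ⟨hc, -, c, s, hs, -, hb, -, h0⟩ := h
  exact lch_test_of_ball hs.le hc hb h0

theorem LchG.test {D : Set (ℝ × ℝ)} {z0 : ℝ × ℝ} {ρ : ℝ} {q : ℕ} {g : ℝ × ℝ → ℝ} (h : LchG D z0 ρ q g) :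
    WkTest D g := by
  obtain ⟨hc, c, s, hs, -, hb, -, h0⟩ := h
  exact lch_test_of_ball hs.le hc hb h0

/-! ### depth -/

theorem lch_closedBall_subset {D : Set (ℝ × ℝ)} (hD : IsOpen D) {z : ℝ × ℝ} (hz : z ∈ D) {h : ℝ} (h0 : 0 ≤ h)
    (hh : h < limDep D z) : Metric.closedBall z h ⊆ D := by
  intro x hx
  by_contra hxD
  have hpre : IsPreconnected (Metric.closedBall z h) := (convex_closedBall z h).isPreconnected
  have hav : ∀ p ∈ Metric.closedBall z h, p ∉ frontier D := by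
    intro p hp hpf
    have h1 : limDep D z ≤ dist z p := Metric.infDist_le_dist_of_mem hpf
    rw [Metric.mem_closedBall, dist_comm] at hp
    linarith
  have hcov : Metric.closedBall z h ⊆ D ∪ (closure D)ᶜ := by
    intro p hp
    by_cases hpD : p ∈ D
    · exact Or.inl hpD
    · refine Or.inr fun hpc => hav p hp ?_
      rw [hD.frontier_eq]
      exact ⟨hpc, hpD⟩
  have hx2 : x ∈ (closure D)ᶜ := (hcov hx).resolve_left hxD
  obtain ⟨p, -, hp1, hp2⟩ := hpre D (closure D)ᶜ hD isClosed_closure.isOpen_compl hcov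
    ⟨z, Metric.mem_closedBall_self h0, hz⟩ ⟨x, hx, hx2⟩
  exact hp2 (subset_closure hp1)

theorem lch_ball_subset {D : Set (ℝ × ℝ)} (hD : IsOpen D) {z : ℝ × ℝ} (hz : z ∈ D) {h : ℝ} (h0 : 0 ≤ h)
    (hh : h < limDep D z) : wkBall z h ⊆ D :=
  (wk_ball_subset z h0).trans (lch_closedBall_subset hD hz h0 hh)

theorem lch_dep_pos {D : Set (ℝ × ℝ)} (hD : IsOpen D) (hb : Bornology.IsBounded D) {z : ℝ × ℝ} (hz : z ∈ D) :
    0 < limDep D z := by
  have hne : (frontier D).Nonempty := by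
    rw [nonempty_frontier_iff]
    refine ⟨⟨z, hz⟩, fun hu => ?_⟩
    rw [hu] at hb
    exact NormedSpace.unbounded_univ ℝ (ℝ × ℝ) hb
  refine (isClosed_frontier.notMem_iff_infDist_pos hne).1 fun hf => ?_
  rw [hD.frontier_eq] at hf
  exact hf.2 hz

theorem lch_dep_continuous (D : Set (ℝ × ℝ)) : Continuous (limDep D) := Metric.continuous_infDist_pt _

/-! ### Euclidean geometry -/

theorem lch_far {w z0 : ℝ × ℝ} {ρ H : ℝ} (hρ : 0 < ρ) (hH0 : 0 ≤ H) (hH : H ≤ ρ) (hw : (2 * ρ) ^ 2 ≤ sqDist w z0) :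
    ∀ y ∈ wkBall w H, ρ ^ 2 ≤ sqDist y z0 := by
  intro y hy
  by_contra hn
  rw [not_le] at hn
  set r := Real.sqrt (sqDist y z0) with hr
  have hr0 : 0 ≤ r := Real.sqrt_nonneg _
  have hr2 : r ^ 2 = sqDist y z0 := Real.sq_sqrt (wk_sq_nonneg y z0)
  have hrρ : r < ρ := by
    by_contra hc
    rw [not_lt] at hc
    have : ρ ^ 2 ≤ r ^ 2 := pow_le_pow_left₀ hρ.le hc 2
    linarith
  have hwy : w ∈ wkBall y H := by
    show sqDist w y ≤ H ^ 2
    rw [wk_sq_comm]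
    exact hy
  have h1 : sqDist w z0 ≤ (H + r) ^ 2 := wk_ball_add hH0 hr0 hr2.ge hwy
  have h2 : (H + r) ^ 2 < (2 * ρ) ^ 2 := pow_lt_pow_left₀ (by linarith) (by positivity) (by norm_num)
  linarith

/-- the ray from `c` away from `z0` -/
noncomputable def lchRay (z0 c : ℝ × ℝ) (t : ℝ) : ℝ × ℝ := c + t • (c - z0)

theorem lchRay_eqns_cite (z0 c : ℝ × ℝ) (t : ℝ) : lchRay z0 c t = c + t • (c - z0) := rfl

theorem lch_ray_zero (z0 c : ℝ × ℝ) : lchRay z0 c 0 = c := by simp [lchRay]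

theorem lch_ray_sq (z0 c : ℝ × ℝ) (t : ℝ) : sqDist (lchRay z0 c t) z0 = (1 + t) ^ 2 * sqDist c z0 := by
  simp only [lchRay, sqDist, Prod.fst_add, Prod.snd_add, Prod.smul_fst, Prod.smul_snd, Prod.fst_sub, Prod.snd_sub,
    smul_eq_mul]
  ring

theorem lch_ray_far {z0 c : ℝ × ℝ} {ρ t : ℝ} (ht : 0 ≤ t) (hc : (2 * ρ) ^ 2 ≤ sqDist c z0) :
    (2 * ρ) ^ 2 ≤ sqDist (lchRay z0 c t) z0 := by
  rw [lch_ray_sq]
  have h1 : (1 : ℝ) ≤ (1 + t) ^ 2 := by nlinarith
  nlinarith [wk_sq_nonneg c z0]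

theorem lch_ray_dist (z0 c : ℝ × ℝ) (t t' : ℝ) :
    dist (lchRay z0 c t) (lchRay z0 c t') = |t - t'| * ‖c - z0‖ := by
  rw [dist_eq_norm]
  have : lchRay z0 c t - lchRay z0 c t' = (t - t') • (c - z0) := by
    simp only [lchRay, sub_smul]; abel
  rw [this, norm_smul, Real.norm_eq_abs]

theorem lch_ray_continuous (z0 c : ℝ × ℝ) : Continuous (lchRay z0 c) := by
  unfold lchRay
  fun_prop

/-- the ray reaches points of arbitrarily small depth before leaving `D` -/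
theorem lch_ray_exit {D : Set (ℝ × ℝ)} (hD : IsOpen D) (hb : Bornology.IsBounded D) {z0 c : ℝ × ℝ} (hc : c ∈ D)
    (hne : c ≠ z0) {a0 : ℝ} (ha : 0 < a0) :
    ∃ t1 : ℝ, 0 ≤ t1 ∧ (∀ s ∈ Icc 0 t1, lchRay z0 c s ∈ D) ∧ limDep D (lchRay z0 c t1) < a0 := by
  by_contra hcon
  push Not at hcon
  have hd0 : 0 < ‖c - z0‖ := norm_pos_iff.2 (sub_ne_zero.2 hne)
  set τ : ℝ := a0 / (2 * ‖c - z0‖) with hτ
  have hτ0 : 0 < τ := by positivity
  have hτd : τ * ‖c - z0‖ = a0 / 2 := by rw [hτ]; field_simp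
  have key : ∀ k : ℕ, ∀ s ∈ Icc (0 : ℝ) (k * τ), lchRay z0 c s ∈ D := by
    intro k
    induction k with
    | zero =>
      intro s hs
      have : s = 0 := le_antisymm (by simpa using hs.2) hs.1
      rw [this, lch_ray_zero]; exact hc
    | succ k ih =>
      intro s hs
      by_cases hsk : s ≤ k * τ
      · exact ih s ⟨hs.1, hsk⟩
      · rw [not_le] at hsk
        have hk0 : (0 : ℝ) ≤ k * τ := by positivity
        have hdep := hcon (k * τ) hk0 ih
        have hzk : lchRay z0 c (k * τ) ∈ D := ih _ ⟨hk0, le_rfl⟩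
        refine lch_closedBall_subset hD hzk (h := a0 / 2) (by positivity) (by linarith) ?_
        rw [Metric.mem_closedBall, lch_ray_dist, abs_of_pos (by linarith)]
        have h2 : s - k * τ ≤ τ := by
          have := hs.2
          push_cast at this
          linarith
        calc (s - k * τ) * ‖c - z0‖ ≤ τ * ‖c - z0‖ := mul_le_mul_of_nonneg_right h2 hd0.le
          _ = a0 / 2 := hτd
  obtain ⟨C, hC⟩ := Metric.isBounded_iff.1 hb
  obtain ⟨k, hk⟩ := exists_nat_gt (C / (a0 / 2))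
  have h1 := hC (key k (k * τ) ⟨by positivity, le_rfl⟩) hc
  rw [← lch_ray_zero z0 c, lch_ray_zero z0 c] at h1
  have h2 : dist (lchRay z0 c (k * τ)) c = k * (a0 / 2) := by
    conv_lhs => rw [← lch_ray_zero z0 c, lch_ray_zero z0 c]
    have := lch_ray_dist z0 c (k * τ) 0
    rw [lch_ray_zero, sub_zero, abs_of_nonneg (by positivity), mul_assoc, hτd] at this
    exact this
  rw [h2] at h1
  rw [div_lt_iff₀ (by positivity)] at hk
  linarith

/-! ### one slot -/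

/-- the hypotheses on one slot -/
structure LchSlot (D : Set (ℝ × ℝ)) (z0 : ℝ × ℝ) (ρ : ℝ) (q : ℕ) (Λ : (ℝ × ℝ → ℝ) → ℝ) : Prop where
  add : ∀ a b, WkTest D a → WkTest D b → Λ (fun x => a x + b x) = Λ a + Λ b
  smul : ∀ (c : ℝ) a, WkTest D a → Λ (fun x => c * a x) = c * Λ a
  zero : ∀ a, LchZ D z0 ρ q a → Λ a = 0

theorem LchSlot.sub_smul {D : Set (ℝ × ℝ)} {z0 : ℝ × ℝ} {ρ : ℝ} {q : ℕ} {Λ : (ℝ × ℝ → ℝ) → ℝ}
    (h : LchSlot D z0 ρ q Λ) {a b : ℝ × ℝ → ℝ} (ha : WkTest D a) (hb : WkTest D b) (m : ℝ) :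
    Λ (fun x => a x - m * b x) = Λ a - m * Λ b := by
  have e : (fun x => a x - m * b x) = fun x => a x + (-m) * b x := by funext x; ring
  rw [e, h.add _ _ ha (hb.smul' (-m)), h.smul _ _ hb]; ring

/-- a test in an admissible disc is `(its total) × (any bump in the same disc)` for `Λ` -/
theorem lch_reduce {D : Set (ℝ × ℝ)} {z0 : ℝ × ℝ} {ρ : ℝ} {q : ℕ} {Λ : (ℝ × ℝ → ℝ) → ℝ}
    (hΛ : LchSlot D z0 ρ q Λ) {W : ℝ × ℝ} {H : ℝ} (hH0 : 0 < H) (hH : H < ρ / (1000 * (q + 1))) (hWD : wkBall W H ⊆ D)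
    (hfar : ∀ y ∈ wkBall W H, ρ ^ 2 ≤ sqDist y z0) {f : ℝ × ℝ → ℝ} (hf : Continuous f)
    (hf0 : ∀ y, y ∉ wkBall W H → f y = 0) {w : ℝ × ℝ} {h : ℝ} (hh : 0 < h) (hw : wkBall w h ⊆ wkBall W H) :
    Λ f = (∫ y, f y) * Λ (wkRho w h) := by
  have tf : WkTest D f := lch_test_of_ball hH0.le hf hWD hf0
  have tr : WkTest D (wkRho w h) := wk_test_rho hh (hw.trans hWD)
  have hz : LchZ D z0 ρ q (fun x => f x - (∫ y, f y) * wkRho w h x) := by
    refine ⟨hf.sub (continuous_const.mul (wk_rho_continuous w h)), ?_, W, H, hH0, hH, hWD, hfar, fun y hy => ?_⟩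
    · rw [integral_sub (tf.cont.integrable_of_hasCompactSupport tf.comp)
        ((tr.cont.integrable_of_hasCompactSupport tr.comp).const_mul _), integral_const_mul, wk_rho_integral w hh]
      ring
    · show f y - (∫ y, f y) * wkRho w h y = 0
      rw [hf0 y hy, wk_rho_zero w hh fun hc => hy (hw hc)]; ring
  have := hΛ.zero _ hz
  rw [hΛ.sub_smul tf tr] at this
  linarith

/-- two bumps in a common admissible disc have the same value -/
theorem lch_bump_eq {D : Set (ℝ × ℝ)} {z0 : ℝ × ℝ} {ρ : ℝ} {q : ℕ} {Λ : (ℝ × ℝ → ℝ) → ℝ}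
    (hΛ : LchSlot D z0 ρ q Λ) {W : ℝ × ℝ} {H : ℝ} (hH0 : 0 < H) (hH : H < ρ / (1000 * (q + 1))) (hWD : wkBall W H ⊆ D)
    (hfar : ∀ y ∈ wkBall W H, ρ ^ 2 ≤ sqDist y z0) {w w' : ℝ × ℝ} {h h' : ℝ} (hh : 0 < h) (hh' : 0 < h')
    (hw : wkBall w h ⊆ wkBall W H) (hw' : wkBall w' h' ⊆ wkBall W H) : Λ (wkRho w' h') = Λ (wkRho w h) := by
  have := lch_reduce hΛ hH0 hH hWD hfar (wk_rho_continuous w' h')
    (fun y hy => wk_rho_zero w' hh' fun hc => hy (hw' hc)) hh hw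
  rwa [wk_rho_integral w' hh', one_mul] at this

theorem lch_r1_le {ρ : ℝ} (hρ : 0 < ρ) (q : ℕ) : ρ / (1000 * (q + 1)) ≤ ρ := by
  rw [div_le_iff₀ (by positivity)]
  have : (1 : ℝ) ≤ 1000 * ((q : ℝ) + 1) := by
    have : (0 : ℝ) ≤ q := Nat.cast_nonneg q
    linarith
  nlinarith

/-- the chain along the ray -/
theorem lch_chain {D : Set (ℝ × ℝ)} (hD : IsOpen D) (hb : Bornology.IsBounded D) {z0 : ℝ × ℝ} {ρ : ℝ} (hρ : 0 < ρ)
    {q : ℕ} {Λ : (ℝ × ℝ → ℝ) → ℝ} (hΛ : LchSlot D z0 ρ q Λ) {c : ℝ × ℝ} (hc : (2 * ρ) ^ 2 ≤ sqDist c z0) {t1 : ℝ}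
    (ht1 : 0 ≤ t1) (hray : ∀ s ∈ Icc 0 t1, lchRay z0 c s ∈ D) :
    ∃ h0 : ℝ, 0 < h0 ∧ ∀ h, 0 < h → h ≤ h0 → Λ (wkRho (lchRay z0 c t1) h) = Λ (wkRho c h) := by
  -- uniform clearance
  obtain ⟨tm, htm, hmin⟩ := isCompact_Icc.exists_isMinOn (nonempty_Icc.2 ht1)
    ((lch_dep_continuous D).comp (lch_ray_continuous z0 c)).continuousOn
  set κ : ℝ := limDep D (lchRay z0 c tm) with hκ
  have hκ0 : 0 < κ := lch_dep_pos hD hb (hray tm htm)
  have hκle : ∀ s ∈ Icc 0 t1, κ ≤ limDep D (lchRay z0 c s) := fun s hs => hmin hs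
  set r1 : ℝ := ρ / (1000 * (q + 1)) with hr1
  have hr10 : 0 < r1 := by positivity
  have hr1ρ : r1 ≤ ρ := lch_r1_le hρ q
  refine ⟨min (κ / 4) (r1 / 4), by positivity, fun h hh hle => ?_⟩
  have hhκ : 2 * h < κ := by have := hle.trans (min_le_left _ _); linarith
  have hhr : 2 * h < r1 := by have := hle.trans (min_le_right _ _); linarith
  -- one step
  have step : ∀ t ∈ Icc 0 t1, ∀ t' ∈ Icc 0 t1, |t' - t| * ‖c - z0‖ ≤ h / 2 →
      Λ (wkRho (lchRay z0 c t') h) = Λ (wkRho (lchRay z0 c t) h) := by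
    intro t ht t' ht' hd
    have hWD : wkBall (lchRay z0 c t) (2 * h) ⊆ D :=
      lch_ball_subset hD (hray t ht) (by positivity) (hhκ.trans_le (hκle t ht))
    have hfar := lch_far (H := 2 * h) hρ (by positivity) (by linarith) (lch_ray_far ht.1 hc)
    have hsq : sqDist (lchRay z0 c t') (lchRay z0 c t) ≤ h ^ 2 := by
      have := wk_sq_le_of_dist (z := lchRay z0 c t') (z₀ := lchRay z0 c t) (r := h / 2)
        (by rw [lch_ray_dist]; exact hd)
      calc _ ≤ (2 * (h / 2)) ^ 2 := this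
        _ = h ^ 2 := by ring
    refine lch_bump_eq hΛ (by positivity) hhr hWD hfar hh hh
      (wk_ball_mono _ hh.le (by linarith)) ?_
    have := wk_ball_add (h := h) hh.le hh.le hsq
    rwa [← two_mul] at this
  -- induction
  have ind : ∀ k : ℕ, ∀ t ∈ Icc 0 t1, t * ‖c - z0‖ ≤ k * (h / 2) →
      Λ (wkRho (lchRay z0 c t) h) = Λ (wkRho c h) := by
    intro k
    induction k with
    | zero =>
      intro t ht hk
      have h0 : (0 : ℝ) ∈ Icc 0 t1 := ⟨le_rfl, ht1⟩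
      have := step 0 h0 t ht (by
        rw [sub_zero, abs_of_nonneg ht.1]
        simp only [Nat.cast_zero, zero_mul] at hk
        exact hk.trans (by positivity))
      rwa [lch_ray_zero] at this
    | succ k ih =>
      intro t ht hk
      by_cases hd0 : ‖c - z0‖ = 0
      · exact ih t ht (by rw [hd0, mul_zero]; positivity)
      have hdpos : 0 < ‖c - z0‖ := lt_of_le_of_ne (norm_nonneg _) (Ne.symm hd0)
      set t' : ℝ := max (t - h / 2 / ‖c - z0‖) 0 with ht'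
      have ht'0 : 0 ≤ t' := le_max_right _ _
      have hpos : 0 < h / 2 / ‖c - z0‖ := by positivity
      have ht't : t' ≤ t := max_le (by linarith) ht.1
      have hm : t' ∈ Icc 0 t1 := ⟨ht'0, ht't.trans ht.2⟩
      have e1 : h / 2 / ‖c - z0‖ * ‖c - z0‖ = h / 2 := by field_simp
      have hk' : t' * ‖c - z0‖ ≤ k * (h / 2) := by
        rcases le_total (t - h / 2 / ‖c - z0‖) 0 with hneg | hnn
        · rw [ht', max_eq_right hneg, zero_mul]; positivity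
        · rw [ht', max_eq_left hnn, sub_mul, e1]
          push_cast at hk
          linarith
      rw [← ih t' hm hk']
      refine step t' hm t ht ?_
      rw [abs_of_nonneg (by linarith)]
      have : t - t' ≤ h / 2 / ‖c - z0‖ := by
        have := le_max_left (t - h / 2 / ‖c - z0‖) 0
        rw [← ht'] at this
        linarith
      calc (t - t') * ‖c - z0‖ ≤ h / 2 / ‖c - z0‖ * ‖c - z0‖ := mul_le_mul_of_nonneg_right this hdpos.le
        _ = h / 2 := e1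
  obtain ⟨k, hk⟩ := exists_nat_ge (t1 * ‖c - z0‖ / (h / 2))
  refine ind k t1 ⟨ht1, le_rfl⟩ ?_
  rwa [div_le_iff₀ (by positivity)] at hk

/-- **ONE SLOT**: a linear functional which kills the admissible zero total spectators and vanishes on the bumps of comparable depth at the boundary kills every small spectator far
from `z0`. -/
theorem lch_slot {D : Set (ℝ × ℝ)} (hD : IsOpen D) (hb : Bornology.IsBounded D) {z0 : ℝ × ℝ} {ρ : ℝ} (hρ : 0 < ρ)
    {q : ℕ} {θ : ℝ} (hθ0 : 0 < θ) (hθ1 : θ ≤ 1 / 4) {Λ : (ℝ × ℝ → ℝ) → ℝ} (hΛ : LchSlot D z0 ρ q Λ)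
    (hA3 : ∀ η : ℝ, 0 < η → ∃ a0 : ℝ, 0 < a0 ∧ ∀ z ∈ D, limDep D z < a0 → |Λ (wkRho z (θ * limDep D z))| ≤ η)
    {f : ℝ × ℝ → ℝ} (hf : LchG D z0 ρ q f) : Λ f = 0 := by
  obtain ⟨hfc, c, s, hs0, hs, hcD, hc, hf0⟩ := hf
  set r1 : ℝ := ρ / (1000 * (q + 1)) with hr1
  have hr10 : 0 < r1 := by positivity
  have hr1ρ : r1 ≤ ρ := lch_r1_le hρ q
  have hsr : s < r1 := by
    refine hs.trans_le ?_
    rw [hr1]
    exact div_le_div_of_nonneg_left hρ.le (by positivity) (by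
      have : (0 : ℝ) ≤ q := Nat.cast_nonneg q
      nlinarith)
  have hcmem : c ∈ D := hcD (by show sqDist c c ≤ s ^ 2; simp [sqDist]; positivity)
  have hne : c ≠ z0 := by
    rintro rfl
    have : sqDist c c = 0 := by simp [sqDist]
    rw [this] at hc
    nlinarith
  have hfar0 := lch_far (H := s) hρ hs0.le (by linarith) hc
  -- the value of `Λ` on the bumps at `c` is arbitrarily small
  have small : ∀ η : ℝ, 0 < η → |Λ (wkRho c s)| ≤ η := by
    intro η hη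
    obtain ⟨a0, ha0, hA⟩ := hA3 η hη
    obtain ⟨t1, ht1, hray, hdep⟩ := lch_ray_exit hD hb hcmem hne (lt_min ha0 hr10)
    obtain ⟨h0, hh0, hch⟩ := lch_chain hD hb hρ hΛ hc ht1 hray
    set z1 := lchRay z0 c t1 with hz1
    have hz1D : z1 ∈ D := hray t1 ⟨ht1, le_rfl⟩
    have hd1 : 0 < limDep D z1 := lch_dep_pos hD hb hz1D
    set H := θ * limDep D z1 with hH
    have hH0 : 0 < H := by positivity
    have hHd : H < limDep D z1 := by rw [hH]; nlinarith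
    have hHr : H < r1 := hHd.trans (hdep.trans_le (min_le_right _ _))
    obtain ⟨h, hh, hle0, hles, hleH⟩ : ∃ h : ℝ, 0 < h ∧ h ≤ h0 ∧ h ≤ s ∧ h ≤ H :=
      ⟨min h0 (min s H), by positivity, min_le_left _ _, (min_le_right _ _).trans (min_le_left _ _),
        (min_le_right _ _).trans (min_le_right _ _)⟩
    have e1 : Λ (wkRho c s) = Λ (wkRho c h) :=
      lch_bump_eq hΛ hs0 hsr hcD hfar0 hh hs0 (wk_ball_mono _ hh.le hles) subset_rfl
    have e2 : Λ (wkRho z1 h) = Λ (wkRho c h) := hch h hh hle0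
    have e3 : Λ (wkRho z1 H) = Λ (wkRho z1 h) :=
      lch_bump_eq hΛ hH0 hHr (lch_ball_subset hD hz1D hH0.le hHd)
        (lch_far hρ hH0.le (by linarith) (lch_ray_far ht1 hc)) hh hH0 (wk_ball_mono _ hh.le hleH) subset_rfl
    rw [e1, ← e2, ← e3]
    exact hA z1 hz1D (hdep.trans_le (min_le_left _ _))
  have hzero : Λ (wkRho c s) = 0 := by
    by_contra hn
    have := small (|Λ (wkRho c s)| / 2) (by positivity)
    have h2 : 0 < |Λ (wkRho c s)| := abs_pos.2 hn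
    linarith
  rw [lch_reduce hΛ hs0 hsr hcD hfar0 hfc hf0 hs0 subset_rfl, hzero, mul_zero]

/-! ### all slots -/

/-- **A2loc, abstract form.**  `Tq` = any functional of `q` spectators, additive and homogeneous in each slot on the tests of `D`, which vanishes on the arrangements of `LimArr`
(identity (I)) and satisfies (A3) in each slot.  Then it vanishes on ARBITRARY small spectators far from `z0`. -/
theorem lch_main {D : Set (ℝ × ℝ)} (hD : IsOpen D) (hb : Bornology.IsBounded D) {z0 : ℝ × ℝ} {ρ : ℝ} {q : ℕ}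
    {φ : ℝ × ℝ → ℝ} (hρ : 0 < ρ) (hball : wkBall z0 ρ ⊆ D) (hφ : ContDiff ℝ ∞ φ)
    (hφs : ∀ y, (ρ / 1000) ^ 2 ≤ sqDist y z0 → y ∉ tsupport φ)
    {θ : ℝ} (hθ0 : 0 < θ) (hθ1 : θ ≤ 1 / 4) {Tq : (Fin q → ℝ × ℝ → ℝ) → ℝ}
    (hadd : ∀ (g : Fin q → ℝ × ℝ → ℝ) (i : Fin q) (a b : ℝ × ℝ → ℝ), (∀ l, WkTest D (g l)) → WkTest D a → WkTest D b →
      Tq (Function.update g i fun x => a x + b x) = Tq (Function.update g i a) + Tq (Function.update g i b))
    (hsmul : ∀ (g : Fin q → ℝ × ℝ → ℝ) (i : Fin q) (c : ℝ) (a : ℝ × ℝ → ℝ), (∀ l, WkTest D (g l)) → WkTest D a →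
      Tq (Function.update g i fun x => c * a x) = c * Tq (Function.update g i a))
    (hI : ∀ g : Fin q → ℝ × ℝ → ℝ, LimArr D z0 ρ q φ g → Tq g = 0)
    (hA3 : ∀ (g : Fin q → ℝ × ℝ → ℝ) (i : Fin q), (∀ l, WkTest D (g l)) → ∀ η : ℝ, 0 < η → ∃ a0 : ℝ, 0 < a0 ∧
      ∀ z ∈ D, limDep D z < a0 → |Tq (Function.update g i (wkRho z (θ * limDep D z)))| ≤ η)
    (f : Fin q → ℝ × ℝ → ℝ) (hf : ∀ l, LchG D z0 ρ q (f l)) : Tq f = 0 := by
  classical
  have key : ∀ S : Finset (Fin q), ∀ g : Fin q → ℝ × ℝ → ℝ, (∀ l ∈ S, LchG D z0 ρ q (g l)) →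
      (∀ l, l ∉ S → LchZ D z0 ρ q (g l)) → Tq g = 0 := by
    intro S
    induction S using Finset.induction_on with
    | empty =>
      intro g _ hZ
      refine hI g ⟨hρ, hball, hφ, hφs, fun l => (hZ l (by simp)).1, fun l => (hZ l (by simp)).2.1,
        fun l => (hZ l (by simp)).2.2⟩
    | insert l0 S hl0 ih =>
      intro g hG hZ
      have htest : ∀ l, WkTest D (g l) := by
        intro l
        by_cases hl : l ∈ insert l0 S
        · exact (hG l hl).test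
        · exact (hZ l hl).test
      have hslot : LchSlot D z0 ρ q fun a => Tq (Function.update g l0 a) := by
        refine ⟨fun a b ha hb => hadd g l0 a b htest ha hb, fun c a ha => hsmul g l0 c a htest ha, fun a ha => ?_⟩
        refine ih _ (fun l hl => ?_) (fun l hl => ?_)
        · have : l ≠ l0 := fun h => hl0 (h ▸ hl)
          rw [Function.update_of_ne this]
          exact hG l (Finset.mem_insert_of_mem hl)
        · by_cases h : l = l0
          · subst h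
            rw [Function.update_self]; exact ha
          · rw [Function.update_of_ne h]
            exact hZ l (by simp [h, hl])
      have := lch_slot hD hb hρ hθ0 hθ1 hslot (hA3 g l0 htest) (hG l0 (Finset.mem_insert_self _ _))
      simpa using this
  exact key Finset.univ f (fun l _ => hf l) (fun l hl => absurd (Finset.mem_univ l) hl)

/-! ### multiset adapter: the field `harm` of `WkData` -/

theorem lch_map_update {α : Type*} {q : ℕ} (g : Fin q → α) (i : Fin q) (a : α) :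
    (Finset.univ : Finset (Fin q)).val.map (Function.update g i a) =
      a ::ₘ ((Finset.univ : Finset (Fin q)).erase i).val.map g := by
  classical
  have h1 : (Finset.univ : Finset (Fin q)).val = i ::ₘ ((Finset.univ : Finset (Fin q)).erase i).val := by
    rw [Finset.erase_val, Multiset.cons_erase (Finset.mem_univ i)]
  conv_lhs => rw [h1]
  rw [Multiset.map_cons, Function.update_self]
  congr 1
  refine Multiset.map_congr rfl fun l hl => ?_
  have hl' : l ∈ (Finset.univ : Finset (Fin q)).erase i := hl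
  have : l ≠ i := (Finset.mem_erase.1 hl').1
  rw [Function.update_of_ne this]

theorem lch_rho_le : ∃ M : ℝ, 0 < M ∧ ∀ (z : ℝ × ℝ) (h : ℝ), 0 < h → ∀ x, wkRho z h x ≤ M / h ^ 2 := by
  obtain ⟨M, hM0, hM⟩ := wk_rho_bdd (h := 1) one_pos
  refine ⟨M + 1, by positivity, fun z h hh x => ?_⟩
  rw [wk_rho_scale, div_eq_inv_mul]
  refine mul_le_mul_of_nonneg_left ?_ (by positivity)
  exact (le_abs_self _).trans ((hM 0 _).trans (by linarith))

/-- **the field `harm` of `WkData`** from `add`, `smul`, `bdry` and the insertion identity (I). -/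
theorem lch_harm {D : Set (ℝ × ℝ)} (hD : IsOpen D) (hb : Bornology.IsBounded D) {T : Multiset (ℝ × ℝ → ℝ) → ℝ}
    (add : ∀ (g g' : ℝ × ℝ → ℝ) (s : Multiset (ℝ × ℝ → ℝ)), WkTest D g → WkTest D g' → (∀ k ∈ s, WkTest D k) →
      T ((fun y => g y + g' y) ::ₘ s) = T (g ::ₘ s) + T (g' ::ₘ s))
    (smul : ∀ (c : ℝ) (g : ℝ × ℝ → ℝ) (s : Multiset (ℝ × ℝ → ℝ)), WkTest D g → (∀ k ∈ s, WkTest D k) →
      T ((fun y => c * g y) ::ₘ s) = c * T (g ::ₘ s))
    (bdry : ∃ θ : ℝ, 0 < θ ∧ θ ≤ 1 / 4 ∧ ∀ s : Multiset (ℝ × ℝ → ℝ), (∀ k ∈ s, WkTest D k) → ∀ A : ℝ, 0 < A → ∀ η : ℝ, 0 < η →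
      ∃ a : ℝ, 0 < a ∧ ∀ z ∈ D, limDep D z < a → ∀ g : ℝ × ℝ → ℝ, Continuous g → (∀ y, 0 ≤ g y) →
        (∀ y, g y ≤ A / limDep D z ^ 2) → (∀ y, y ∉ wkBall z (θ * limDep D z) → g y = 0) → |T (g ::ₘ s)| ≤ η)
    (ins : ∀ (z0 : ℝ × ℝ) (ρ : ℝ) (q : ℕ) (φ : ℝ × ℝ → ℝ) (g : Fin q → ℝ × ℝ → ℝ), LimArr D z0 ρ q φ g →
      T (lap2 φ ::ₘ (Finset.univ : Finset (Fin q)).val.map g) = 0) :
    ∀ (z0 : ℝ × ℝ) (ρ : ℝ) (φ : ℝ × ℝ → ℝ) (s : Multiset (ℝ × ℝ → ℝ)), 0 < ρ → wkBall z0 ρ ⊆ D →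
      ContDiff ℝ ∞ φ → tsupport φ ⊆ wkBall z0 (ρ / 2000) →
      (∀ g ∈ s, WkTest D g ∧ ∃ (c : ℝ × ℝ) (r : ℝ), 0 < r ∧ r < ρ / (4000 * ((Multiset.card s : ℝ) + 1)) ∧ wkBall c r ⊆ D ∧
        (2 * ρ) ^ 2 ≤ sqDist c z0 ∧ ∀ y, y ∉ wkBall c r → g y = 0) →
      T (lap2 φ ::ₘ s) = 0 := by
  classical
  intro z0 ρ φ s hρ hball hφ hφs hs
  obtain ⟨θ, hθ0, hθ1, hbd⟩ := bdry
  obtain ⟨q, f, hq, rfl⟩ := wk_multiset_fin s
  -- `lap2 φ` is a test
  have hsub : wkBall z0 (ρ / 2000) ⊆ D := (wk_ball_mono z0 (by positivity) (by linarith)).trans hball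
  have hφc : HasCompactSupport φ :=
    (wk_ball_compact z0 (by positivity : (0 : ℝ) ≤ ρ / 2000)).of_isClosed_subset (isClosed_tsupport φ) hφs
  have hLt : WkTest D (lap2 φ) :=
    ⟨wkg_lap_continuous (hφ.of_le (WithTop.coe_le_coe.2 le_top)), wkg_lap_compact hφc,
      (wkg_lap_tsupport φ).trans (hφs.trans hsub)⟩
  have hrest : ∀ (g : Fin q → ℝ × ℝ → ℝ) (i : Fin q), (∀ l, WkTest D (g l)) →
      ∀ k ∈ lap2 φ ::ₘ ((Finset.univ : Finset (Fin q)).erase i).val.map g, WkTest D k := by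
    intro g i hg k hk
    rcases Multiset.mem_cons.1 hk with rfl | hk
    · exact hLt
    · obtain ⟨l, -, rfl⟩ := Multiset.mem_map.1 hk
      exact hg l
  have hform : ∀ (g : Fin q → ℝ × ℝ → ℝ) (i : Fin q) (a : ℝ × ℝ → ℝ),
      T (lap2 φ ::ₘ (Finset.univ : Finset (Fin q)).val.map (Function.update g i a)) =
        T (a ::ₘ lap2 φ ::ₘ ((Finset.univ : Finset (Fin q)).erase i).val.map g) := by
    intro g i a
    rw [lch_map_update, Multiset.cons_swap]
  obtain ⟨M, hM0, hM⟩ := lch_rho_le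
  refine lch_main (Tq := fun g => T (lap2 φ ::ₘ (Finset.univ : Finset (Fin q)).val.map g)) hD hb hρ hball hφ
    (fun y hy hyt => ?_) hθ0 hθ1 (fun g i a b hg ha hb' => ?_) (fun g i c a hg ha => ?_)
    (fun g hg => ins z0 ρ q φ g hg) (fun g i hg η hη => ?_) f (fun l => ?_)
  · have h1 : sqDist y z0 ≤ (ρ / 2000) ^ 2 := hφs hyt
    have h2 : (ρ / 2000) ^ 2 < (ρ / 1000) ^ 2 := pow_lt_pow_left₀ (by linarith) (by positivity) (by norm_num)
    linarith
  · simp only [hform]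
    exact add a b _ ha hb' (hrest g i hg)
  · simp only [hform]
    exact smul c a _ ha (hrest g i hg)
  · obtain ⟨a0, ha0, hA⟩ := hbd _ (hrest g i hg) (M / θ ^ 2) (by positivity) η hη
    refine ⟨a0, ha0, fun z hz hdep => ?_⟩
    simp only [hform]
    have hd : 0 < limDep D z := lch_dep_pos hD hb hz
    refine hA z hz hdep _ (wk_rho_continuous _ _) (wk_rho_nonneg _ _) (fun y => ?_)
      (fun y hy => wk_rho_zero z (by positivity) hy)
    refine (hM z _ (by positivity) y).trans (le_of_eq ?_)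
    rw [mul_pow]; field_simp
  · obtain ⟨ht, c, r, hr0, hr, hcD, hc, h0⟩ := hs (f l) (Multiset.mem_map_of_mem f (Finset.mem_univ l))
    refine ⟨ht.cont, c, r, hr0, ?_, hcD, hc, h0⟩
    have : ((Multiset.card ((Finset.univ : Finset (Fin q)).val.map f) : ℕ) : ℝ) = (q : ℝ) := by
      rw [← hq]
    rwa [this] at hr

end Claimed.Agent.R291
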