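import Claimed.Agent.R291.Lim.Trans
import Claimed.Agent.R291.Lim.Chain

/-!
# Row 291 (S0539), Lim/Bind : THE INSTANCE `WkData D v (lmTz x δ F 𝒰)` AND THE WAY BACK      (owner helper165; prefix `lmb_`)

TEX[sec:limit] (07-limit.tex).  Every field of the contract `WkData` (Defs/Wick, helper108) for the ultrafilter limit `lmTz` of the frozen mixed moments (Lim/Ult):
* `add`, `smul`          `lm_T_add`, `lm_T_smul`
* `hol`                  SHARP Hoelder without roots: AM-GM `∏ |z_k| ≤ 1/2 + (2j)⁻¹ ∑ z_k^(2j)` (`lmb_amgm`), normalisation, `ε → 0`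
* `mom_fix`, `mom_small` `lim_sm_fixed`, `lim_sm_small` (172) read along `𝒰`
* `bdry`                 `LimBD` read along `𝒰`
* `harm`                 `lch_harm` (86) + `lim_trans` (Lim/Trans)
* `coll`                 `LimDec` read along `𝒰` (boundedness of the collision moment follows from `LimDec` itself)
* **`lmb_data`**         the instance
* **`lmb_out`**          the Wick recursion for every `WkData` ⟹ `LimOut x v`
-/

set_option autoImplicit false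

namespace Claimed.Agent.R291

open MeasureTheory Filter Topology Set
open scoped ContDiff
open Claims Claims.C0467

/-! ### sharp Hoelder without roots -/

/-- AM-GM in the form used here -/
theorem lmb_amgm_fin {j : ℕ} (hj : j ≠ 0) (z : Fin j → ℝ) :
    ∏ i, |z i| ≤ 1 / 2 + (2 * (j : ℝ))⁻¹ * ∑ i, z i ^ (2 * j) := by
  have hjR : (0 : ℝ) < j := by exact_mod_cast Nat.pos_of_ne_zero hj
  have h1 := Real.geom_mean_le_arith_mean_weighted (Finset.univ : Finset (Fin j)) (fun _ => (j : ℝ)⁻¹)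
    (fun i => |z i| ^ j) (fun _ _ => by positivity) (by
      rw [Finset.sum_const, Finset.card_univ, Fintype.card_fin, nsmul_eq_mul]
      exact mul_inv_cancel₀ hjR.ne') (fun i _ => by positivity)
  have h2 : ∀ i, (|z i| ^ j) ^ ((j : ℝ)⁻¹) = |z i| := fun i => Real.pow_rpow_inv_natCast (abs_nonneg _) hj
  simp only [h2] at h1
  refine h1.trans ?_
  have h3 : ∀ i, |z i| ^ j ≤ (1 + z i ^ (2 * j)) / 2 := by
    intro i
    have e : z i ^ (2 * j) = (|z i| ^ j) ^ 2 := by rw [← pow_mul, mul_comm j 2, pow_mul, pow_mul, sq_abs]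
    rw [e]
    nlinarith [sq_nonneg (|z i| ^ j - 1)]
  calc ∑ i, (j : ℝ)⁻¹ * |z i| ^ j ≤ ∑ i, (j : ℝ)⁻¹ * ((1 + z i ^ (2 * j)) / 2) :=
        Finset.sum_le_sum fun i _ => mul_le_mul_of_nonneg_left (h3 i) (by positivity)
    _ = 1 / 2 + (2 * (j : ℝ))⁻¹ * ∑ i, z i ^ (2 * j) := by
        rw [← Finset.mul_sum, ← Finset.sum_div, Finset.sum_add_distrib, Finset.sum_const, Finset.card_univ,
          Fintype.card_fin, nsmul_eq_mul]
        field_simp

theorem lmb_amgm {ι : Type*} (s : Multiset ι) (hs : s ≠ 0) (t : ι → ℝ) :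
    (s.map fun k => |t k|).prod
      ≤ 1 / 2 + (2 * (Multiset.card s : ℝ))⁻¹ * (s.map fun k => t k ^ (2 * Multiset.card s)).sum := by
  obtain ⟨j, f, hj, rfl⟩ := wk_multiset_fin s
  have hj0 : j ≠ 0 := by
    rintro rfl
    exact hs (by simp)
  rw [← hj, Multiset.map_map, Multiset.map_map]
  exact lmb_amgm_fin hj0 fun i => t (f i)

theorem lmb_prod_pos {ι : Type*} (s : Multiset ι) (B : ι → ℝ) (hB : ∀ k ∈ s, 0 < B k) : 0 < (s.map B).prod := by
  induction s using Multiset.induction_on with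
  | empty => simp
  | cons k s ih =>
    rw [Multiset.map_cons, Multiset.prod_cons]
    exact mul_pos (hB k (Multiset.mem_cons_self _ _)) (ih fun k hk => hB k (Multiset.mem_cons_of_mem hk))

theorem lmb_prod_div {ι : Type*} (s : Multiset ι) (Y B : ι → ℝ) (hB : ∀ k ∈ s, 0 < B k) :
    (s.map fun k => |Y k / B k|).prod = |(s.map Y).prod| / (s.map B).prod := by
  induction s using Multiset.induction_on with
  | empty => simp
  | cons k s ih =>
    have hk := hB k (Multiset.mem_cons_self _ _)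
    simp only [Multiset.map_cons, Multiset.prod_cons]
    rw [ih fun k hk => hB k (Multiset.mem_cons_of_mem hk), abs_div, abs_mul, abs_of_pos hk]
    rw [div_mul_div_comm]

/-- SHARP HOELDER WITHOUT ROOTS: `E X_k^(2j) ≤ B_k^(2j)`, `j = card s`, `B_k > 0` ⟹ `|E ∏ X_k| ≤ ∏ B_k` -/
theorem lmb_E_sharp {α ι : Type*} {A : Finset α} {w : α → ℝ} (hw : ∀ a ∈ A, 0 ≤ w a) (hZ : 0 < ∑ a ∈ A, w a)
    (s : Multiset ι) (X : ι → α → ℝ) (B : ι → ℝ) (hB : ∀ k ∈ s, 0 < B k)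
    (hX : ∀ k ∈ s, lmE A w (fun a => X k a ^ (2 * Multiset.card s)) ≤ B k ^ (2 * Multiset.card s)) :
    |lmE A w (fun a => (s.map fun k => X k a).prod)| ≤ (s.map B).prod := by
  by_cases hs : s = 0
  · subst hs
    simp [lm_E_const hZ]
  set p := 2 * Multiset.card s with hp
  have hcard : (0 : ℝ) < Multiset.card s := by
    exact_mod_cast Multiset.card_pos.2 hs
  have hBp : 0 < (s.map B).prod := lmb_prod_pos s B hB
  have key : ∀ a, |(s.map fun k => X k a).prod|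
      ≤ (s.map B).prod * (1 / 2 + (2 * (Multiset.card s : ℝ))⁻¹ * (s.map fun k => (B k ^ p)⁻¹ * X k a ^ p).sum) := by
    intro a
    have h1 := lmb_amgm s hs (fun k => X k a / B k)
    have h2 : (s.map fun k => |X k a / B k|).prod = |(s.map fun k => X k a).prod| / (s.map B).prod :=
      lmb_prod_div s (fun k => X k a) B hB
    rw [h2, div_le_iff₀ hBp] at h1
    have h3 : (s.map fun k => (X k a / B k) ^ p) = s.map fun k => (B k ^ p)⁻¹ * X k a ^ p :=
      Multiset.map_congr rfl fun k _ => by rw [div_pow, div_eq_mul_inv, mul_comm]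
    rw [← hp, h3] at h1
    linarith
  calc |lmE A w (fun a => (s.map fun k => X k a).prod)|
      ≤ lmE A w (fun a => |(s.map fun k => X k a).prod|) := lm_E_abs_le hw _
    _ ≤ lmE A w (fun a => (s.map B).prod *
          (1 / 2 + (2 * (Multiset.card s : ℝ))⁻¹ * (s.map fun k => (B k ^ p)⁻¹ * X k a ^ p).sum)) :=
        lm_E_mono hw fun a _ => key a
    _ = (s.map B).prod * (1 / 2 + (2 * (Multiset.card s : ℝ))⁻¹ *
          (s.map fun k => (B k ^ p)⁻¹ * lmE A w (fun a => X k a ^ p)).sum) := by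
        rw [lm_E_mul_left, lm_E_add, lm_E_const hZ, lm_E_mul_left, lm_E_msum]
        congr 4
        exact Multiset.map_congr rfl fun k _ => lm_E_mul_left _ _ _ _
    _ ≤ (s.map B).prod * 1 := by
        refine mul_le_mul_of_nonneg_left ?_ hBp.le
        have : (s.map fun k => (B k ^ p)⁻¹ * lmE A w (fun a => X k a ^ p)).sum ≤ (s.map fun _ => (1 : ℝ)).sum := by
          refine Multiset.sum_map_le_sum_map _ _ fun k hk => ?_
          have hb : 0 < B k ^ p := pow_pos (hB k hk) _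
          rw [inv_mul_le_iff₀ hb, mul_one]
          exact hX k hk
        rw [Multiset.map_const', Multiset.sum_replicate, nsmul_eq_mul, mul_one] at this
        have h5 : (2 * (Multiset.card s : ℝ))⁻¹ * (s.map fun k => (B k ^ p)⁻¹ * lmE A w (fun a => X k a ^ p)).sum
            ≤ (2 * (Multiset.card s : ℝ))⁻¹ * Multiset.card s := mul_le_mul_of_nonneg_left this (by positivity)
        have h6 : (2 * (Multiset.card s : ℝ))⁻¹ * Multiset.card s = 1 / 2 := by field_simp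
        linarith
    _ = (s.map B).prod := mul_one _

theorem lmb_eventually_all {ι : Type*} {l : Filter ℕ} (s : Multiset ι) (Q : ι → ℕ → Prop)
    (h : ∀ k ∈ s, ∀ᶠ n in l, Q k n) : ∀ᶠ n in l, ∀ k ∈ s, Q k n := by
  induction s using Multiset.induction_on with
  | empty => simp
  | cons k s ih =>
    have h1 := h k (Multiset.mem_cons_self _ _)
    have h2 := ih fun k hk => h k (Multiset.mem_cons_of_mem hk)
    filter_upwards [h1, h2] with n a1 a2 f hf
    rcases Multiset.mem_cons.1 hf with rfl | hf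
    · exact a1
    · exact a2 f hf

/-! ### the moments of the frozen law in the three shapes used by `Defs/Lim` -/

theorem lmb_M_cons_fin (x δ : ℝ) (F : Finset TV) (g : ℝ × ℝ → ℝ) {k : ℕ} (f : Fin k → ℝ × ℝ → ℝ) :
    lmM (htCfg (latInt F) 0) (htWt x (latInt F)) (fun g h => htSm δ F g h) (g ::ₘ Finset.univ.val.map f)
      = htFz x F fun h => htSm δ F g h * ∏ i, htSm δ F (f i) h := by
  rw [lm_M_eq]
  congr 1
  funext h
  rw [Multiset.map_cons, Multiset.prod_cons, Multiset.map_map]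
  rfl

theorem lmb_M_cons2_fin (x δ : ℝ) (F : Finset TV) (g g' : ℝ × ℝ → ℝ) {k : ℕ} (f : Fin k → ℝ × ℝ → ℝ) :
    lmM (htCfg (latInt F) 0) (htWt x (latInt F)) (fun g h => htSm δ F g h) (g ::ₘ g' ::ₘ Finset.univ.val.map f)
      = htFz x F fun h => htSm δ F g h * htSm δ F g' h * ∏ i, htSm δ F (f i) h := by
  rw [lm_M_eq]
  congr 1
  funext h
  rw [Multiset.map_cons, Multiset.prod_cons, Multiset.map_cons, Multiset.prod_cons, Multiset.map_map, mul_assoc]
  rfl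

theorem lmb_M_replicate (x δ : ℝ) (F : Finset TV) (g : ℝ × ℝ → ℝ) (k : ℕ) :
    lmM (htCfg (latInt F) 0) (htWt x (latInt F)) (fun g h => htSm δ F g h) (Multiset.replicate k g)
      = htFz x F fun h => htSm δ F g h ^ k := by
  rw [lm_M_eq]
  congr 1
  funext h
  rw [Multiset.map_replicate, Multiset.prod_replicate]

section inst

variable {x : ℝ} {D : Set (ℝ × ℝ)} {δ : ℕ → ℝ} {F : ℕ → Finset TV}

theorem lmb_tendsto (hx : 0 < x) (hSM : LimSM x) (hD : IsOpen D) (hB : Bornology.IsBounded D) (hF : IsInsideApprox D δ F)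
    (𝒰 : Ultrafilter ℕ) (hU : (𝒰 : Filter ℕ) ≤ atTop) {s : Multiset (ℝ × ℝ → ℝ)} (hs : ∀ k ∈ s, WkTest D k) :
    Tendsto (fun n => lmM (htCfg (latInt (F n)) 0) (htWt x (latInt (F n))) (fun g h => htSm (δ n) (F n) g h) s) 𝒰
      (𝓝 (lmTz x δ F 𝒰 s)) :=
  lm_T_tendsto 𝒰 (lm_ok hx hSM hD hB hF) hU hs

theorem lmb_tendsto_pow (hx : 0 < x) (hSM : LimSM x) (hD : IsOpen D) (hB : Bornology.IsBounded D) (hF : IsInsideApprox D δ F)
    (𝒰 : Ultrafilter ℕ) (hU : (𝒰 : Filter ℕ) ≤ atTop) {g : ℝ × ℝ → ℝ} (hg : WkTest D g) (k : ℕ) :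
    Tendsto (fun n => htFz x (F n) fun h => htSm (δ n) (F n) g h ^ k) 𝒰 (𝓝 (lmTz x δ F 𝒰 (Multiset.replicate k g))) := by
  have := lmb_tendsto hx hSM hD hB hF 𝒰 hU (s := Multiset.replicate k g) (fun f hf => by
    rw [Multiset.eq_of_mem_replicate hf]; exact hg)
  simpa only [lmb_M_replicate] using this

/-- field `hol` -/
theorem lmb_hol (hx : 0 < x) (hSM : LimSM x) (hD : IsOpen D) (hB : Bornology.IsBounded D) (hF : IsInsideApprox D δ F)
    (𝒰 : Ultrafilter ℕ) (hU : (𝒰 : Filter ℕ) ≤ atTop) (s : Multiset ((ℝ × ℝ → ℝ) × ℝ))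
    (h : ∀ p ∈ s, WkTest D p.1 ∧ 0 ≤ p.2 ∧
      lmTz x δ F 𝒰 (Multiset.replicate (2 * Multiset.card s) p.1) ≤ p.2 ^ (2 * Multiset.card s)) :
    |lmTz x δ F 𝒰 (s.map Prod.fst)| ≤ (s.map Prod.snd).prod := by
  by_cases hs : s = 0
  · subst hs
    have : lmTz x δ F 𝒰 0 = 1 := lm_T_zero 𝒰 (lm_ok hx hSM hD hB hF)
    simp [this]
  have hcard : 0 < Multiset.card s := Multiset.card_pos.2 hs
  have step : ∀ ε : ℝ, 0 < ε → |lmTz x δ F 𝒰 (s.map Prod.fst)| ≤ (s.map fun p => p.2 + ε).prod := by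
    intro ε hε
    have ev : ∀ᶠ n in (𝒰 : Filter ℕ), ∀ p ∈ s,
        htFz x (F n) (fun h => htSm (δ n) (F n) p.1 h ^ (2 * Multiset.card s)) ≤ (p.2 + ε) ^ (2 * Multiset.card s) := by
      refine lmb_eventually_all s _ fun p hp => ?_
      obtain ⟨t, p0, pm⟩ := h p hp
      have hlt : lmTz x δ F 𝒰 (Multiset.replicate (2 * Multiset.card s) p.1) < (p.2 + ε) ^ (2 * Multiset.card s) :=
        lt_of_le_of_lt pm (pow_lt_pow_left₀ (by linarith) p0 (by omega))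
      exact ((lmb_tendsto_pow hx hSM hD hB hF 𝒰 hU t _).eventually_lt_const hlt).mono fun n hn => hn.le
    refine lm_U_abs_le 𝒰 (ev.mono fun n hn => ?_)
    have := lmb_E_sharp (fun a _ => (ht_wt_pos hx (latInt (F n)) a).le) (ht_Z_pos_zero hx (latInt (F n))) s
      (fun p h => htSm (δ n) (F n) p.1 h) (fun p => p.2 + ε) (fun p hp => by linarith [(h p hp).2.1]) hn
    unfold lmM
    simpa only [Multiset.map_map, Function.comp_def] using this
  have hcont : Tendsto (fun ε : ℝ => (s.map fun p => p.2 + ε).prod) (𝓝[>] 0) (𝓝 (s.map fun p => p.2 + 0).prod) := by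
    refine tendsto_multiset_prod s fun p _ => ?_
    exact (tendsto_const_nhds.add tendsto_id).mono_left nhdsWithin_le_nhds
  simp only [add_zero] at hcont
  exact ge_of_tendsto hcont (eventually_mem_nhdsWithin.mono fun ε hε => step ε hε)

/-- field `bdry` -/
theorem lmb_bdry (hBD : LimBD x D δ F) (𝒰 : Ultrafilter ℕ) (hU : (𝒰 : Filter ℕ) ≤ atTop) :
    ∃ θ : ℝ, 0 < θ ∧ θ ≤ 1 / 4 ∧ ∀ s : Multiset (ℝ × ℝ → ℝ), (∀ k ∈ s, WkTest D k) → ∀ A : ℝ, 0 < A → ∀ η : ℝ, 0 < η →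
    ∃ a : ℝ, 0 < a ∧ ∀ z ∈ D, limDep D z < a → ∀ g : ℝ × ℝ → ℝ, Continuous g → (∀ y, 0 ≤ g y) → (∀ y, g y ≤ A / limDep D z ^ 2) →
      (∀ y, y ∉ wkBall z (θ * limDep D z) → g y = 0) → |lmTz x δ F 𝒰 (g ::ₘ s)| ≤ η := by
  obtain ⟨θ, h0, h1, H⟩ := hBD
  refine ⟨θ, h0, h1, fun s hs A hA η hη => ?_⟩
  obtain ⟨k, f, -, rfl⟩ := wk_multiset_fin s
  obtain ⟨a, ha, Ha⟩ := H k f (fun i => hs (f i) (Multiset.mem_map_of_mem _ (Finset.mem_univ_val i))) A hA η hη
  refine ⟨a, ha, fun z hz hdz g hg g0 gA gs => ?_⟩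
  refine lm_T_abs_le 𝒰 hU ((Ha z hz hdz g hg g0 gA gs).mono fun n hn => ?_)
  rw [lmb_M_cons_fin]
  exact hn

/-- the insertion identity along `𝒰` -/
theorem lmb_ins (hI : LimIns x D δ F) (𝒰 : Ultrafilter ℕ) (hU : (𝒰 : Filter ℕ) ≤ atTop)
    (z0 : ℝ × ℝ) (ρ : ℝ) (q : ℕ) (φ : ℝ × ℝ → ℝ) (g : Fin q → ℝ × ℝ → ℝ) (hA : LimArr D z0 ρ q φ g) :
    lmTz x δ F 𝒰 (lap2 φ ::ₘ (Finset.univ : Finset (Fin q)).val.map g) = 0 := by
  refine lm_T_eq 𝒰 hU ?_
  simp only [lmb_M_cons_fin]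
  exact hI z0 ρ q φ g hA

/-- field `coll` -/
theorem lmb_coll {v : ℝ} (hx : 0 < x) (hSM : LimSM x) (hD : IsOpen D) (hB : Bornology.IsBounded D) (hF : IsInsideApprox D δ F)
    (hDec : LimDec x v D δ F) (𝒰 : Ultrafilter ℕ) (hU : (𝒰 : Filter ℕ) ≤ atTop)
    (K0 : Set (ℝ × ℝ)) (R0 : ℝ) (hK0 : IsCompact K0) (hR0 : 0 < R0) (hb : ∀ y0 ∈ K0, wkBall y0 R0 ⊆ D)
    (s : Multiset (ℝ × ℝ → ℝ)) (hs : ∀ k ∈ s, WkTest D k) (hs0 : ∀ k ∈ s, ∀ y0 ∈ K0, ∀ y ∈ wkBall y0 R0, k y = 0)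
    (η β : ℝ × ℝ → ℝ) (hη : ContDiff ℝ ∞ η) (hηc : HasCompactSupport η) (hβ : ContDiff ℝ ∞ β) (hβc : HasCompactSupport β)
    (hβ0 : ∫ y, β y = 0) (ε : ℝ) (hε : 0 < ε) :
    ∃ r0 : ℝ, 0 < r0 ∧ ∀ y0 ∈ K0, ∀ r : ℝ, 0 < r → r < r0 →
      |lmTz x δ F 𝒰 ((fun y => -lap2 (limSc η y0 r) y) ::ₘ (fun y => (r ^ 2)⁻¹ * limSc β y0 r y) ::ₘ s)
        - v * (∫ y, η y * β y) * lmTz x δ F 𝒰 s| ≤ ε := by
  obtain ⟨k, f, -, rfl⟩ := wk_multiset_fin s
  have hf : ∀ i, f i ∈ (Finset.univ : Finset (Fin k)).val.map f := fun i => Multiset.mem_map_of_mem _ (Finset.mem_univ_val i)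
  obtain ⟨r0, hr0, H⟩ := hDec K0 R0 hK0 hR0 hb k f (fun i => hs _ (hf i)) (fun i => hs0 _ (hf i)) η β hη hηc hβ hβc hβ0 ε hε
  refine ⟨r0, hr0, fun y0 hy0 r hr hrr => ?_⟩
  have ev := hU (H y0 hy0 r hr hrr)
  have tb := lmb_tendsto hx hSM hD hB hF 𝒰 hU hs
  simp only [lm_M_fin] at tb
  obtain ⟨C, hC⟩ := lm_M_bdd (lm_ok hx hSM hD hB hF) (s := (Finset.univ : Finset (Fin k)).val.map f) hs
  have hC' := hU hC
  simp only [lm_M_fin] at hC'
  set c : ℝ := v * ∫ y, η y * β y with hc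
  have ta : Tendsto (fun n => lmM (htCfg (latInt (F n)) 0) (htWt x (latInt (F n))) (fun g h => htSm (δ n) (F n) g h)
      ((fun y => -lap2 (limSc η y0 r) y) ::ₘ (fun y => (r ^ 2)⁻¹ * limSc β y0 r y) ::ₘ Finset.univ.val.map f)) 𝒰
      (𝓝 (lmTz x δ F 𝒰 ((fun y => -lap2 (limSc η y0 r) y) ::ₘ (fun y => (r ^ 2)⁻¹ * limSc β y0 r y) ::ₘ
        Finset.univ.val.map f))) := by
    refine lm_U_tendsto 𝒰 (C := ε + |c| * C) ?_
    filter_upwards [ev, hC'] with n h1 h2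
    rw [lmb_M_cons2_fin]
    have h3 : |c * limM x (δ n) (F n) f| ≤ |c| * C := by
      rw [abs_mul]; exact mul_le_mul_of_nonneg_left h2 (abs_nonneg _)
    have h4 := abs_sub_abs_le_abs_sub
      (htFz x (F n) fun h => htSm (δ n) (F n) (fun y => -lap2 (limSc η y0 r) y) h *
        htSm (δ n) (F n) (fun y => (r ^ 2)⁻¹ * limSc β y0 r y) h * ∏ i, htSm (δ n) (F n) (f i) h)
      (c * limM x (δ n) (F n) f)
    linarith
  simp only [lmb_M_cons2_fin] at ta
  exact le_of_tendsto (ta.sub (tb.const_mul c)).abs ev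

/-- **THE INSTANCE**: the ultrafilter limits of the frozen mixed moments satisfy the contract of unit WICK -/
theorem lmb_data {v : ℝ} (hx : 0 < x) (hSM : LimSM x) (hD : IsOpen D) (hB : Bornology.IsBounded D) (hF : IsInsideApprox D δ F)
    (hBD : LimBD x D δ F) (hBRK : LimBRK x D δ F) (hDec : LimDec x v D δ F)
    (𝒰 : Ultrafilter ℕ) (hU : (𝒰 : Filter ℕ) ≤ atTop) : WkData D v (lmTz x δ F 𝒰) := by
  have hok := lm_ok hx hSM hD hB hF
  have add : ∀ (g g' : ℝ × ℝ → ℝ) (s : Multiset (ℝ × ℝ → ℝ)), WkTest D g → WkTest D g' → (∀ k ∈ s, WkTest D k) →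
      lmTz x δ F 𝒰 ((fun y => g y + g' y) ::ₘ s) = lmTz x δ F 𝒰 (g ::ₘ s) + lmTz x δ F 𝒰 (g' ::ₘ s) :=
    fun g g' s hg hg' hs => lm_T_add 𝒰 hok hU hg hg' hs
  have smul : ∀ (c : ℝ) (g : ℝ × ℝ → ℝ) (s : Multiset (ℝ × ℝ → ℝ)), WkTest D g → (∀ k ∈ s, WkTest D k) →
      lmTz x δ F 𝒰 ((fun y => c * g y) ::ₘ s) = c * lmTz x δ F 𝒰 (g ::ₘ s) :=
    fun c g s hg hs => lm_T_smul 𝒰 hok hU c hg hs
  have bdry := lmb_bdry hBD 𝒰 hU
  refine ⟨add, smul, lmb_hol hx hSM hD hB hF 𝒰 hU, ?_, ?_, ?_, bdry, lmb_coll hx hSM hD hB hF hDec 𝒰 hU⟩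
  · intro m K hK hKD
    obtain ⟨C, hC, H⟩ := lim_sm_fixed hx hSM hD hB hF hK hKD m
    refine ⟨C, hC, fun M g hg hM h0 => ?_⟩
    exact le_of_tendsto (lmb_tendsto_pow hx hSM hD hB hF 𝒰 hU hg (2 * m)) (hU (H.mono fun n hn => hn M g hM h0))
  · intro m K hK hKD
    obtain ⟨C, r0, hC, hr0, hr1, H⟩ := lim_sm_small hx hSM hD hB hF hK hKD m
    refine ⟨C, r0, hC, hr0, hr1, fun z hz r hr hrr M g hg hM h0 => ?_⟩
    exact le_of_tendsto (lmb_tendsto_pow hx hSM hD hB hF 𝒰 hU hg (2 * m))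
      (hU ((H z hz r hr hrr).mono fun n hn => hn M g hM h0))
  · exact lch_harm hD hB add smul bdry (lmb_ins (lim_trans hx hSM hD hB hF hBRK) 𝒰 hU)

end inst

/-! ### the way back -/

/-- the conclusion of the abstract Wick identity (unit WICK, `wk_main`), as a hypothesis on the constant `v` -/
def LmbWick (v : ℝ) : Prop :=
  ∀ (D : Set (ℝ × ℝ)) (T : Multiset (ℝ × ℝ → ℝ) → ℝ), IsOpen D → Bornology.IsBounded D → WkData D v T →
    ∀ f : ℝ × ℝ → ℝ, ContDiff ℝ ∞ f → HasCompactSupport f → tsupport f ⊆ D →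
    ∀ u : ℝ × ℝ → ℝ, ContDiffOn ℝ 2 u D → ContinuousOn u (closure D) → (∀ z ∈ frontier D, u z = 0) → (∀ z ∈ D, -lap2 u z = f z) →
    ∀ j : ℕ, T (Multiset.replicate (j + 2) f) = (j + 1) * v * (∫ z in D, f z * u z) * T (Multiset.replicate j f)

theorem LmbWick_eqns_cite : True := by
  have := @LmbWick.eq_1
  trivial

/-- **the output of LIM** from its four inputs (in the form consumed: `LimSM`, `LimBD`, `LimBRK`, `LimDec`) and the abstract Wick identity -/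
theorem lmb_out {x v : ℝ} (hx : 0 < x) (hSM : LimSM x)
    (hBD : ∀ (D : Set (ℝ × ℝ)) (δ : ℕ → ℝ) (F : ℕ → Finset TV), IsC2JordanDomain D → IsInsideApprox D δ F → LimBD x D δ F)
    (hBRK : ∀ (D : Set (ℝ × ℝ)) (δ : ℕ → ℝ) (F : ℕ → Finset TV), IsC2JordanDomain D → IsInsideApprox D δ F → LimBRK x D δ F)
    (hDec : ∀ (D : Set (ℝ × ℝ)) (δ : ℕ → ℝ) (F : ℕ → Finset TV), IsC2JordanDomain D → IsInsideApprox D δ F → LimDec x v D δ F)
    (hW : LmbWick v) : LimOut x v := by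
  intro D hDJ δ F hF f hf hfc hfs u hu huc hu0 hlap k
  have hD : IsOpen D := hDJ.1
  have hB : Bornology.IsBounded D := hDJ.2.1
  have hg : WkTest D f := ⟨hf.continuous, hfc, hfs⟩
  have hok := lm_ok hx hSM hD hB hF
  have key : ∀ 𝒰 : Ultrafilter ℕ, (𝒰 : Filter ℕ) ≤ atTop → ∀ k : ℕ,
      lmTz x δ F 𝒰 (Multiset.replicate k f) = tmmWick (v * ∫ z in D, f z * u z) k := by
    intro 𝒰 hU k
    have hdata := lmb_data hx hSM hD hB hF (hBD D δ F hDJ hF) (hBRK D δ F hDJ hF) (hDec D δ F hDJ hF) 𝒰 hU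
    induction k using Nat.twoStepInduction with
    | zero => exact lm_T_zero 𝒰 hok
    | one =>
      refine lm_T_eq 𝒰 hU ?_
      simp only [lmb_M_replicate, pow_one, lmt_mean_zero]
      exact tendsto_const_nhds
    | more j ih _ =>
      rw [hW D _ hD hB hdata f hf hfc hfs u hu huc hu0 hlap j, ih, tmm_wick_succ]
      ring
  have := lm_of_T hok (s := Multiset.replicate k f) (fun g hg' => by
    rw [Multiset.eq_of_mem_replicate hg']; exact hg) (L := tmmWick (v * ∫ z in D, f z * u z) k)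
    (fun 𝒰 hU => key 𝒰 hU k)
  simpa only [lmb_M_replicate] using this

end Claimed.Agent.R291
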