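import Mathlib
import Claimed.Agent.R291.Defs.Frozen

/-!
# Row 291 (S0539), Lim/Kit165 : MODEL-FREE KIT OF UNIT LIM      (owner helper165; prefix `lm_`, defs `lm*`)

Mathlib only.  Three tool boxes used by `Lim/Ult`, `Lim/Trans`, `Lim/Chain` (TEX[sec:limit], 07-limit.tex).
* `lmE A w G`       expectation of `G` under the finite weights `w` on `A` (the shape of the frozen `lipschitzExpect`)
                     linear, monotone, normalised (`lm_E_*`)
* `lm_prod_le`      CRUDE HOELDER WITHOUT ROOTS: `∏ |t_k|^(e_k) ≤ 1 + ∑ t_k^p` (`p` even, `∑ e_k ≤ p`)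
* `lm_E_prod_le`    `E (X_k / B_k)^p ≤ 1` for all `k` ⟹ `E ∏ |X_k| ≤ (1 + #s) ∏ B_k`
* `lm_pow_sum_le`   power mean `(∑_{k ∈ s} t_k)^p ≤ (#s)^p ∑ t_k^p` (crude constant)
* `lmU 𝒰 a`         limit of a real sequence along an ultrafilter; bounded sequences converge (`lm_U_tendsto`), algebra of limits
-/

set_option autoImplicit false

namespace Claimed.Agent.R291

open Filter Topology

/-! ### finite weighted expectations -/

/-- expectation of `G` under the finite weights `w` on `A` -/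
noncomputable def lmE {α : Type*} (A : Finset α) (w G : α → ℝ) : ℝ :=
  (∑ a ∈ A, w a * G a) / ∑ a ∈ A, w a

/-- limit of a real sequence along an ultrafilter -/
noncomputable def lmU (𝒰 : Ultrafilter ℕ) (a : ℕ → ℝ) : ℝ := limUnder (𝒰 : Filter ℕ) a

theorem lm_kit_eqns_cite : True := by
  have := @lmE.eq_1.{0}
  have := @lmU.eq_1
  trivial

section E

variable {α : Type*} (A : Finset α) (w : α → ℝ)

theorem lm_E_congr {G G' : α → ℝ} (h : ∀ a ∈ A, G a = G' a) : lmE A w G = lmE A w G' := by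
  unfold lmE
  rw [Finset.sum_congr rfl fun a ha => by rw [h a ha]]

theorem lm_E_add (G G' : α → ℝ) : lmE A w (fun a => G a + G' a) = lmE A w G + lmE A w G' := by
  unfold lmE
  rw [← add_div, ← Finset.sum_add_distrib]
  congr 1
  exact Finset.sum_congr rfl fun a _ => by ring

theorem lm_E_sub (G G' : α → ℝ) : lmE A w (fun a => G a - G' a) = lmE A w G - lmE A w G' := by
  unfold lmE
  rw [← sub_div, ← Finset.sum_sub_distrib]
  congr 1
  exact Finset.sum_congr rfl fun a _ => by ring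

theorem lm_E_mul_left (c : ℝ) (G : α → ℝ) : lmE A w (fun a => c * G a) = c * lmE A w G := by
  unfold lmE
  rw [← mul_div_assoc, Finset.mul_sum]
  congr 1
  exact Finset.sum_congr rfl fun a _ => by ring

theorem lm_E_neg (G : α → ℝ) : lmE A w (fun a => -G a) = -lmE A w G := by
  have := lm_E_mul_left A w (-1) G
  simpa using this

theorem lm_E_zero : lmE A w (fun _ => 0) = 0 := by
  simp [lmE]

theorem lm_E_sum {ι : Type*} (s : Finset ι) (G : ι → α → ℝ) :
    lmE A w (fun a => ∑ i ∈ s, G i a) = ∑ i ∈ s, lmE A w (G i) := by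
  classical
  induction s using Finset.induction_on with
  | empty => simp [lm_E_zero]
  | insert i s hi ih =>
    simp only [Finset.sum_insert hi]
    rw [lm_E_add, ih]

variable {A w}

theorem lm_E_const (hZ : 0 < ∑ a ∈ A, w a) (c : ℝ) : lmE A w (fun _ => c) = c := by
  unfold lmE
  rw [← Finset.sum_mul, mul_div_assoc, mul_comm, div_mul_cancel₀]
  · exact hZ.ne'

theorem lm_E_mono (hw : ∀ a ∈ A, 0 ≤ w a) {G G' : α → ℝ}
    (h : ∀ a ∈ A, G a ≤ G' a) : lmE A w G ≤ lmE A w G' := by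
  unfold lmE
  exact div_le_div_of_nonneg_right
    (Finset.sum_le_sum fun a ha => mul_le_mul_of_nonneg_left (h a ha) (hw a ha)) (Finset.sum_nonneg hw)

theorem lm_E_nonneg (hw : ∀ a ∈ A, 0 ≤ w a) {G : α → ℝ} (h : ∀ a ∈ A, 0 ≤ G a) : 0 ≤ lmE A w G := by
  unfold lmE
  exact div_nonneg (Finset.sum_nonneg fun a ha => mul_nonneg (hw a ha) (h a ha)) (Finset.sum_nonneg hw)

theorem lm_E_abs_le (hw : ∀ a ∈ A, 0 ≤ w a) (G : α → ℝ) : |lmE A w G| ≤ lmE A w (fun a => |G a|) := by
  rw [abs_le]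
  constructor
  · rw [← lm_E_neg]
    exact lm_E_mono hw fun a _ => neg_abs_le _
  · exact lm_E_mono hw fun a _ => le_abs_self _

end E

/-! ### crude Hoelder without roots -/

/-- `∏ |t_k|^(e_k) ≤ 1 + ∑ t_k^p` for `p` even, `∑ e_k ≤ p` -/
theorem lm_prod_le {ι : Type*} (s : Finset ι) (t : ι → ℝ) (e : ι → ℕ) {p : ℕ} (hp : Even p)
    (he : ∑ k ∈ s, e k ≤ p) : ∏ k ∈ s, |t k| ^ e k ≤ 1 + ∑ k ∈ s, t k ^ p := by
  classical
  have hnn : ∀ k ∈ s, 0 ≤ t k ^ p := fun k _ => hp.pow_nonneg _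
  rcases s.eq_empty_or_nonempty with rfl | hs
  · simp
  obtain ⟨k0, hk0, hmax⟩ := s.exists_max_image (fun k => |t k|) hs
  by_cases h1 : |t k0| ≤ 1
  · have : ∏ k ∈ s, |t k| ^ e k ≤ 1 :=
      Finset.prod_le_one (fun k _ => by positivity) fun k hk => pow_le_one₀ (abs_nonneg _) ((hmax k hk).trans h1)
    linarith [Finset.sum_nonneg hnn]
  · rw [not_le] at h1
    calc ∏ k ∈ s, |t k| ^ e k ≤ ∏ k ∈ s, |t k0| ^ e k :=
          Finset.prod_le_prod (fun k _ => by positivity) fun k hk => pow_le_pow_left₀ (abs_nonneg _) (hmax k hk) _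
      _ = |t k0| ^ ∑ k ∈ s, e k := Finset.prod_pow_eq_pow_sum _ _ _
      _ ≤ |t k0| ^ p := pow_le_pow_right₀ h1.le he
      _ = t k0 ^ p := hp.pow_abs _
      _ ≤ ∑ k ∈ s, t k ^ p := Finset.single_le_sum hnn hk0
      _ ≤ 1 + ∑ k ∈ s, t k ^ p := by linarith

/-- `|t|^j ≤ 1 + t^p` for `p` even, `j ≤ p` -/
theorem lm_abs_pow_le (t : ℝ) {j p : ℕ} (hp : Even p) (hj : j ≤ p) : |t| ^ j ≤ 1 + t ^ p := by
  have := lm_prod_le ({()} : Finset Unit) (fun _ => t) (fun _ => j) hp (by simpa using hj)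
  simpa using this

/-- crude power mean: `(∑_{k ∈ s} t_k)^p ≤ (#s)^p ∑ t_k^p`, `p` even -/
theorem lm_pow_sum_le {ι : Type*} (s : Finset ι) (t : ι → ℝ) {p : ℕ} (hp : Even p) (h0 : p ≠ 0) :
    (∑ k ∈ s, t k) ^ p ≤ (s.card : ℝ) ^ p * ∑ k ∈ s, t k ^ p := by
  classical
  have hnn : ∀ k ∈ s, 0 ≤ t k ^ p := fun k _ => hp.pow_nonneg _
  rcases s.eq_empty_or_nonempty with rfl | hs
  · simp [h0]
  obtain ⟨k0, hk0, hmax⟩ := s.exists_max_image (fun k => |t k|) hs
  have h1 : |∑ k ∈ s, t k| ≤ s.card * |t k0| := by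
    calc |∑ k ∈ s, t k| ≤ ∑ k ∈ s, |t k| := Finset.abs_sum_le_sum_abs _ _
      _ ≤ ∑ _k ∈ s, |t k0| := Finset.sum_le_sum hmax
      _ = s.card * |t k0| := by rw [Finset.sum_const, nsmul_eq_mul]
  calc (∑ k ∈ s, t k) ^ p = |∑ k ∈ s, t k| ^ p := (hp.pow_abs _).symm
    _ ≤ (s.card * |t k0|) ^ p := pow_le_pow_left₀ (abs_nonneg _) h1 _
    _ = (s.card : ℝ) ^ p * t k0 ^ p := by rw [mul_pow, hp.pow_abs]
    _ ≤ (s.card : ℝ) ^ p * ∑ k ∈ s, t k ^ p :=
        mul_le_mul_of_nonneg_left (Finset.single_le_sum hnn hk0) (by positivity)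

/-! ### the same for multisets (moments are indexed by multisets of tests: symmetry is built in) -/

theorem lm_mabs_prod {ι : Type*} (s : Multiset ι) (t : ι → ℝ) :
    |(s.map t).prod| = (s.map fun k => |t k|).prod := by
  induction s using Multiset.induction_on with
  | empty => simp
  | cons a s ih => simp [abs_mul, ih]

/-- `∏ |t_k| ≤ 1 + ∑ t_k^p` for `p` even, `card s ≤ p` -/
theorem lm_mprod_le {ι : Type*} (s : Multiset ι) (t : ι → ℝ) {p : ℕ} (hp : Even p) (hc : s.card ≤ p) :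
    (s.map fun k => |t k|).prod ≤ 1 + (s.map fun k => t k ^ p).sum := by
  have hnn : ∀ x ∈ s.map (fun k => t k ^ p), 0 ≤ x := by
    intro x hx
    obtain ⟨k, -, rfl⟩ := Multiset.mem_map.1 hx
    exact hp.pow_nonneg _
  by_cases hs : s = 0
  · subst hs; simp
  obtain ⟨k0, hk0, hmax⟩ := Multiset.exists_max_image (fun k => |t k|) hs
  have h0 : (s.map fun k => |t k|).prod ≤ |t k0| ^ s.card := by
    have := Multiset.prod_map_le_prod_map₀ (s := s) (fun k => |t k|) (fun _ => |t k0|) (fun k _ => abs_nonneg _) hmax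
    rwa [Multiset.map_const', Multiset.prod_replicate] at this
  by_cases h1 : |t k0| ≤ 1
  · have : |t k0| ^ s.card ≤ 1 := pow_le_one₀ (abs_nonneg _) h1
    linarith [Multiset.sum_nonneg hnn]
  · rw [not_le] at h1
    calc (s.map fun k => |t k|).prod ≤ |t k0| ^ s.card := h0
      _ ≤ |t k0| ^ p := pow_le_pow_right₀ h1.le hc
      _ = t k0 ^ p := hp.pow_abs _
      _ ≤ (s.map fun k => t k ^ p).sum := Multiset.single_le_sum hnn _ (Multiset.mem_map_of_mem _ hk0)
      _ ≤ 1 + (s.map fun k => t k ^ p).sum := by linarith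

theorem lm_E_msum {α ι : Type*} (A : Finset α) (w : α → ℝ) (s : Multiset ι) (G : ι → α → ℝ) :
    lmE A w (fun a => (s.map fun i => G i a).sum) = (s.map fun i => lmE A w (G i)).sum := by
  induction s using Multiset.induction_on with
  | empty => simp [lm_E_zero]
  | cons i s ih =>
    simp only [Multiset.map_cons, Multiset.sum_cons]
    rw [lm_E_add, ih]

/-- HOELDER WITHOUT ROOTS (crude constant): `E X_k^p ≤ B_k^p` (`p` even, `card s ≤ p`, `B_k > 0`) ⟹ `|E ∏ X_k| ≤ (1 + card s) ∏ B_k` -/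
theorem lm_E_mprod_le {α ι : Type*} {A : Finset α} {w : α → ℝ} (hw : ∀ a ∈ A, 0 ≤ w a) (hZ : 0 < ∑ a ∈ A, w a)
    (s : Multiset ι) (X : ι → α → ℝ) (B : ι → ℝ) {p : ℕ} (hp : Even p) (hc : s.card ≤ p)
    (hB : ∀ k ∈ s, 0 < B k) (hX : ∀ k ∈ s, lmE A w (fun a => X k a ^ p) ≤ B k ^ p) :
    |lmE A w (fun a => (s.map fun k => X k a).prod)| ≤ (1 + s.card) * (s.map B).prod := by
  have hBp : 0 < (s.map B).prod := by
    clear hX hc
    induction s using Multiset.induction_on with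
    | empty => simp
    | cons k s ih =>
      rw [Multiset.map_cons, Multiset.prod_cons]
      exact mul_pos (hB k (Multiset.mem_cons_self _ _)) (ih fun k hk => hB k (Multiset.mem_cons_of_mem hk))
  have key : ∀ a, |(s.map fun k => X k a).prod| ≤ (s.map B).prod * (1 + (s.map fun k => (B k ^ p)⁻¹ * X k a ^ p).sum) := by
    intro a
    have h1 := lm_mprod_le s (fun k => X k a / B k) hp hc
    have h2 : (s.map fun k => |X k a / B k|).prod = |(s.map fun k => X k a).prod| / (s.map B).prod := by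
      clear h1 hX hc hBp
      induction s using Multiset.induction_on with
      | empty => simp
      | cons k s ih =>
        have hk := hB k (Multiset.mem_cons_self _ _)
        simp only [Multiset.map_cons, Multiset.prod_cons]
        rw [ih fun k hk => hB k (Multiset.mem_cons_of_mem hk), abs_div, abs_mul, abs_of_pos hk]
        rw [div_mul_div_comm]
    rw [h2, div_le_iff₀ hBp] at h1
    have h3 : (s.map fun k => (X k a / B k) ^ p) = s.map fun k => (B k ^ p)⁻¹ * X k a ^ p :=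
      Multiset.map_congr rfl fun k _ => by rw [div_pow, div_eq_mul_inv, mul_comm]
    rw [h3] at h1
    linarith
  calc |lmE A w (fun a => (s.map fun k => X k a).prod)|
      ≤ lmE A w (fun a => |(s.map fun k => X k a).prod|) := lm_E_abs_le hw _
    _ ≤ lmE A w (fun a => (s.map B).prod * (1 + (s.map fun k => (B k ^ p)⁻¹ * X k a ^ p).sum)) :=
        lm_E_mono hw fun a _ => key a
    _ = (s.map B).prod * (1 + (s.map fun k => (B k ^ p)⁻¹ * lmE A w (fun a => X k a ^ p)).sum) := by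
        rw [lm_E_mul_left, lm_E_add, lm_E_const hZ, lm_E_msum]
        congr 3
        exact Multiset.map_congr rfl fun k _ => lm_E_mul_left _ _ _ _
    _ ≤ (s.map B).prod * (1 + s.card) := by
        refine mul_le_mul_of_nonneg_left ?_ hBp.le
        have : (s.map fun k => (B k ^ p)⁻¹ * lmE A w (fun a => X k a ^ p)).sum ≤ (s.map fun _ => (1 : ℝ)).sum := by
          refine Multiset.sum_map_le_sum_map _ _ fun k hk => ?_
          have hb : 0 < B k ^ p := pow_pos (hB k hk) _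
          rw [inv_mul_le_iff₀ hb, mul_one]
          exact hX k hk
        rw [Multiset.map_const', Multiset.sum_replicate, nsmul_eq_mul, mul_one] at this
        linarith
    _ = (1 + s.card) * (s.map B).prod := mul_comm _ _

/-! ### limits along an ultrafilter -/

section U

variable (𝒰 : Ultrafilter ℕ)

/-- bounded sequences converge along an ultrafilter -/
theorem lm_U_tendsto {a : ℕ → ℝ} {C : ℝ} (h : ∀ᶠ n in (𝒰 : Filter ℕ), |a n| ≤ C) :
    Tendsto a 𝒰 (𝓝 (lmU 𝒰 a)) := by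
  obtain ⟨x, -, hx⟩ := (isCompact_Icc (a := -C) (b := C)).ultrafilter_le_nhds (𝒰.map a) (by
    rw [le_principal_iff]
    exact h.mono fun n hn => abs_le.1 hn)
  exact tendsto_nhds_limUnder ⟨x, hx⟩

theorem lm_U_eq {a : ℕ → ℝ} {L : ℝ} (h : Tendsto a 𝒰 (𝓝 L)) : lmU 𝒰 a = L := h.limUnder_eq

theorem lm_U_abs_le {a : ℕ → ℝ} {C : ℝ} (h : ∀ᶠ n in (𝒰 : Filter ℕ), |a n| ≤ C) : |lmU 𝒰 a| ≤ C :=
  le_of_tendsto (lm_U_tendsto 𝒰 h).abs h

theorem lm_U_congr {a b : ℕ → ℝ} (h : ∀ᶠ n in (𝒰 : Filter ℕ), a n = b n) : lmU 𝒰 a = lmU 𝒰 b := by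
  unfold lmU limUnder
  rw [Filter.map_congr h]

theorem lm_U_const (c : ℝ) : lmU 𝒰 (fun _ => c) = c := lm_U_eq 𝒰 tendsto_const_nhds

end U

end Claimed.Agent.R291
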