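import Claimed.Agent.R291.Lim.Ult
import Claimed.Agent.R291.Wick.Green2

/-!
# Row 291 (S0539), Lim/Trans : FROM THE UPPER BRACKET TO THE TRUE FIELD  (`LimBRK ⟹ LimIns`)      (owner helper165; prefix `lmt_`, defs `Lmt*`)

TEX[limit:transfer] (07-limit.tex), in the COUPLING-FREE form of 34/27/115/181: the bracket is only a law `E'` which dominates the true law `E` on monotone observables.
LIPSCHITZ TRICK: `a_i = X ψ_i`, `s_i = X |ψ_i|` satisfy `|a_i h' - a_i h| ≤ s_i h' - s_i h` for `h ≤ h'`; so for `Φ = ∏ trunc_M a_i` both `M^q ∑ s_i ± Φ` are monotone and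
`|E Φ - E' Φ| ≤ M^q ∑ (E' s_i - E s_i)`.   The truncations are removed by one even moment of order `p ≥ q + 2` under both laws (`|t - trunc_M t| ≤ t²/M`, crude Hoelder `lm_prod_le`).
* `lmt_prod_sub_le`   `|∏ x - ∏ y| ≤ ∑_i |x_i - y_i| ∏_{k ≠ i} c_k`
* `LmtExp E`          positive normalised linear functional
* `lmt_trick`         the Lipschitz trick
* `lmt_mesh`          the estimate at one mesh: `|E (a0 ∏ a_l)| ≤ η + (q+2)(1+(q+1)C)/M + M^q (q+1) η`
* **`lim_trans`**     `LimSM x → LimBRK x D δ F → LimIns x D δ F`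
-/

set_option autoImplicit false

namespace Claimed.Agent.R291

open MeasureTheory Filter Topology Set
open Claims Claims.C0467

/-! ### truncation -/

theorem lmt_tr_abs_le {M : ℝ} (hM : 0 ≤ M) (t : ℝ) : |limTr M t| ≤ M := by
  unfold limTr
  rw [abs_le]
  exact ⟨le_max_left _ _, max_le (by linarith) (min_le_right _ _)⟩

theorem lmt_tr_lip (M t t' : ℝ) : |limTr M t - limTr M t'| ≤ |t - t'| := by
  unfold limTr
  have h1 := abs_max_sub_max_le_max (-M) (min t M) (-M) (min t' M)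
  have h2 := abs_min_sub_min_le_max t M t' M
  simp only [sub_self, abs_zero] at h1 h2
  exact h1.trans (max_le (abs_nonneg _) (h2.trans (max_le le_rfl (abs_nonneg _))))

theorem lmt_tr_abs_le_abs {M : ℝ} (hM : 0 ≤ M) (t : ℝ) : |limTr M t| ≤ |t| := by
  have h0 : limTr M 0 = 0 := by
    unfold limTr
    rw [min_eq_left hM, max_eq_right (by linarith)]
  have := lmt_tr_lip M t 0
  rwa [h0, sub_zero, sub_zero] at this

theorem lmt_tr_err {M : ℝ} (hM : 0 < M) (t : ℝ) : |t - limTr M t| ≤ t ^ 2 / M := by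
  by_cases h : |t| ≤ M
  · have : limTr M t = t := by
      unfold limTr
      rw [min_eq_left (abs_le.1 h).2, max_eq_right (abs_le.1 h).1]
    rw [this, sub_self, abs_zero]
    positivity
  · rw [not_le] at h
    have h1 : |t - limTr M t| ≤ |t| := by
      unfold limTr
      rcases le_total 0 t with ht | ht
      · rw [abs_of_nonneg ht] at h
        rw [min_eq_right h.le, max_eq_right (by linarith), abs_of_nonneg ht, abs_of_nonneg (by linarith)]
        linarith
      · rw [abs_of_nonpos ht] at h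
        rw [min_eq_left (by linarith), max_eq_left (by linarith), abs_of_nonpos ht, abs_of_nonpos (by linarith)]
        linarith
    refine h1.trans ?_
    rw [le_div_iff₀ hM, ← sq_abs]
    nlinarith [abs_nonneg t]

/-! ### telescoping -/

theorem lmt_prod_sub_le {ι : Type*} [DecidableEq ι] (s : Finset ι) (x y c : ι → ℝ) (hx : ∀ i ∈ s, |x i| ≤ c i)
    (hy : ∀ i ∈ s, |y i| ≤ c i) :
    |∏ i ∈ s, x i - ∏ i ∈ s, y i| ≤ ∑ i ∈ s, |x i - y i| * ∏ k ∈ s.erase i, c k := by
  induction s using Finset.induction_on with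
  | empty => simp
  | insert j s hj ih =>
    have hxs : ∀ i ∈ s, |x i| ≤ c i := fun i hi => hx i (Finset.mem_insert_of_mem hi)
    have hys : ∀ i ∈ s, |y i| ≤ c i := fun i hi => hy i (Finset.mem_insert_of_mem hi)
    have ih' := ih hxs hys
    rw [Finset.prod_insert hj, Finset.prod_insert hj, Finset.sum_insert hj, Finset.erase_insert hj]
    have e : x j * ∏ i ∈ s, x i - y j * ∏ i ∈ s, y i
        = (x j - y j) * ∏ i ∈ s, x i + y j * (∏ i ∈ s, x i - ∏ i ∈ s, y i) := by ring
    have h1 : |∏ i ∈ s, x i| ≤ ∏ k ∈ s, c k := by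
      rw [Finset.abs_prod]
      exact Finset.prod_le_prod (fun i _ => abs_nonneg _) hxs
    have h2 : ∑ i ∈ s, |x i - y i| * ∏ k ∈ (insert j s).erase i, c k
        = c j * ∑ i ∈ s, |x i - y i| * ∏ k ∈ s.erase i, c k := by
      rw [Finset.mul_sum]
      refine Finset.sum_congr rfl fun i hi => ?_
      have hij : j ≠ i := fun h => hj (h ▸ hi)
      rw [Finset.erase_insert_of_ne hij, Finset.prod_insert (fun h => hj (Finset.mem_of_mem_erase h))]
      ring
    rw [e, h2]
    have hcj : |y j| ≤ c j := hy j (Finset.mem_insert_self _ _)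
    calc |(x j - y j) * ∏ i ∈ s, x i + y j * (∏ i ∈ s, x i - ∏ i ∈ s, y i)|
        ≤ |x j - y j| * |∏ i ∈ s, x i| + |y j| * |∏ i ∈ s, x i - ∏ i ∈ s, y i| := by
          rw [← abs_mul, ← abs_mul]; exact abs_add_le _ _
      _ ≤ |x j - y j| * ∏ k ∈ s, c k + c j * ∑ i ∈ s, |x i - y i| * ∏ k ∈ s.erase i, c k :=
          add_le_add (mul_le_mul_of_nonneg_left h1 (abs_nonneg _))
            (mul_le_mul hcj ih' (abs_nonneg _) ((abs_nonneg _).trans hcj))

/-- one term of the telescoping sum against one even moment -/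
theorem lmt_term_le {ι : Type*} [Fintype ι] [DecidableEq ι] (t : ι → ℝ) (i : ι) {p : ℕ} (hp : Even p)
    (hc : Fintype.card ι + 1 ≤ p) : t i ^ 2 * ∏ k ∈ Finset.univ.erase i, |t k| ≤ 1 + 2 * ∑ k, t k ^ p := by
  have h1 := lm_mprod_le (i ::ₘ (Finset.univ : Finset ι).val) t hp (by simpa using hc)
  simp only [Multiset.map_cons, Multiset.prod_cons, Multiset.sum_cons] at h1
  have e1 : (Multiset.map (fun k => |t k|) (Finset.univ : Finset ι).val).prod = ∏ k, |t k| := rfl
  have e2 : (Multiset.map (fun k => t k ^ p) (Finset.univ : Finset ι).val).sum = ∑ k, t k ^ p := rfl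
  rw [e1, e2] at h1
  have h2 : t i ^ p ≤ ∑ k, t k ^ p :=
    Finset.single_le_sum (f := fun k => t k ^ p) (fun k _ => hp.pow_nonneg _) (Finset.mem_univ i)
  have h3 : t i ^ 2 * ∏ k ∈ Finset.univ.erase i, |t k| = |t i| * ∏ k, |t k| := by
    rw [← Finset.mul_prod_erase Finset.univ (fun k => |t k|) (Finset.mem_univ i), ← sq_abs]
    ring
  rw [h3]
  linarith

/-- removal of truncations, pointwise -/
theorem lmt_trunc_le {ι : Type*} [Fintype ι] [DecidableEq ι] (t x y : ι → ℝ) {M : ℝ} (hM : 0 < M) {p : ℕ} (hp : Even p)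
    (hc : Fintype.card ι + 1 ≤ p) (hx : ∀ i, |x i| ≤ |t i|) (hy : ∀ i, |y i| ≤ |t i|) (hxy : ∀ i, |x i - y i| ≤ t i ^ 2 / M) :
    |∏ i, x i - ∏ i, y i| ≤ Fintype.card ι / M * (1 + 2 * ∑ k, t k ^ p) := by
  calc |∏ i, x i - ∏ i, y i| ≤ ∑ i, |x i - y i| * ∏ k ∈ Finset.univ.erase i, |t k| :=
        lmt_prod_sub_le Finset.univ x y (fun k => |t k|) (fun i _ => hx i) (fun i _ => hy i)
    _ ≤ ∑ _i : ι, 1 / M * (1 + 2 * ∑ k, t k ^ p) := by
        refine Finset.sum_le_sum fun i _ => ?_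
        calc |x i - y i| * ∏ k ∈ Finset.univ.erase i, |t k| ≤ t i ^ 2 / M * ∏ k ∈ Finset.univ.erase i, |t k| :=
              mul_le_mul_of_nonneg_right (hxy i) (Finset.prod_nonneg fun k _ => abs_nonneg _)
          _ = 1 / M * (t i ^ 2 * ∏ k ∈ Finset.univ.erase i, |t k|) := by ring
          _ ≤ 1 / M * (1 + 2 * ∑ k, t k ^ p) := mul_le_mul_of_nonneg_left (lmt_term_le t i hp hc) (by positivity)
    _ = Fintype.card ι / M * (1 + 2 * ∑ k, t k ^ p) := by
        rw [Finset.sum_const, Finset.card_univ, nsmul_eq_mul]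
        ring

/-! ### positive normalised functionals -/

/-- positive normalised linear functional on the real observables of `Ω` -/
structure LmtExp {Ω : Type*} (E : (Ω → ℝ) → ℝ) : Prop where
  add : ∀ G G' : Ω → ℝ, E (fun h => G h + G' h) = E G + E G'
  smul : ∀ (c : ℝ) (G : Ω → ℝ), E (fun h => c * G h) = c * E G
  mono : ∀ G G' : Ω → ℝ, (∀ h, G h ≤ G' h) → E G ≤ E G'
  one : E (fun _ => 1) = 1

section exp

variable {Ω : Type*} {E : (Ω → ℝ) → ℝ}

theorem LmtExp.const (hE : LmtExp E) (c : ℝ) : E (fun _ => c) = c := by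
  have := hE.smul c (fun _ => 1)
  simpa [hE.one] using this

theorem LmtExp.neg (hE : LmtExp E) (G : Ω → ℝ) : E (fun h => -G h) = -E G := by
  have := hE.smul (-1) G
  simpa using this

theorem LmtExp.sub (hE : LmtExp E) (G G' : Ω → ℝ) : E (fun h => G h - G' h) = E G - E G' := by
  have := hE.add G (fun h => -G' h)
  rw [hE.neg] at this
  simpa [sub_eq_add_neg] using this

theorem LmtExp.sum (hE : LmtExp E) {ι : Type*} (s : Finset ι) (G : ι → Ω → ℝ) :
    E (fun h => ∑ i ∈ s, G i h) = ∑ i ∈ s, E (G i) := by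
  classical
  induction s using Finset.induction_on with
  | empty => simpa using hE.const 0
  | insert i s hi ih =>
    simp only [Finset.sum_insert hi]
    rw [hE.add, ih]

theorem LmtExp.abs_le (hE : LmtExp E) (G : Ω → ℝ) : |E G| ≤ E (fun h => |G h|) := by
  rw [_root_.abs_le]
  constructor
  · rw [← hE.neg]
    exact hE.mono _ _ fun h => neg_abs_le _
  · exact hE.mono _ _ fun h => le_abs_self _

theorem LmtExp.abs_sub_le (hE : LmtExp E) (G G' B : Ω → ℝ) (h : ∀ h, |G h - G' h| ≤ B h) : |E G - E G'| ≤ E B := by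
  rw [← hE.sub]
  exact (hE.abs_le _).trans (hE.mono _ _ h)

end exp

/-- THE LIPSCHITZ TRICK (34, 27, 115, 181): domination on monotone observables controls truncated products of differences of monotone observables -/
theorem lmt_trick {Ω : Type*} [Preorder Ω] {E E' : (Ω → ℝ) → ℝ} (hE : LmtExp E) (hE' : LmtExp E')
    (dom : ∀ G : Ω → ℝ, Monotone G → E G ≤ E' G) {ι : Type*} [Fintype ι] [DecidableEq ι] (a s : ι → Ω → ℝ)
    (has : ∀ i h h', h ≤ h' → |a i h' - a i h| ≤ s i h' - s i h) {M : ℝ} (hM : 0 ≤ M) :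
    |E (fun h => ∏ i, limTr M (a i h)) - E' (fun h => ∏ i, limTr M (a i h))|
      ≤ M ^ (Fintype.card ι - 1) * ∑ i, (E' (s i) - E (s i)) := by
  set L : ℝ := M ^ (Fintype.card ι - 1) with hL
  have hL0 : 0 ≤ L := pow_nonneg hM _
  have key : ∀ h h', h ≤ h' → |∏ i, limTr M (a i h') - ∏ i, limTr M (a i h)| ≤ L * (∑ i, s i h' - ∑ i, s i h) := by
    intro h h' hh
    calc |∏ i, limTr M (a i h') - ∏ i, limTr M (a i h)|
        ≤ ∑ i, |limTr M (a i h') - limTr M (a i h)| * ∏ _k ∈ Finset.univ.erase i, M :=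
          lmt_prod_sub_le Finset.univ _ _ (fun _ => M) (fun i _ => lmt_tr_abs_le hM _) (fun i _ => lmt_tr_abs_le hM _)
      _ ≤ ∑ i, (s i h' - s i h) * L := by
          refine Finset.sum_le_sum fun i _ => ?_
          rw [Finset.prod_const, Finset.card_erase_of_mem (Finset.mem_univ i), Finset.card_univ]
          exact mul_le_mul_of_nonneg_right ((lmt_tr_lip _ _ _).trans (has i h h' hh)) hL0
      _ = L * (∑ i, s i h' - ∑ i, s i h) := by
          rw [← Finset.sum_mul, Finset.sum_sub_distrib, mul_comm]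
  have m1 : Monotone fun h => L * ∑ i, s i h + ∏ i, limTr M (a i h) := by
    intro h h' hh
    have := (abs_le.1 (key h h' hh)).1
    show L * ∑ i, s i h + ∏ i, limTr M (a i h) ≤ L * ∑ i, s i h' + ∏ i, limTr M (a i h')
    linarith
  have m2 : Monotone fun h => L * ∑ i, s i h - ∏ i, limTr M (a i h) := by
    intro h h' hh
    have := (abs_le.1 (key h h' hh)).2
    show L * ∑ i, s i h - ∏ i, limTr M (a i h) ≤ L * ∑ i, s i h' - ∏ i, limTr M (a i h')
    linarith
  have d1 := dom _ m1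
  have d2 := dom _ m2
  rw [hE.add, hE'.add, hE.smul, hE'.smul, hE.sum, hE'.sum] at d1
  rw [hE.sub, hE'.sub, hE.smul, hE'.smul, hE.sum, hE'.sum] at d2
  rw [Finset.sum_sub_distrib, mul_sub, abs_le]
  constructor <;> linarith

/-- expectation of the truncation error -/
theorem lmt_E_trunc {Ω : Type*} {E : (Ω → ℝ) → ℝ} (hE : LmtExp E) {ι : Type*} [Fintype ι] [DecidableEq ι]
    (t x y : ι → Ω → ℝ) {M C : ℝ} (hM : 0 < M) {p : ℕ} (hp : Even p) (hc : Fintype.card ι + 1 ≤ p)
    (hx : ∀ i h, |x i h| ≤ |t i h|) (hy : ∀ i h, |y i h| ≤ |t i h|) (hxy : ∀ i h, |x i h - y i h| ≤ t i h ^ 2 / M)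
    (hm : ∀ i, E (fun h => t i h ^ p) ≤ C) :
    |E (fun h => ∏ i, x i h) - E (fun h => ∏ i, y i h)| ≤ Fintype.card ι / M * (1 + 2 * (Fintype.card ι * C)) := by
  refine (hE.abs_sub_le _ _ (fun h => Fintype.card ι / M * (1 + 2 * ∑ k, t k h ^ p)) fun h =>
    lmt_trunc_le (fun i => t i h) _ _ hM hp hc (fun i => hx i h) (fun i => hy i h) fun i => hxy i h).trans ?_
  rw [hE.smul, hE.add, hE.const, hE.smul, hE.sum]
  refine mul_le_mul_of_nonneg_left ?_ (by positivity)
  have : ∑ i, E (fun h => t i h ^ p) ≤ Fintype.card ι * C := by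
    calc ∑ i, E (fun h => t i h ^ p) ≤ ∑ _i : ι, C := Finset.sum_le_sum fun i _ => hm i
      _ = Fintype.card ι * C := by rw [Finset.sum_const, Finset.card_univ, nsmul_eq_mul]
  linarith

/-- THE ESTIMATE AT ONE MESH -/
theorem lmt_mesh {Ω : Type*} [Preorder Ω] {E E' : (Ω → ℝ) → ℝ} (hE : LmtExp E) (hE' : LmtExp E')
    (dom : ∀ G : Ω → ℝ, Monotone G → E G ≤ E' G) {q : ℕ} (a s : Option (Fin q) → Ω → ℝ)
    (has : ∀ i h h', h ≤ h' → |a i h' - a i h| ≤ s i h' - s i h) {M η C : ℝ} (hM : 0 < M) {p : ℕ} (hp : Even p)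
    (hqp : q + 2 ≤ p) (hz : ∀ i, E (s i) = 0) (hcol : ∀ i, E' (s i) ≤ η)
    (hm : ∀ i, E (fun h => a i h ^ p) ≤ C) (hm' : ∀ i, E' (fun h => a i h ^ p) ≤ C)
    (ins : |E' (fun h => a none h * ∏ l, limTr M (a (some l) h))| ≤ η) :
    |E (fun h => a none h * ∏ l, a (some l) h)|
      ≤ η + 2 * ((q + 1) / M * (1 + 2 * ((q + 1) * C))) + M ^ q * ((q + 1) * η) := by
  have hcard : Fintype.card (Option (Fin q)) = q + 1 := by simp
  have hcR : (Fintype.card (Option (Fin q)) : ℝ) = q + 1 := by rw [hcard]; push_cast; ring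
  have hc : Fintype.card (Option (Fin q)) + 1 ≤ p := by omega
  have P1 := lmt_E_trunc hE a a (fun i h => limTr M (a i h)) hM hp hc (fun _ _ => le_rfl)
    (fun i h => lmt_tr_abs_le_abs hM.le _) (fun i h => lmt_tr_err hM _) hm
  have P2 := lmt_trick hE hE' dom a s has hM.le
  have P3 := lmt_E_trunc hE' a (fun i h => Option.casesOn i (a none h) fun l => limTr M (a (some l) h))
    (fun i h => limTr M (a i h)) hM hp hc
    (fun i h => by
      cases i with
      | none => exact le_rfl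
      | some l => exact lmt_tr_abs_le_abs hM.le _)
    (fun i h => lmt_tr_abs_le_abs hM.le _)
    (fun i h => by
      cases i with
      | none => exact lmt_tr_err hM _
      | some l => simp only [sub_self, abs_zero]; positivity) hm'
  have hsum : ∑ i, (E' (s i) - E (s i)) ≤ (q + 1) * η := by
    calc ∑ i, (E' (s i) - E (s i)) ≤ ∑ _i : Option (Fin q), η :=
          Finset.sum_le_sum fun i _ => by rw [hz i, sub_zero]; exact hcol i
      _ = (q + 1) * η := by rw [Finset.sum_const, Finset.card_univ, nsmul_eq_mul, hcR]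
  have P2' : |E (fun h => ∏ i, limTr M (a i h)) - E' (fun h => ∏ i, limTr M (a i h))| ≤ M ^ q * ((q + 1) * η) := by
    refine P2.trans ?_
    rw [hcard, Nat.add_sub_cancel]
    exact mul_le_mul_of_nonneg_left hsum (by positivity)
  rw [hcR] at P1 P3
  simp only [Fintype.prod_option] at P1 P2' P3
  have A1 := abs_le.1 P1
  have A2 := abs_le.1 P2'
  have A3 := abs_le.1 P3
  have A4 := abs_le.1 ins
  rw [abs_le]
  constructor <;> linarith [A1.1, A1.2, A2.1, A2.2, A3.1, A3.2, A4.1, A4.2]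

/-! ### binding to the frozen law -/

theorem lmt_exp_fz {x : ℝ} (hx : 0 < x) (F : Finset TV) : LmtExp (htFz x F) where
  add := fun G G' => ht_E_add x _ 0 G G'
  smul := fun c G => ht_E_smul x _ 0 c G
  mono := fun _ _ h => ht_E_mono hx _ 0 fun H _ => h H
  one := ht_E_const hx (ht_adm_zero _) 1

theorem lmt_exp_pi {S : Finset (TV → ℤ)} {π : (TV → ℤ) → ℝ} (h0 : ∀ h, 0 ≤ π h) (h1 : ∑ h ∈ S, π h = 1) :
    LmtExp (fun G : (TV → ℤ) → ℝ => ∑ h ∈ S, π h * G h) where
  add := fun G G' => by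
    rw [← Finset.sum_add_distrib]
    exact Finset.sum_congr rfl fun h _ => by ring
  smul := fun c G => by
    rw [Finset.mul_sum]
    exact Finset.sum_congr rfl fun h _ => by ring
  mono := fun _ _ h => Finset.sum_le_sum fun a _ => mul_le_mul_of_nonneg_left (h a) (h0 a)
  one := by simpa using h1

theorem lmt_W_abs (δ : ℝ) (g : ℝ × ℝ → ℝ) (u : TV) : |latW δ g u| ≤ latW δ (fun y => |g y|) u :=
  abs_integral_le_integral_abs

/-- `X g` is a difference of monotone observables, controlled by `X |g|` -/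
theorem lmt_sm_lip (δ : ℝ) (F : Finset TV) (g : ℝ × ℝ → ℝ) {h h' : TV → ℤ} (hh : h ≤ h') :
    |htSm δ F g h' - htSm δ F g h| ≤ htSm δ F (fun y => |g y|) h' - htSm δ F (fun y => |g y|) h := by
  unfold htSm latPair
  rw [← Finset.sum_sub_distrib, ← Finset.sum_sub_distrib]
  refine (Finset.abs_sum_le_sum_abs _ _).trans (Finset.sum_le_sum fun u _ => ?_)
  have hu : (0 : ℝ) ≤ (h' u : ℝ) - (h u : ℝ) := by
    have : h u ≤ h' u := hh u
    have : (h u : ℝ) ≤ (h' u : ℝ) := by exact_mod_cast this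
    linarith
  rw [← mul_sub, ← mul_sub, abs_mul, abs_of_nonneg hu]
  exact mul_le_mul_of_nonneg_right (lmt_W_abs δ g u) hu

/-- the zero boundary law is invariant under `h ↦ -h` -/
theorem lmt_E_flip (x : ℝ) (A : Finset TV) (G : (TV → ℤ) → ℝ) : htE x A 0 (fun h => G (-h)) = htE x A 0 G := by
  have hadm : ∀ h, HtAdm A 0 h → HtAdm A 0 (-h) := by
    intro h hh
    refine ⟨fun u hu => by simp [hh.1 u hu], fun u hu d hd => ?_⟩
    have := hh.2 u hu d hd
    rw [Pi.neg_apply, Pi.neg_apply, ← abs_neg]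
    simpa [sub_eq_add_neg, add_comm] using this
  have hN : ∀ h, htN A (-h) = htN A h := by
    intro h
    unfold htN
    refine Finset.sum_congr rfl fun p _ => ?_
    simp only [Pi.neg_apply, ne_eq, neg_inj]
  unfold htE
  congr 1
  refine Finset.sum_nbij' (fun h => -h) (fun h => -h) ?_ ?_ ?_ ?_ ?_
  · intro h hh; exact ht_mem_cfg.2 (hadm h (ht_mem_cfg.1 hh))
  · intro h hh; exact ht_mem_cfg.2 (hadm h (ht_mem_cfg.1 hh))
  · intro h _; exact neg_neg h
  · intro h _; exact neg_neg h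
  · intro h _
    unfold htWt
    rw [hN]

theorem lmt_sm_neg (δ : ℝ) (F : Finset TV) (g : ℝ × ℝ → ℝ) (h : TV → ℤ) : htSm δ F g (-h) = -htSm δ F g h := by
  unfold htSm latPair
  rw [← Finset.sum_neg_distrib]
  exact Finset.sum_congr rfl fun u _ => by simp

/-- the smeared field is centred -/
theorem lmt_mean_zero (x δ : ℝ) (F : Finset TV) (g : ℝ × ℝ → ℝ) : htFz x F (fun h => htSm δ F g h) = 0 := by
  have h1 := lmt_E_flip x (latInt F) (fun h => htSm δ F g h)
  simp only [lmt_sm_neg] at h1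
  rw [ht_E_neg_fun] at h1
  unfold htFz
  linarith

theorem LimArr.test0 {D : Set (ℝ × ℝ)} {z0 : ℝ × ℝ} {ρ : ℝ} {q : ℕ} {φ : ℝ × ℝ → ℝ} {g : Fin q → ℝ × ℝ → ℝ}
    (H : LimArr D z0 ρ q φ g) : WkTest D (lap2 φ) := by
  have hρ := H.rho_pos
  have hsub : tsupport φ ⊆ wkBall z0 (ρ / 1000) := by
    intro y hy
    by_contra hn
    exact H.phi_supp y (not_le.1 hn).le hy
  have hc : HasCompactSupport φ :=
    (wk_ball_compact z0 (by positivity : (0 : ℝ) ≤ ρ / 1000)).of_isClosed_subset (isClosed_tsupport φ) hsub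
  refine ⟨wkg_lap_continuous (H.phi_smooth.of_le (WithTop.coe_le_coe.2 le_top)), wkg_lap_compact hc, ?_⟩
  exact (wkg_lap_tsupport φ).trans (hsub.trans ((wk_ball_mono z0 (by positivity) (by linarith)).trans H.ball))

theorem LimArr.test {D : Set (ℝ × ℝ)} {z0 : ℝ × ℝ} {ρ : ℝ} {q : ℕ} {φ : ℝ × ℝ → ℝ} {g : Fin q → ℝ × ℝ → ℝ}
    (H : LimArr D z0 ρ q φ g) (l : Fin q) : WkTest D (g l) := by
  obtain ⟨c, s, hs, -, hD, -, h0⟩ := H.g_supp l
  have hsub : tsupport (g l) ⊆ wkBall c s :=
    closure_minimal (fun y hy => by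
      by_contra hn
      exact hy (h0 y hn)) (wk_ball_closed c s)
  exact ⟨H.g_cont l, (wk_ball_compact c hs.le).of_isClosed_subset (isClosed_tsupport _) hsub, hsub.trans hD⟩

/-- **TEX[limit:transfer]**: the insertion identity passes from the upper bracket to the true field -/
theorem lim_trans {x : ℝ} (hx : 0 < x) (hSM : LimSM x) {D : Set (ℝ × ℝ)} (hD : IsOpen D) (hB : Bornology.IsBounded D)
    {δ : ℕ → ℝ} {F : ℕ → Finset TV} (hF : IsInsideApprox D δ F) (hBRK : LimBRK x D δ F) : LimIns x D δ F := by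
  intro z0 ρ q φ g hA
  obtain ⟨C', hC'⟩ := hBRK z0 ρ q φ g hA (q + 1)
  obtain ⟨C0, h0⟩ := lm_test_mom hx hSM hD hB hF hA.test0 (q + 1)
  choose Cl hl using fun l => lm_test_mom hx hSM hD hB hF (hA.test l) (q + 1)
  set C : ℝ := |C'| + |C0| + ∑ l, |Cl l| with hCdef
  have hsn : 0 ≤ ∑ l, |Cl l| := Finset.sum_nonneg fun l _ => abs_nonneg _
  have hC0 : 0 ≤ C := by positivity
  have b' : C' ≤ C := by linarith [le_abs_self C', abs_nonneg C0]
  have b0 : C0 ≤ C := by linarith [le_abs_self C0, abs_nonneg C']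
  have bl : ∀ l, Cl l ≤ C := fun l => by
    have : |Cl l| ≤ ∑ l, |Cl l| := Finset.single_le_sum (f := fun l => |Cl l|) (fun l _ => abs_nonneg _) (Finset.mem_univ l)
    linarith [le_abs_self (Cl l), abs_nonneg C', abs_nonneg C0]
  rw [Metric.tendsto_nhds]
  intro ε hε
  set K1 : ℝ := 2 * (((q : ℝ) + 1) * (1 + 2 * (((q : ℝ) + 1) * C))) with hK1
  have hK1n : 0 ≤ K1 := by positivity
  set M : ℝ := 4 * K1 / ε + 1 with hM
  have hMpos : 0 < M := by positivity
  set η : ℝ := ε / (4 * (M ^ q * ((q : ℝ) + 1) + 1)) with hη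
  have hηpos : 0 < η := by positivity
  filter_upwards [hC' M hMpos η hηpos, h0, eventually_all.2 hl] with n hbr a0 al
  obtain ⟨S, π, hbr⟩ := hbr
  have key := lmt_mesh (lmt_exp_fz hx (F n)) (lmt_exp_pi hbr.nonneg hbr.mass)
    (fun G hG => hbr.dom G fun h h' hh => hG (Pi.le_def.2 hh))
    (fun o h => Option.casesOn o (htSm (δ n) (F n) (lap2 φ) h) fun l => htSm (δ n) (F n) (g l) h)
    (fun o h => Option.casesOn o (htSm (δ n) (F n) (fun y => |lap2 φ y|) h) fun l => htSm (δ n) (F n) (fun y => |g l y|) h)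
    (fun o h h' hh => by
      cases o with
      | none => exact lmt_sm_lip _ _ _ hh
      | some l => exact lmt_sm_lip _ _ _ hh)
    hMpos (even_two_mul (q + 1)) (by omega)
    (fun o => by
      cases o with
      | none => exact lmt_mean_zero _ _ _ _
      | some l => exact lmt_mean_zero _ _ _ _)
    (fun o => by
      cases o with
      | none => exact hbr.col0
      | some l => exact hbr.col l)
    (C := C)
    (fun o => by
      cases o with
      | none => exact a0.trans b0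
      | some l => exact (al l).trans (bl l))
    (fun o => by
      cases o with
      | none => exact hbr.mom0.trans b'
      | some l => exact (hbr.mom l).trans b')
    hbr.ins
  rw [Real.dist_eq, sub_zero]
  refine lt_of_le_of_lt key ?_
  have e1 : 2 * (((q : ℝ) + 1) / M * (1 + 2 * (((q : ℝ) + 1) * C))) = K1 / M := by rw [hK1]; ring
  have e2 : K1 / M ≤ ε / 4 := by
    rw [div_le_iff₀ hMpos, hM]
    have : ε / 4 * (4 * K1 / ε + 1) = K1 + ε / 4 := by field_simp
    rw [this]; linarith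
  have hden : 0 < M ^ q * ((q : ℝ) + 1) + 1 := by positivity
  have e3 : η ≤ ε / 4 := by
    rw [hη, div_le_div_iff₀ (by positivity) (by norm_num)]
    have : 0 ≤ M ^ q * ((q : ℝ) + 1) := by positivity
    nlinarith
  have e4 : M ^ q * (((q : ℝ) + 1) * η) ≤ ε / 4 := by
    have : M ^ q * (((q : ℝ) + 1) * η) = (M ^ q * ((q : ℝ) + 1)) * ε / (4 * (M ^ q * ((q : ℝ) + 1) + 1)) := by
      rw [hη]; ring
    rw [this, div_le_div_iff₀ (by positivity) (by norm_num)]
    have : 0 ≤ M ^ q * ((q : ℝ) + 1) := by positivity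
    nlinarith
  rw [e1]
  linarith

end Claimed.Agent.R291
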