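import Claimed.Agent.R291.Lim.Kit165
import Claimed.Agent.R291.Lim.Sm

/-!
# Row 291 (S0539), Lim/Ult : THE LIMIT FUNCTIONALS `T` = ULTRAFILTER LIMITS OF DISCRETE MIXED MOMENTS      (owner helper165; prefix `lm_`, defs `lm*`, `Lm*`)

TEX[sec:limit] (07-limit.tex), design of 128/165/181 (`notes/R291/sec7_181.md` sec. 4): no random distributions, no subsequences.
MODEL FREE: a *moment system* is a sequence of finite weighted spaces `(A n, w n)` on types `Ω n` with a field `X n : tests → Ω n → ℝ`.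
Moments are indexed by MULTISETS of tests, so symmetry is built in (`∏ i, X (f i) = (Finset.univ.val.map ..).prod` by definition).

* `lmM A w X s`      mixed moment `E ∏_{g ∈ s} X g` at one mesh
* `LmOk V A w X`     the hypotheses: weights, exact linearity of `X n` on the tests `V`, all even moments of one test eventually bounded
* `lmT 𝒰 A w X s`    the limit functional
* `lm_T_tendsto`     the moments converge to it along `𝒰`;  `lm_T_zero`, `lm_T_add`, `lm_T_smul`, `lm_T_sum` (multilinearity)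
* `lm_T_abs_le`, `lm_T_eq`  every "eventually in `n`" bound / limit passes to `T`
* `lm_T_holder`      `E_n (X_n g)^p ≤ B(g)^p` eventually ⟹ `|T s| ≤ (1 + card s) ∏ B`
* `lm_of_T`          if `T = L` for EVERY ultrafilter then the moments converge to `L` (the way back)
* `LmMul V T`        the abstract record "symmetric multilinear on tests" consumed by `Lim/Chain` and by unit WICK
-/

set_option autoImplicit false

namespace Claimed.Agent.R291

open MeasureTheory Filter Topology Set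
open Claims Claims.C0467

/-- mixed moment at one mesh -/
noncomputable def lmM {Ω τ : Type*} (A : Finset Ω) (w : Ω → ℝ) (X : τ → Ω → ℝ) (s : Multiset τ) : ℝ :=
  lmE A w (fun h => (s.map fun g => X g h).prod)

/-- a moment system on the tests `V` -/
structure LmOk {Ω : ℕ → Type} {τ : Type} [AddCommGroup τ] [Module ℝ τ] (V : Submodule ℝ τ) (A : ∀ n, Finset (Ω n))
    (w : ∀ n, Ω n → ℝ) (X : ∀ n, τ → Ω n → ℝ) : Prop where
  wnn : ∀ n, ∀ a ∈ A n, 0 ≤ w n a
  Zpos : ∀ n, 0 < ∑ a ∈ A n, w n a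
  add : ∀ n g g', g ∈ V → g' ∈ V → ∀ h ∈ A n, X n (g + g') h = X n g h + X n g' h
  smul : ∀ n (c : ℝ) g, g ∈ V → ∀ h ∈ A n, X n (c • g) h = c * X n g h
  bdd : ∀ g, g ∈ V → ∀ p : ℕ, Even p → ∃ C : ℝ, ∀ᶠ n in atTop, lmE (A n) (w n) (fun h => X n g h ^ p) ≤ C

/-- the limit functional -/
noncomputable def lmT {Ω : ℕ → Type} {τ : Type} (𝒰 : Ultrafilter ℕ) (A : ∀ n, Finset (Ω n))
    (w : ∀ n, Ω n → ℝ) (X : ∀ n, τ → Ω n → ℝ) (s : Multiset τ) : ℝ :=
  lmU 𝒰 (fun n => lmM (A n) (w n) (X n) s)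

/-- symmetric (multisets) multilinear functional on the tests `V` -/
structure LmMul {τ : Type} [AddCommGroup τ] [Module ℝ τ] (V : Submodule ℝ τ) (T : Multiset τ → ℝ) : Prop where
  add : ∀ g g' s, g ∈ V → g' ∈ V → (∀ f ∈ s, f ∈ V) → T ((g + g') ::ₘ s) = T (g ::ₘ s) + T (g' ::ₘ s)
  smul : ∀ (c : ℝ) g s, g ∈ V → (∀ f ∈ s, f ∈ V) → T ((c • g) ::ₘ s) = c * T (g ::ₘ s)

theorem lm_ult_eqns_cite : True := by
  have := @lmM.eq_1.{0, 0}
  have := @lmT.eq_1
  trivial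

section sys

variable {Ω : ℕ → Type} {τ : Type} [AddCommGroup τ] [Module ℝ τ] {V : Submodule ℝ τ} {A : ∀ n, Finset (Ω n)}
  {w : ∀ n, Ω n → ℝ} {X : ∀ n, τ → Ω n → ℝ}

theorem lm_M_zero (H : LmOk V A w X) (n : ℕ) : lmM (A n) (w n) (X n) 0 = 1 := by
  unfold lmM
  simpa using lm_E_const (H.Zpos n) 1

theorem lm_M_add (H : LmOk V A w X) (n : ℕ) {g g' : τ} (hg : g ∈ V) (hg' : g' ∈ V) (s : Multiset τ) :
    lmM (A n) (w n) (X n) ((g + g') ::ₘ s) = lmM (A n) (w n) (X n) (g ::ₘ s) + lmM (A n) (w n) (X n) (g' ::ₘ s) := by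
  unfold lmM
  rw [← lm_E_add]
  refine lm_E_congr _ _ fun h hh => ?_
  simp only [Multiset.map_cons, Multiset.prod_cons]
  rw [H.add n g g' hg hg' h hh]
  ring

theorem lm_M_smul (H : LmOk V A w X) (n : ℕ) (c : ℝ) {g : τ} (hg : g ∈ V) (s : Multiset τ) :
    lmM (A n) (w n) (X n) ((c • g) ::ₘ s) = c * lmM (A n) (w n) (X n) (g ::ₘ s) := by
  unfold lmM
  rw [← lm_E_mul_left]
  refine lm_E_congr _ _ fun h hh => ?_
  simp only [Multiset.map_cons, Multiset.prod_cons]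
  rw [H.smul n c g hg h hh]
  ring

/-- quantitative bound at finite mesh -/
theorem lm_M_holder (H : LmOk V A w X) (s : Multiset τ) (B : τ → ℝ) {p : ℕ} (hp : Even p) (hc : s.card ≤ p)
    (hB : ∀ g ∈ s, 0 < B g) (hX : ∀ g ∈ s, ∀ᶠ n in atTop, lmE (A n) (w n) (fun h => X n g h ^ p) ≤ B g ^ p) :
    ∀ᶠ n in atTop, |lmM (A n) (w n) (X n) s| ≤ (1 + s.card) * (s.map B).prod := by
  have hall : ∀ᶠ n in atTop, ∀ g ∈ s, lmE (A n) (w n) (fun h => X n g h ^ p) ≤ B g ^ p := by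
    clear hB hc
    induction s using Multiset.induction_on with
    | empty => simp
    | cons g s ih =>
      have h1 := hX g (Multiset.mem_cons_self _ _)
      have h2 := ih fun g hg => hX g (Multiset.mem_cons_of_mem hg)
      filter_upwards [h1, h2] with n a1 a2 f hf
      rcases Multiset.mem_cons.1 hf with rfl | hf
      · exact a1
      · exact a2 f hf
  filter_upwards [hall] with n hn
  exact lm_E_mprod_le (H.wnn n) (H.Zpos n) s (fun g h => X n g h) B hp hc hB hn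

/-- the mixed moments of tests are eventually bounded -/
theorem lm_M_bdd (H : LmOk V A w X) {s : Multiset τ} (hs : ∀ g ∈ s, g ∈ V) :
    ∃ C : ℝ, ∀ᶠ n in atTop, |lmM (A n) (w n) (X n) s| ≤ C := by
  classical
  have hp : Even (2 * s.card) := even_two_mul _
  choose! C hC using fun g (hg : g ∈ V) => H.bdd g hg (2 * s.card) hp
  refine ⟨_, lm_M_holder H s (fun g => 1 + |C g|) hp (by omega) (fun g _ => by positivity) fun g hg => ?_⟩
  filter_upwards [hC g (hs g hg)] with n hn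
  refine hn.trans ?_
  calc C g ≤ 1 + |C g| := by linarith [le_abs_self (C g)]
    _ ≤ (1 + |C g|) ^ (2 * s.card) := by
      rcases Nat.eq_zero_or_pos s.card with h0 | h0
      · exfalso
        rw [Multiset.card_eq_zero] at h0
        subst h0
        simp at hg
      · exact le_self_pow₀ (by linarith [abs_nonneg (C g)]) (by omega)

variable (𝒰 : Ultrafilter ℕ)

theorem lm_T_tendsto (H : LmOk V A w X) (hU : (𝒰 : Filter ℕ) ≤ atTop) {s : Multiset τ} (hs : ∀ g ∈ s, g ∈ V) :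
    Tendsto (fun n => lmM (A n) (w n) (X n) s) 𝒰 (𝓝 (lmT 𝒰 A w X s)) := by
  obtain ⟨C, hC⟩ := lm_M_bdd H hs
  exact lm_U_tendsto 𝒰 (hU hC)

theorem lm_T_zero (H : LmOk V A w X) : lmT 𝒰 A w X 0 = 1 := by
  unfold lmT
  rw [funext fun n => lm_M_zero H n]
  exact lm_U_const 𝒰 1

omit [AddCommGroup τ] [Module ℝ τ] in
theorem lm_T_abs_le (hU : (𝒰 : Filter ℕ) ≤ atTop) {s : Multiset τ} {C : ℝ}
    (h : ∀ᶠ n in atTop, |lmM (A n) (w n) (X n) s| ≤ C) : |lmT 𝒰 A w X s| ≤ C :=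
  lm_U_abs_le 𝒰 (hU h)

omit [AddCommGroup τ] [Module ℝ τ] in
theorem lm_T_eq (hU : (𝒰 : Filter ℕ) ≤ atTop) {s : Multiset τ} {L : ℝ}
    (h : Tendsto (fun n => lmM (A n) (w n) (X n) s) atTop (𝓝 L)) : lmT 𝒰 A w X s = L :=
  lm_U_eq 𝒰 (h.mono_left hU)

theorem lm_T_add (H : LmOk V A w X) (hU : (𝒰 : Filter ℕ) ≤ atTop) {g g' : τ} {s : Multiset τ} (hg : g ∈ V) (hg' : g' ∈ V)
    (hs : ∀ f ∈ s, f ∈ V) : lmT 𝒰 A w X ((g + g') ::ₘ s) = lmT 𝒰 A w X (g ::ₘ s) + lmT 𝒰 A w X (g' ::ₘ s) := by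
  have h1 := lm_T_tendsto 𝒰 H hU (s := g ::ₘ s) (by
    intro f hf; rcases Multiset.mem_cons.1 hf with rfl | hf; exacts [hg, hs f hf])
  have h2 := lm_T_tendsto 𝒰 H hU (s := g' ::ₘ s) (by
    intro f hf; rcases Multiset.mem_cons.1 hf with rfl | hf; exacts [hg', hs f hf])
  refine lm_U_eq 𝒰 ((h1.add h2).congr fun n => ?_)
  exact (lm_M_add H n hg hg' s).symm

theorem lm_T_smul (H : LmOk V A w X) (hU : (𝒰 : Filter ℕ) ≤ atTop) (c : ℝ) {g : τ} {s : Multiset τ} (hg : g ∈ V)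
    (hs : ∀ f ∈ s, f ∈ V) : lmT 𝒰 A w X ((c • g) ::ₘ s) = c * lmT 𝒰 A w X (g ::ₘ s) := by
  have h1 := lm_T_tendsto 𝒰 H hU (s := g ::ₘ s) (by
    intro f hf; rcases Multiset.mem_cons.1 hf with rfl | hf; exacts [hg, hs f hf])
  refine lm_U_eq 𝒰 ((h1.const_mul c).congr fun n => ?_)
  exact (lm_M_smul H n c hg s).symm

/-- the limit functional is symmetric multilinear on tests -/
theorem lm_T_mul (H : LmOk V A w X) (hU : (𝒰 : Filter ℕ) ≤ atTop) : LmMul V (lmT 𝒰 A w X) :=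
  ⟨fun _ _ _ hg hg' hs => lm_T_add 𝒰 H hU hg hg' hs, fun c _ _ hg hs => lm_T_smul 𝒰 H hU c hg hs⟩

theorem lm_T_holder (H : LmOk V A w X) (hU : (𝒰 : Filter ℕ) ≤ atTop) (s : Multiset τ) (B : τ → ℝ) {p : ℕ}
    (hp : Even p) (hc : s.card ≤ p) (hB : ∀ g ∈ s, 0 < B g)
    (hX : ∀ g ∈ s, ∀ᶠ n in atTop, lmE (A n) (w n) (fun h => X n g h ^ p) ≤ B g ^ p) :
    |lmT 𝒰 A w X s| ≤ (1 + s.card) * (s.map B).prod :=
  lm_T_abs_le 𝒰 hU (lm_M_holder H s B hp hc hB hX)

/-- THE WAY BACK: if the limit functional takes the value `L` for every ultrafilter, the moments converge to `L` -/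
theorem lm_of_T (H : LmOk V A w X) {s : Multiset τ} (hs : ∀ g ∈ s, g ∈ V) {L : ℝ}
    (h : ∀ 𝒰 : Ultrafilter ℕ, (𝒰 : Filter ℕ) ≤ atTop → lmT 𝒰 A w X s = L) :
    Tendsto (fun n => lmM (A n) (w n) (X n) s) atTop (𝓝 L) := by
  rw [tendsto_iff_ultrafilter]
  intro 𝒰 hU
  have := lm_T_tendsto 𝒰 H hU hs
  rwa [h 𝒰 hU] at this

end sys

/-! ### algebra of symmetric multilinear functionals -/

section mul

variable {τ : Type} [AddCommGroup τ] [Module ℝ τ] {V : Submodule ℝ τ} {T : Multiset τ → ℝ}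

theorem lm_mul_zero (H : LmMul V T) {s : Multiset τ} (hs : ∀ f ∈ s, f ∈ V) : T (0 ::ₘ s) = 0 := by
  have := H.smul 0 0 s V.zero_mem hs
  simpa using this

theorem lm_mul_neg (H : LmMul V T) {g : τ} (hg : g ∈ V) {s : Multiset τ} (hs : ∀ f ∈ s, f ∈ V) :
    T ((-g) ::ₘ s) = -T (g ::ₘ s) := by
  have := H.smul (-1) g s hg hs
  simpa using this

theorem lm_mul_sub (H : LmMul V T) {g g' : τ} (hg : g ∈ V) (hg' : g' ∈ V) {s : Multiset τ} (hs : ∀ f ∈ s, f ∈ V) :
    T ((g - g') ::ₘ s) = T (g ::ₘ s) - T (g' ::ₘ s) := by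
  rw [sub_eq_add_neg, H.add g (-g') s hg (V.neg_mem hg') hs, lm_mul_neg H hg' hs, sub_eq_add_neg]

theorem lm_mul_sum (H : LmMul V T) {ι : Type*} (S : Finset ι) (c : ι → ℝ) (p : ι → τ) (hp : ∀ k ∈ S, p k ∈ V)
    {s : Multiset τ} (hs : ∀ f ∈ s, f ∈ V) : T ((∑ k ∈ S, c k • p k) ::ₘ s) = ∑ k ∈ S, c k * T (p k ::ₘ s) := by
  classical
  induction S using Finset.induction_on with
  | empty => simpa using lm_mul_zero H hs
  | insert k S hk ih =>
    have hpS : ∀ k ∈ S, p k ∈ V := fun j hj => hp j (Finset.mem_insert_of_mem hj)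
    have hpk : p k ∈ V := hp k (Finset.mem_insert_self _ _)
    rw [Finset.sum_insert hk, Finset.sum_insert hk,
      H.add _ _ s (V.smul_mem _ hpk) (V.sum_mem fun j hj => V.smul_mem _ (hpS j hj)) hs, H.smul _ _ s hpk hs, ih hpS]

theorem lm_mem_cons {g : τ} {s : Multiset τ} (hg : g ∈ V) (hs : ∀ f ∈ s, f ∈ V) : ∀ f ∈ g ::ₘ s, f ∈ V := by
  intro f hf
  rcases Multiset.mem_cons.1 hf with rfl | hf
  exacts [hg, hs f hf]

end mul

/-! ### the moment system of the frozen law -/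

/-- the tests of `D` (continuous, compact support inside `D`) as a submodule -/
def lmV (D : Set (ℝ × ℝ)) : Submodule ℝ (ℝ × ℝ → ℝ) where
  carrier := {g | WkTest D g}
  add_mem' := fun h h' => h.add' h'
  zero_mem' := ⟨continuous_const, HasCompactSupport.zero, by
    have : tsupport (0 : ℝ × ℝ → ℝ) = ∅ := by simp [tsupport]
    rw [this]; exact empty_subset _⟩
  smul_mem' := fun c _ h => h.smul' c

theorem lm_mem_V {D : Set (ℝ × ℝ)} {g : ℝ × ℝ → ℝ} : g ∈ lmV D ↔ WkTest D g := Iff.rfl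

/-- the limit functional of the frozen laws along `𝒰` -/
noncomputable def lmTz (x : ℝ) (δ : ℕ → ℝ) (F : ℕ → Finset TV) (𝒰 : Ultrafilter ℕ) (s : Multiset (ℝ × ℝ → ℝ)) : ℝ :=
  lmT 𝒰 (fun n => htCfg (latInt (F n)) 0) (fun n => htWt x (latInt (F n))) (fun n g h => htSm (δ n) (F n) g h) s

theorem lm_sys_eqns_cite : True := by
  have := @lmV.eq_1
  have := @lmTz.eq_1
  trivial

theorem lm_fz_eq (x : ℝ) (F : Finset TV) (G : (TV → ℤ) → ℝ) :
    htFz x F G = lmE (htCfg (latInt F) 0) (htWt x (latInt F)) G := rfl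

/-- the moments of the abstract system are the moments of the frozen law -/
theorem lm_M_eq (x δ : ℝ) (F : Finset TV) (s : Multiset (ℝ × ℝ → ℝ)) :
    lmM (htCfg (latInt F) 0) (htWt x (latInt F)) (fun g h => htSm δ F g h) s
      = htFz x F fun h => (s.map fun g => htSm δ F g h).prod := rfl

/-- ... in the `Fin j →` form of `Defs/Lim` -/
theorem lm_M_fin (x δ : ℝ) (F : Finset TV) {j : ℕ} (g : Fin j → ℝ × ℝ → ℝ) :
    lmM (htCfg (latInt F) 0) (htWt x (latInt F)) (fun g h => htSm δ F g h) (Finset.univ.val.map g) = limM x δ F g := by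
  rw [lm_M_eq]
  unfold limM
  congr 1
  funext h
  rw [Multiset.map_map]
  rfl

theorem lm_W_add (δ : ℝ) {g g' : ℝ × ℝ → ℝ} (hg : Integrable g) (hg' : Integrable g') (u : TV) :
    latW δ (g + g') u = latW δ g u + latW δ g' u := by
  unfold latW
  exact integral_add hg.integrableOn hg'.integrableOn

theorem lm_W_smul (δ c : ℝ) (g : ℝ × ℝ → ℝ) (u : TV) : latW δ (c • g) u = c * latW δ g u := by
  unfold latW
  exact integral_const_mul c _

theorem lm_sm_add (δ : ℝ) (F : Finset TV) {g g' : ℝ × ℝ → ℝ} (hg : Integrable g) (hg' : Integrable g') (h : TV → ℤ) :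
    htSm δ F (g + g') h = htSm δ F g h + htSm δ F g' h := by
  unfold htSm latPair
  rw [← Finset.sum_add_distrib]
  exact Finset.sum_congr rfl fun u _ => by rw [lm_W_add δ hg hg']; ring

theorem lm_sm_smul (δ : ℝ) (F : Finset TV) (c : ℝ) (g : ℝ × ℝ → ℝ) (h : TV → ℤ) :
    htSm δ F (c • g) h = c * htSm δ F g h := by
  unfold htSm latPair
  rw [Finset.mul_sum]
  exact Finset.sum_congr rfl fun u _ => by rw [lm_W_smul]; ring

theorem WkTest.integrable' {D : Set (ℝ × ℝ)} {g : ℝ × ℝ → ℝ} (h : WkTest D g) : Integrable g :=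
  h.cont.integrable_of_hasCompactSupport h.comp

/-- every even moment of a test is eventually bounded (TEX[eq:limit-fixed-moments]) -/
theorem lm_test_mom {x : ℝ} (hx : 0 < x) (hSM : LimSM x) {D : Set (ℝ × ℝ)} (hD : IsOpen D) (hB : Bornology.IsBounded D)
    {δ : ℕ → ℝ} {F : ℕ → Finset TV} (hF : IsInsideApprox D δ F) {g : ℝ × ℝ → ℝ} (hg : WkTest D g) (m : ℕ) :
    ∃ C : ℝ, ∀ᶠ n in atTop, htFz x (F n) (fun h => htSm (δ n) (F n) g h ^ (2 * m)) ≤ C := by
  obtain ⟨C, -, hC⟩ := lim_sm_fixed hx hSM hD hB hF hg.comp hg.sub m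
  obtain ⟨M, hM⟩ := hg.cont.bounded_above_of_compact_support hg.comp
  refine ⟨C * M ^ (2 * m), hC.mono fun n hn => hn M g (fun y => by simpa using hM y) fun y hy => ?_⟩
  exact image_eq_zero_of_notMem_tsupport hy

/-- THE MOMENT SYSTEM OF THE FROZEN LAW -/
theorem lm_ok {x : ℝ} (hx : 0 < x) (hSM : LimSM x) {D : Set (ℝ × ℝ)} (hD : IsOpen D) (hB : Bornology.IsBounded D)
    {δ : ℕ → ℝ} {F : ℕ → Finset TV} (hF : IsInsideApprox D δ F) :
    LmOk (lmV D) (fun n => htCfg (latInt (F n)) 0) (fun n => htWt x (latInt (F n))) (fun n g h => htSm (δ n) (F n) g h) where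
  wnn := fun n a _ => (ht_wt_pos hx _ a).le
  Zpos := fun n => ht_Z_pos_zero hx _
  add := fun n g g' hg hg' h _ => lm_sm_add _ _ (lm_mem_V.1 hg).integrable' (lm_mem_V.1 hg').integrable' h
  smul := fun n c g _ h _ => lm_sm_smul _ _ c g h
  bdd := by
    intro g hg p hp
    obtain ⟨m, rfl⟩ := hp
    obtain ⟨C, hC⟩ := lm_test_mom hx hSM hD hB hF (lm_mem_V.1 hg) m
    refine ⟨C, hC.mono fun n hn => ?_⟩
    rw [← two_mul]
    exact hn

end Claimed.Agent.R291
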